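import Vale.Agent.P248.H432.DefsA

/-! P248: the two forms of joins and products. -/

open Set

namespace Vale.Agent.P248.H432

theorem JoinOf.isJoin {m n N : ℕ} {K : Set (E m)} {L : Set (E n)} {M : Set (E N)}
    (h : JoinOf K L M) : IsJoin K L M := by
  obtain ⟨hN, p, q, f, g, hf, hg, hs, hM⟩ := h
  let F : E m →ₗ[ℝ] E N := hf.mk' f
  let G : E n →ₗ[ℝ] E N := hg.mk' g
  let f' : E m →ᵃ[ℝ] E N := F.toAffineMap + AffineMap.const ℝ _ p
  let g' : E n →ᵃ[ℝ] E N := G.toAffineMap + AffineMap.const ℝ _ q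
  have ef : ∀ x, f' x = p + f x := fun x => by
    change f x + p = p + f x
    exact add_comm _ _
  have eg : ∀ x, g' x = q + g x := fun x => by
    change g x + q = q + g x
    exact add_comm _ _
  have hf0 : f 0 = 0 := F.map_zero
  have hg0 : g 0 = 0 := G.map_zero
  refine ⟨hN, f', g', ?_, ?_⟩
  · have mf : ∀ x, f' x ∈ affineSpan ℝ (range f' ∪ range g') :=
      fun x => subset_affineSpan ℝ _ (Or.inl ⟨x, rfl⟩)
    have mg : ∀ x, g' x ∈ affineSpan ℝ (range f' ∪ range g') :=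
      fun x => subset_affineSpan ℝ _ (Or.inr ⟨x, rfl⟩)
    rw [← AffineSubspace.direction_eq_top_iff_of_nonempty ⟨_, mf 0⟩, eq_top_iff]
    intro z _
    obtain ⟨x, y, r, e⟩ := hs z
    have h1 := AffineSubspace.vsub_mem_direction (mf x) (mf 0)
    have h2 := AffineSubspace.vsub_mem_direction (mg y) (mg 0)
    have h3 := AffineSubspace.vsub_mem_direction (mf 0) (mg 0)
    rw [ef, ef, hf0, add_zero, vsub_eq_sub, add_sub_cancel_left] at h1
    rw [eg, eg, hg0, add_zero, vsub_eq_sub, add_sub_cancel_left] at h2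
    rw [ef, eg, hf0, hg0, add_zero, add_zero, vsub_eq_sub] at h3
    rw [e]
    exact Submodule.add_mem _ (Submodule.add_mem _ h1 h2) (Submodule.smul_mem _ r h3)
  · rw [hM]
    congr 2
    · exact image_congr fun x _ => (ef x).symm
    · exact image_congr fun x _ => (eg x).symm

theorem ProductOf.isProduct {m n N : ℕ} {K : Set (E m)} {L : Set (E n)} {M : Set (E N)}
    (h : ProductOf K L M) : IsProduct K L M := by
  obtain ⟨hN, p, f, g, hf, hg, hs, hM⟩ := h
  refine ⟨hN, p, hf.mk' f, hg.mk' g, ?_, hM⟩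
  rw [eq_top_iff]
  intro z _
  obtain ⟨x, y, e⟩ := hs z
  rw [e]
  exact Submodule.add_mem_sup ⟨x, rfl⟩ ⟨y, rfl⟩

end Vale.Agent.P248.H432
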