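import Vale.Agent.P248.H432.Simplex

/-! P248: the general Mahler conjecture for generated bodies; descent; the tensor power trick. -/

set_option linter.unusedSectionVars false

open MeasureTheory Set Filter
open scoped ENNReal Topology Pointwise

namespace Vale.Agent.P248.H432

/-! joins exist -/

theorem exists_join_maps (m n : ℕ) :
    ∃ (f : E m →ᵃ[ℝ] E (m + n + 1)) (g : E n →ᵃ[ℝ] E (m + n + 1)),
      affineSpan ℝ (range f ∪ range g) = ⊤ := by
  let σ := jix (m := m) (n := n) (N := m + n + 1) rfl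
  let B : Module.Basis (Unit ⊕ (Fin m ⊕ Fin n)) ℝ (E (m + n + 1)) := (sb (m + n + 1)).reindex σ.symm
  let A : E m →ₗ[ℝ] E (m + n + 1) := (sb m).constr ℝ fun i => B (Sum.inr (Sum.inl i))
  let A' : E n →ₗ[ℝ] E (m + n + 1) := (sb n).constr ℝ fun i => B (Sum.inr (Sum.inr i))
  let f : E m →ᵃ[ℝ] E (m + n + 1) := A.toAffineMap + AffineMap.const ℝ _ (B (Sum.inl ()))
  let g : E n →ᵃ[ℝ] E (m + n + 1) := A'.toAffineMap
  refine ⟨f, g, ?_⟩
  have hne : (affineSpan ℝ (range f ∪ range g) : Set (E (m + n + 1))).Nonempty :=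
    ⟨g 0, subset_affineSpan ℝ _ (Or.inr ⟨0, rfl⟩)⟩
  rw [← AffineSubspace.direction_eq_top_iff_of_nonempty hne, eq_top_iff, ← B.span_eq,
    Submodule.span_le]
  rintro _ ⟨i, rfl⟩
  have hf : ∀ x, f x = A x + B (Sum.inl ()) := fun x => rfl
  have hg : ∀ x, g x = A' x := fun x => rfl
  have mf : ∀ x, f x ∈ affineSpan ℝ (range f ∪ range g) :=
    fun x => subset_affineSpan ℝ _ (Or.inl ⟨x, rfl⟩)
  have mg : ∀ x, g x ∈ affineSpan ℝ (range f ∪ range g) :=
    fun x => subset_affineSpan ℝ _ (Or.inr ⟨x, rfl⟩)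
  rcases i with ⟨⟩ | i | j
  · have h := AffineSubspace.vsub_mem_direction (mf 0) (mg 0)
    rw [hf, hg, map_zero, map_zero, zero_add, vsub_eq_sub, sub_zero] at h
    exact h
  · have h := AffineSubspace.vsub_mem_direction (mf (sb m i)) (mf 0)
    rw [hf, hf, map_zero, zero_add, vsub_eq_sub, add_sub_cancel_right,
      Module.Basis.constr_basis] at h
    exact h
  · have h := AffineSubspace.vsub_mem_direction (mg (sb n j)) (mg 0)
    rw [hg, hg, map_zero, vsub_eq_sub, sub_zero, Module.Basis.constr_basis] at h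
    exact h

theorem exists_join {m n : ℕ} (K : Set (E m)) (L : Set (E n)) :
    ∃ M : Set (E (m + n + 1)), IsJoin K L M := by
  obtain ⟨f, g, h⟩ := exists_join_maps m n
  exact ⟨_, rfl, f, g, h, rfl⟩

theorem isSimplex_point : IsSimplex (univ : Set (E 0)) := by
  have : Subsingleton (Fin (0 + 1)) := inferInstanceAs (Subsingleton (Fin 1))
  refine ⟨fun _ => 0, affineIndependent_of_subsingleton ℝ _, ?_⟩
  ext x
  simp only [mem_univ, true_iff]
  have : x = 0 := Subsingleton.elim _ _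
  rw [this]
  exact subset_convexHull ℝ _ ⟨0, rfl⟩

theorem ratio_simplex {n : ℕ} {K : Set (E n)} (h : IsSimplex K) : mahlerRatio K = 1 :=
  ratio_eq_one_iff.2 h.volumeProduct_eq

/-- the general Mahler conjecture in dimension `n`, with its equality case -/
def Q2 (n : ℕ) : Prop := ∀ K : Set (E n), IsConvexBody K →
  1 ≤ mahlerRatio K ∧ (mahlerRatio K = 1 ↔ IsSimplex K)

theorem Q2_down_one {n : ℕ} (h : Q2 (n + 0 + 1)) : Q2 n := by
  intro K hK
  obtain ⟨M, hM⟩ := exists_join K (univ : Set (E 0))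
  have hb := isSimplex_point.isConvexBody
  have h1 := h M (hM.body hK hb)
  have h2 := hM.ratio_eq hK hb
  rw [ratio_simplex isSimplex_point, mul_one] at h2
  rw [← h2]
  refine ⟨h1.1, fun h3 => hM.simplex_left hK hb (h1.2.1 h3), fun h3 => ?_⟩
  rw [h2]
  exact ratio_simplex h3

/-- the conjecture in dimension `N` implies it in all lower dimensions -/
theorem Q2_down {N : ℕ} (h : Q2 N) {n : ℕ} (hn : n ≤ N) : Q2 n := by
  induction N with
  | zero =>
    obtain rfl : n = 0 := by omega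
    exact h
  | succ N ih =>
    rcases Nat.lt_or_ge N n with h1 | h1
    · obtain rfl : n = N + 1 := by omega
      exact h
    · exact ih (Q2_down_one h) h1

theorem Q2_iff {n : ℕ} : Q2 n ↔ ∀ K : Set (E n), IsConvexBody K →
    ENNReal.ofReal (simplexVal n) ≤ volumeProduct K ∧
      (volumeProduct K = ENNReal.ofReal (simplexVal n) ↔ IsSimplex K) := by
  unfold Q2
  simp only [one_le_ratio_iff, ratio_eq_one_iff]

theorem Q2_three : Q2 3 := by
  rw [Q2_iff]
  intro K hK
  have h : simplexVal 3 = 64 / 9 := by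
    norm_num [simplexVal, Nat.factorial]
  rw [h]
  exact mahler_three hK

/-! products -/

/-- `((j+2)/(j+1))^(j+2)` is strictly decreasing -/
theorem phi_lt (j : ℕ) : (((j : ℝ) + 3) / ((j : ℝ) + 2)) ^ (j + 3) <
    (((j : ℝ) + 2) / ((j : ℝ) + 1)) ^ (j + 2) := by
  have h1 : (0 : ℝ) < (j : ℝ) + 1 := by positivity
  have h2 : (0 : ℝ) < (j : ℝ) + 2 := by positivity
  have h3 : (0 : ℝ) < (j : ℝ) + 3 := by positivity
  -- strict Bernoulli
  set x : ℝ := 1 / (((j : ℝ) + 1) * ((j : ℝ) + 3)) with hx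
  have hx0 : 0 < x := by positivity
  have hb : 1 + ((j : ℝ) + 3) * x < (1 + x) ^ (j + 3) := by
    have h4 := one_add_mul_le_pow (a := x) (by linarith) (j + 2)
    have e : (1 + x) ^ (j + 3) = (1 + x) ^ (j + 2) * (1 + x) := by ring
    rw [e]
    push_cast at h4
    have h5 : (1 + ((j : ℝ) + 2) * x) * (1 + x) ≤ (1 + x) ^ (j + 2) * (1 + x) :=
      mul_le_mul_of_nonneg_right h4 (by linarith)
    have h6 : 0 < ((j : ℝ) + 2) * x * x := by positivity
    nlinarith
  have e1 : 1 + x = (((j : ℝ) + 2) / ((j : ℝ) + 1)) / (((j : ℝ) + 3) / ((j : ℝ) + 2)) := by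
    rw [hx]
    field_simp
    ring
  have e2 : 1 + ((j : ℝ) + 3) * x = ((j : ℝ) + 2) / ((j : ℝ) + 1) := by
    rw [hx]
    field_simp
    ring
  rw [e1, e2, div_pow, lt_div_iff₀ (by positivity)] at hb
  have e3 : (((j : ℝ) + 2) / ((j : ℝ) + 1)) ^ (j + 3) =
      (((j : ℝ) + 2) / ((j : ℝ) + 1)) * (((j : ℝ) + 2) / ((j : ℝ) + 1)) ^ (j + 2) := by ring
  rw [e3] at hb
  exact lt_of_mul_lt_mul_left hb (by positivity)

theorem phi_anti : StrictAnti fun j : ℕ => (((j : ℝ) + 2) / ((j : ℝ) + 1)) ^ (j + 2) := by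
  refine strictAnti_nat_of_succ_lt fun j => ?_
  have h := phi_lt j
  push_cast
  have e1 : (j : ℝ) + 1 + 2 = j + 3 := by ring
  have e2 : (j : ℝ) + 1 + 1 = j + 2 := by ring
  rw [e1, e2]
  exact h

/-- the factor of the product law -/
noncomputable def pc (m n : ℕ) : ℝ :=
  (m.factorial : ℝ) * n.factorial / (m + n).factorial * (simplexVal m * simplexVal n) /
    simplexVal (m + n)

theorem pc_zero (n : ℕ) : pc 0 n = 1 := by
  unfold pc
  have h : simplexVal 0 = 1 := by norm_num [simplexVal]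
  have hn := (simplexVal_pos n).ne'
  have hf : (n.factorial : ℝ) ≠ 0 := by positivity
  rw [h, Nat.zero_add, Nat.factorial_zero]
  field_simp
  simp

theorem pc_succ (m n : ℕ) : pc (m + 1) n * (((m + n : ℕ) : ℝ) + 2) ^ (m + n + 2) *
      ((m : ℝ) + 1) ^ (m + 2) =
    pc m n * (((m : ℝ) + 2) ^ (m + 2) * (((m + n : ℕ) : ℝ) + 1) ^ (m + n + 2)) := by
  unfold pc simplexVal
  have e1 : m + 1 + n = m + n + 1 := by ring
  rw [e1, Nat.factorial_succ, Nat.factorial_succ]
  push_cast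
  have hm : (m.factorial : ℝ) ≠ 0 := by positivity
  have hn : (n.factorial : ℝ) ≠ 0 := by positivity
  have hmn : ((m + n).factorial : ℝ) ≠ 0 := by positivity
  have h1 : (m : ℝ) + n + 1 ≠ 0 := by positivity
  have h2 : (m : ℝ) + n + 1 + 1 ≠ 0 := by positivity
  have h3 : (m : ℝ) + 1 ≠ 0 := by positivity
  have h4 : (n : ℝ) + 1 ≠ 0 := by positivity
  have e2 : (m : ℝ) + n + 2 = m + n + 1 + 1 := by ring
  have e3 : (m : ℝ) + 2 = m + 1 + 1 := by ring
  rw [e2, e3]
  field_simp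
  ring

end Vale.Agent.P248.H432
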