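import Vale.Agent.P248.H432.MixLaw

/-! P248: convex hulls of `n + 2` points. -/

set_option linter.unusedSectionVars false

open MeasureTheory Set
open scoped ENNReal

namespace Vale.Agent.P248.H432

/-! finite combinations -/

section comb

theorem miss_bij {ι κ : Type*} [Fintype ι] [Fintype κ] {i : κ → ι} (hi : Function.Injective i)
    {a : ι} (ha : ∀ k, i k ≠ a) (hc : Fintype.card ι = Fintype.card κ + 1) :
    Function.Bijective (fun o : Option κ => o.elim a i) := by
  rw [Fintype.bijective_iff_injective_and_card]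
  refine ⟨?_, by rw [Fintype.card_option, hc]⟩
  rintro (_ | k) (_ | l) h
  · rfl
  · exact absurd h.symm (ha l)
  · exact absurd h (ha k)
  · exact congrArg some (hi h)

theorem miss_cases {ι κ : Type*} [Fintype ι] [Fintype κ] {i : κ → ι}
    (hi : Function.Injective i) {a : ι} (ha : ∀ k, i k ≠ a)
    (hc : Fintype.card ι = Fintype.card κ + 1) (j : ι) : j = a ∨ ∃ k, i k = j := by
  obtain ⟨o, ho⟩ := (miss_bij hi ha hc).surjective j
  rcases o with _ | k
  · exact Or.inl ho.symm
  · exact Or.inr ⟨k, ho⟩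

theorem sum_miss {M ι κ : Type*} [AddCommMonoid M] [Fintype ι] [Fintype κ] {i : κ → ι}
    (hi : Function.Injective i) {a : ι} (ha : ∀ k, i k ≠ a)
    (hc : Fintype.card ι = Fintype.card κ + 1) (F : ι → M) :
    ∑ j, F j = F a + ∑ k, F (i k) := by
  rw [← (miss_bij hi ha hc).sum_comp, Fintype.sum_option]
  rfl

theorem exists_miss {ι : Type*} [Fintype ι] (a : ι) {k : ℕ} (hc : Fintype.card ι = k + 1) :
    ∃ i : Fin k → ι, Function.Injective i ∧ ∀ l, i l ≠ a := by
  classical
  have h1 := Fintype.card_congr (Equiv.optionSubtypeNe a)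
  rw [Fintype.card_option, hc, Nat.add_right_cancel_iff] at h1
  let e : Fin k ≃ {j // j ≠ a} := Fintype.equivOfCardEq (by rw [Fintype.card_fin, h1])
  exact ⟨fun l => (e l).1, Subtype.val_injective.comp e.injective, fun l => (e l).2⟩

theorem indep_iff {V ι : Type*} [AddCommGroup V] [Module ℝ V] [Fintype ι] {v : ι → V} :
    AffineIndependent ℝ v ↔ ∀ w : ι → ℝ, ∑ i, w i = 0 → ∑ i, w i • v i = 0 → w = 0 := by
  classical
  rw [affineIndependent_iff]
  constructor
  · intro h w h1 h2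
    funext i
    exact h Finset.univ w h1 h2 i (Finset.mem_univ i)
  · intro h s w h1 h2 i hi
    have h3 := h (fun i => if i ∈ s then w i else 0) (by
      rw [Finset.sum_ite_mem, Finset.univ_inter]; exact h1) (by
      simp_rw [ite_smul, zero_smul]
      rw [Finset.sum_ite_mem, Finset.univ_inter]; exact h2)
    have h4 := congrFun h3 i
    beta_reduce at h4
    rw [if_pos hi] at h4
    exact h4

theorem span_iff {V ι : Type*} [AddCommGroup V] [Module ℝ V] [Fintype ι] {v : ι → V} {x : V} :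
    x ∈ affineSpan ℝ (range v) ↔ ∃ w : ι → ℝ, ∑ i, w i = 1 ∧ ∑ i, w i • v i = x := by
  constructor
  · intro hx
    obtain ⟨w, h1, h2⟩ := eq_affineCombination_of_mem_affineSpan_of_fintype hx
    refine ⟨w, h1, ?_⟩
    rw [h2, Finset.affineCombination_eq_linear_combination _ _ _ h1]
  · rintro ⟨w, h1, rfl⟩
    rw [← Finset.affineCombination_eq_linear_combination _ _ _ h1]
    exact affineCombination_mem_affineSpan h1 v

variable {V W ι : Type*} [AddCommGroup V] [Module ℝ V] [AddCommGroup W] [Module ℝ W] [Fintype ι]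

theorem aff_eq (f : V →ᵃ[ℝ] W) (x : V) : f x = f.linear x + f 0 := by
  have h := f.map_vadd 0 x
  rwa [vadd_eq_add, add_zero, vadd_eq_add] at h

theorem map_comb (f : V →ᵃ[ℝ] W) {w : ι → ℝ} (hw : ∑ i, w i = 1) (x : ι → V) :
    f (∑ i, w i • x i) = ∑ i, w i • f (x i) := by
  have h1 := Finset.univ.map_affineCombination x w hw f
  rw [Finset.affineCombination_eq_linear_combination _ _ _ hw,
    Finset.affineCombination_eq_linear_combination _ _ _ hw] at h1
  exact h1

theorem linear_comb (f : V →ᵃ[ℝ] W) {w : ι → ℝ} (hw : ∑ i, w i = 0) (x : ι → V) :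
    f.linear (∑ i, w i • x i) = ∑ i, w i • f (x i) := by
  rw [map_sum]
  have h : ∀ i, w i • f (x i) = f.linear (w i • x i) + w i • f 0 := by
    intro i
    rw [aff_eq f (x i), smul_add, map_smul]
  simp_rw [h]
  rw [Finset.sum_add_distrib, ← Finset.sum_smul, hw, zero_smul, add_zero]

theorem insert_range {V κ : Type*} (p : V) (x : κ → V) :
    insert p (range x) = range (fun o : Option κ => o.elim p x) := by
  ext y
  constructor
  · rintro (rfl | ⟨k, rfl⟩)
    · exact ⟨none, rfl⟩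
    · exact ⟨some k, rfl⟩
  · rintro ⟨_ | k, rfl⟩
    · exact Or.inl rfl
    · exact Or.inr ⟨k, rfl⟩

theorem mem_hull_insert {κ : Type*} [Fintype κ] {p y : V} {x : κ → V} :
    y ∈ convexHull ℝ (insert p (range x)) ↔ ∃ (s : ℝ) (γ : κ → ℝ), 0 ≤ s ∧ (∀ k, 0 ≤ γ k) ∧
      s + ∑ k, γ k = 1 ∧ s • p + ∑ k, γ k • x k = y := by
  rw [insert_range, mem_hull_fintype]
  constructor
  · rintro ⟨w, h0, h1, h2⟩
    rw [Fintype.sum_option] at h1 h2
    exact ⟨w none, fun k => w (some k), h0 none, fun k => h0 _, h1, h2⟩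
  · rintro ⟨s, γ, hs, hγ, h1, h2⟩
    refine ⟨fun o => o.elim s γ, ?_, ?_, ?_⟩
    · rintro (_ | k)
      · exact hs
      · exact hγ k
    · rw [Fintype.sum_option]; exact h1
    · rw [Fintype.sum_option]; exact h2

theorem mem_hull_insert2 {κ : Type*} [Fintype κ] {p q y : V} {x : κ → V} :
    y ∈ convexHull ℝ (insert p (insert q (range x))) ↔ ∃ (s t : ℝ) (γ : κ → ℝ), 0 ≤ s ∧ 0 ≤ t ∧
      (∀ k, 0 ≤ γ k) ∧ s + t + ∑ k, γ k = 1 ∧ s • p + t • q + ∑ k, γ k • x k = y := by
  rw [insert_range q x, mem_hull_insert]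
  constructor
  · rintro ⟨s, w, hs, hw, h1, h2⟩
    rw [Fintype.sum_option] at h1 h2
    refine ⟨s, w none, fun k => w (some k), hs, hw _, fun k => hw _, ?_, ?_⟩
    · rw [add_assoc]; exact h1
    · rw [add_assoc]; exact h2
  · rintro ⟨s, t, γ, hs, ht, hγ, h1, h2⟩
    refine ⟨s, fun o => o.elim t γ, hs, ?_, ?_, ?_⟩
    · rintro (_ | k)
      · exact ht
      · exact hγ k
    · rw [Fintype.sum_option, ← add_assoc]; exact h1
    · rw [Fintype.sum_option, ← add_assoc]; exact h2

end comb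

/-! the gluing of two simplices -/

theorem glue_one {n : ℕ} {K : Set (E n)} {ℓ : E n →ₗ[ℝ] ℝ} {c : ℝ} {e : E n} (he : ℓ e = 1)
    (hpr : ∀ x ∈ K, x - (ℓ x - c) • e ∈ K) {b : Fin (n + 1) → E n} (hb : AffineIndependent ℝ b)
    (h2 : convexHull ℝ (range b) = K ∩ {x | ℓ x ≤ c}) : ∃ j₀, ∀ j, j ≠ j₀ → ℓ (b j) = c := by
  by_contra hcon
  push Not at hcon
  obtain ⟨i, -, hi⟩ := hcon 0
  obtain ⟨j, hij, hj⟩ := hcon i
  have hb2 : ∀ k, b k ∈ K ∧ ℓ (b k) ≤ c := fun k => by
    have h3 : b k ∈ convexHull ℝ (range b) := subset_convexHull ℝ _ ⟨k, rfl⟩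
    rw [h2] at h3
    exact h3
  -- weights of the projections
  have hw : ∀ k, ∃ β : Fin (n + 1) → ℝ, (∀ l, 0 ≤ β l) ∧ ∑ l, β l = 1 ∧
      ∑ l, β l • b l = b k - (ℓ (b k) - c) • e ∧ ∀ l, ℓ (b l) ≠ c → β l = 0 := by
    intro k
    have h3 : b k - (ℓ (b k) - c) • e ∈ convexHull ℝ (range b) := by
      rw [h2]
      refine ⟨hpr _ (hb2 k).1, ?_⟩
      show ℓ (b k - (ℓ (b k) - c) • e) ≤ c
      rw [map_sub, map_smul, he, smul_eq_mul, mul_one]
      linarith
    obtain ⟨β, hβ0, hβ1, hβ2⟩ := mem_hull_fintype.1 h3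
    refine ⟨β, hβ0, hβ1, hβ2, fun l hl => ?_⟩
    have h4 : ∑ l, β l * (c - ℓ (b l)) = 0 := by
      have h5 : ℓ (b k - (ℓ (b k) - c) • e) = ∑ l, β l * ℓ (b l) := by
        rw [← hβ2, map_sum]
        exact Finset.sum_congr rfl fun l _ => by rw [map_smul, smul_eq_mul]
      rw [map_sub, map_smul, he, smul_eq_mul, mul_one] at h5
      simp_rw [mul_sub]
      rw [Finset.sum_sub_distrib, ← Finset.sum_mul, hβ1, ← h5]
      ring
    have h5 := (Finset.sum_eq_zero_iff_of_nonneg fun l _ =>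
      mul_nonneg (hβ0 l) (sub_nonneg.2 (hb2 l).2)).1 h4 l (Finset.mem_univ l)
    exact (mul_eq_zero.1 h5).resolve_right fun h6 => hl (by linarith)
  obtain ⟨β, -, hβ1, hβ2, hβ3⟩ := hw i
  obtain ⟨β', -, hβ1', hβ2', hβ3'⟩ := hw j
  obtain ⟨r, hr⟩ : ∃ r, r = ℓ (b i) - c := ⟨_, rfl⟩
  obtain ⟨s, hs⟩ : ∃ s, s = ℓ (b j) - c := ⟨_, rfl⟩
  rw [← hr] at hβ2
  rw [← hs] at hβ2'
  have h3 := indep_iff.1 hb
    (fun k => s * ((if k = i then 1 else 0) - β k) - r * ((if k = j then 1 else 0) - β' k)) (by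
    rw [Finset.sum_sub_distrib, ← Finset.mul_sum, ← Finset.mul_sum, Finset.sum_sub_distrib,
      Finset.sum_sub_distrib, hβ1, hβ1']
    simp) (by
    simp_rw [sub_smul, mul_smul, sub_smul]
    rw [Finset.sum_sub_distrib, ← Finset.smul_sum, ← Finset.smul_sum, Finset.sum_sub_distrib,
      Finset.sum_sub_distrib, hβ2, hβ2']
    simp only [ite_smul, one_smul, zero_smul, Finset.sum_ite_eq', Finset.mem_univ, if_true]
    rw [sub_sub_cancel, sub_sub_cancel, smul_smul, smul_smul, mul_comm, sub_self])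
  have h4 := congrFun h3 i
  beta_reduce at h4
  rw [if_pos rfl, if_neg hij.symm, hβ3 i hi, hβ3' i hi, sub_zero, sub_zero, mul_one, mul_zero,
    sub_zero, Pi.zero_apply, hs] at h4
  exact hj (sub_eq_zero.1 h4)

/-- A gluing of two simplices is the convex hull of `n + 2` points. -/
theorem glue_few {n : ℕ} {K K1 K2 : Set (E n)} (hcv : Convex ℝ K) (h : IsGluing K K1 K2)
    (h1 : IsSimplex K1) (h2 : IsSimplex K2) :
    ∃ v : Fin (n + 2) → E n, affineSpan ℝ (range v) = ⊤ ∧ K = convexHull ℝ (range v) := by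
  obtain ⟨ℓ, c, e, he, hpr, e₁, e₂⟩ := h
  obtain ⟨a, ha, rfl⟩ := h1
  obtain ⟨b, hb, rfl⟩ := h2
  obtain ⟨j₀, hj₀⟩ := glue_one he hpr hb e₂
  have ha2 : ∀ k, a k ∈ K := fun k => by
    have h3 : a k ∈ convexHull ℝ (range a) := subset_convexHull ℝ _ ⟨k, rfl⟩
    rw [e₁] at h3
    exact h3.1
  have hb2 : ∀ k, b k ∈ K := fun k => by
    have h3 : b k ∈ convexHull ℝ (range b) := subset_convexHull ℝ _ ⟨k, rfl⟩
    rw [e₂] at h3
    exact h3.1
  have hr : range (Fin.cons (b j₀) a : Fin (n + 2) → E n) = insert (b j₀) (range a) :=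
    Fin.range_cons _ _
  refine ⟨Fin.cons (b j₀) a, ?_, ?_⟩
  · rw [hr, eq_top_iff, ← span_eq_top_of_independent ha (by rw [Fintype.card_fin])]
    exact affineSpan_mono _ (subset_insert _ _)
  · rw [hr]
    apply Subset.antisymm
    · have h3 : convexHull ℝ (range a) ⊆ convexHull ℝ (insert (b j₀) (range a)) :=
        convexHull_mono (subset_insert _ _)
      intro x hx
      rcases le_total c (ℓ x) with h4 | h4
      · exact h3 (by rw [e₁]; exact ⟨hx, h4⟩)
      · have h5 : x ∈ convexHull ℝ (range b) := by rw [e₂]; exact ⟨hx, h4⟩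
        refine convexHull_min ?_ (convex_convexHull ℝ _) h5
        rintro _ ⟨j, rfl⟩
        by_cases hj : j = j₀
        · subst hj
          exact subset_convexHull ℝ _ (mem_insert _ _)
        · refine h3 ?_
          rw [e₁]
          exact ⟨hb2 j, (hj₀ j hj).ge⟩
    · refine convexHull_min ?_ hcv
      rintro x (rfl | ⟨k, rfl⟩)
      · exact hb2 j₀
      · exact ha2 k

/-! a criterion for not being a simplex -/

theorem vertex_mem {m : ℕ} {ι : Type*} [Fintype ι] {u : ι → E m} {t : Fin (m + 1) → E m}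
    (ht : AffineIndependent ℝ t) (h : convexHull ℝ (range u) = convexHull ℝ (range t))
    (k : Fin (m + 1)) : ∃ i, u i = t k := by
  have h1 : t k ∈ convexHull ℝ (range u) := by
    rw [h]; exact subset_convexHull ℝ _ ⟨k, rfl⟩
  obtain ⟨α, hα0, hα1, hα2⟩ := mem_hull_fintype.1 h1
  have h2 : ∀ i, ∃ β : Fin (m + 1) → ℝ, (∀ j, 0 ≤ β j) ∧ ∑ j, β j = 1 ∧
      ∑ j, β j • t j = u i := by
    intro i
    refine mem_hull_fintype.1 ?_
    rw [← h]; exact subset_convexHull ℝ _ ⟨i, rfl⟩
  choose β hβ0 hβ1 hβ2 using h2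
  obtain ⟨i, hi⟩ : ∃ i, 0 < α i := by
    by_contra hcon
    push Not at hcon
    have : ∑ i, α i ≤ 0 := Finset.sum_nonpos fun i _ => hcon i
    linarith
  have h3 := vertex_weights ht (i := k) (w := fun j => ∑ i, α i * β i j) (by
    rw [Finset.sum_comm]
    simp_rw [← Finset.mul_sum, hβ1, mul_one]
    exact hα1) (by
    simp_rw [Finset.sum_smul, mul_smul]
    rw [Finset.sum_comm]
    simp_rw [← Finset.smul_sum, hβ2]
    exact hα2)
  have h4 : ∀ j, j ≠ k → β i j = 0 := by
    intro j hj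
    have h5 := (Finset.sum_eq_zero_iff_of_nonneg fun i _ => mul_nonneg (hα0 i) (hβ0 i j)).1
      (h3 j hj) i (Finset.mem_univ i)
    exact (mul_eq_zero.1 h5).resolve_left hi.ne'
  have h5 : β i k = 1 := by
    rw [← hβ1 i, Finset.sum_eq_single k (fun j _ hj => h4 j hj) (by simp)]
  refine ⟨i, ?_⟩
  rw [← hβ2 i, Finset.sum_eq_single k (fun j _ hj => by rw [h4 j hj, zero_smul]) (by simp), h5,
    one_smul]

theorem not_simplex {m : ℕ} {ι : Type*} [Fintype ι] {u : ι → E m} (hc : Fintype.card ι = m + 2)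
    {w : ι → ℝ} (h0 : ∑ i, w i = 0) (h1 : ∑ i, w i • u i = 0) {a b c d : ι} (hab : a ≠ b)
    (ha : 0 < w a) (hb : 0 < w b) (hcd : c ≠ d) (hc' : w c < 0) (hd : w d < 0) :
    ¬ IsSimplex (convexHull ℝ (range u)) := by
  rintro ⟨t, ht, h⟩
  choose i hi using vertex_mem ht h
  have hinj : Function.Injective i := fun k l hkl => ht.injective (by rw [← hi k, ← hi l, hkl])
  obtain ⟨p, hp⟩ : ∃ p, ∀ k, i k ≠ p := by
    by_contra hcon
    push Not at hcon
    have := Fintype.card_le_of_surjective i hcon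
    rw [Fintype.card_fin, hc] at this
    omega
  obtain ⟨μ, hμ0, hμ1, hμ2⟩ : ∃ μ : Fin (m + 1) → ℝ, (∀ j, 0 ≤ μ j) ∧ ∑ j, μ j = 1 ∧
      ∑ j, μ j • t j = u p := by
    refine mem_hull_fintype.1 ?_
    rw [← h]; exact subset_convexHull ℝ _ ⟨p, rfl⟩
  have hcard : Fintype.card ι = Fintype.card (Fin (m + 1)) + 1 := by rw [hc, Fintype.card_fin]
  rw [sum_miss hinj hp hcard] at h0 h1
  have h2 := indep_iff.1 ht (fun k => w p * μ k + w (i k)) (by
    rw [Finset.sum_add_distrib, ← Finset.mul_sum, hμ1, mul_one]; exact h0) (by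
    simp_rw [add_smul, mul_smul]
    rw [Finset.sum_add_distrib, ← Finset.smul_sum, hμ2]
    simp_rw [hi] at h1
    exact h1)
  have h4 : ∀ j, j ≠ p → ∃ k, w p * μ k + w j = 0 := by
    intro j hj
    obtain ⟨k, rfl⟩ := (miss_cases hinj hp hcard j).resolve_left hj
    exact ⟨k, congrFun h2 k⟩
  rcases le_total 0 (w p) with hp0 | hp0
  · have key : ∀ j, 0 < w j → j = p := by
      intro j hj
      by_contra hne
      obtain ⟨k, hk⟩ := h4 j hne
      have := mul_nonneg hp0 (hμ0 k)
      linarith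
    exact hab ((key a ha).trans (key b hb).symm)
  · have key : ∀ j, w j < 0 → j = p := by
      intro j hj
      by_contra hne
      obtain ⟨k, hk⟩ := h4 j hne
      have := mul_nonpos_of_nonpos_of_nonneg hp0 (hμ0 k)
      linarith
    exact hcd ((key c hc').trans (key d hd).symm)

/-! pyramids -/

theorem exists_flat {m : ℕ} (L : E (m + 1) →ᵃ[ℝ] ℝ) {e : E (m + 1)} (he : L.linear e = 1) :
    ∃ f : E m →ᵃ[ℝ] E (m + 1), Function.Injective f ∧ (∀ x, L (f x) = 0) ∧
      ∀ y, L y = 0 → ∃ x, f x = y := by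
  have hr : LinearMap.range L.linear = ⊤ := by
    rw [LinearMap.range_eq_top]
    intro r
    exact ⟨r • e, by rw [map_smul, he, smul_eq_mul, mul_one]⟩
  have hk : Module.finrank ℝ (E m) = Module.finrank ℝ (LinearMap.ker L.linear) := by
    have h1 := LinearMap.finrank_range_add_finrank_ker L.linear
    rw [hr, finrank_top, Module.finrank_self, finrank_euclideanSpace, Fintype.card_fin] at h1
    rw [finrank_euclideanSpace, Fintype.card_fin]
    omega
  let φ : E m ≃ₗ[ℝ] LinearMap.ker L.linear := LinearEquiv.ofFinrankEq _ _ hk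
  obtain ⟨o, ho⟩ : ∃ o, L o = 0 := by
    refine ⟨-(L 0) • e, ?_⟩
    rw [aff_eq, map_smul, he, smul_eq_mul, mul_one, neg_add_cancel]
  let f : E m →ᵃ[ℝ] E (m + 1) :=
    ((Submodule.subtype _).comp φ.toLinearMap).toAffineMap + AffineMap.const ℝ _ o
  have hf : ∀ x, f x = (φ x : E (m + 1)) + o := fun x => rfl
  refine ⟨f, ?_, ?_, ?_⟩
  · intro x y hxy
    rw [hf, hf] at hxy
    exact φ.injective (Subtype.ext (add_right_cancel hxy))
  · intro x
    rw [aff_eq, hf, map_add, show L.linear (φ x : E (m + 1)) = 0 from (φ x).2, zero_add,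
      ← aff_eq]
    exact ho
  · intro y hy
    have h1 : y - o ∈ LinearMap.ker L.linear := by
      rw [LinearMap.mem_ker, map_sub]
      have h2 := aff_eq L y
      have h3 := aff_eq L o
      linarith
    refine ⟨φ.symm ⟨y - o, h1⟩, ?_⟩
    rw [hf, LinearEquiv.apply_symm_apply]
    exact sub_add_cancel y o

section pyramid

variable {m : ℕ} {L : E (m + 1) →ᵃ[ℝ] ℝ} {f : E m →ᵃ[ℝ] E (m + 1)} {p : E (m + 1)}

theorem isJoin_pyramid (h0 : ∀ x, L (f x) = 0) (h1 : ∀ y, L y = 0 → ∃ x, f x = y)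
    (hp : L p ≠ 0) (S : Set (E m)) :
    IsJoin S (univ : Set (E 0)) (convexHull ℝ (insert p (f '' S))) := by
  refine ⟨rfl, f, AffineMap.const ℝ _ p, ?_, ?_⟩
  · rw [eq_top_iff]
    rintro x -
    have mf : ∀ y, f y ∈ affineSpan ℝ (range f ∪ range (AffineMap.const ℝ (E 0) p)) :=
      fun y => subset_affineSpan ℝ _ (Or.inl ⟨y, rfl⟩)
    have mp : p ∈ affineSpan ℝ (range f ∪ range (AffineMap.const ℝ (E 0) p)) :=
      subset_affineSpan ℝ _ (Or.inr ⟨0, rfl⟩)
    obtain ⟨y, hy⟩ := h1 (x - (L x / L p) • (p - f 0)) (by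
      have h2 := aff_eq L (f 0)
      rw [h0] at h2
      rw [aff_eq, map_sub, map_smul, map_sub, smul_eq_mul]
      have h3 : L.linear p - L.linear (f 0) = L p := by rw [aff_eq L p]; linarith
      rw [h3, div_mul_cancel₀ _ hp, aff_eq L x]
      ring)
    have h4 := AffineSubspace.smul_vsub_vadd_mem _ (L x / L p) mp (mf 0) (mf y)
    rw [hy, vsub_eq_sub, vadd_eq_add, add_sub_cancel] at h4
    exact h4
  · congr 1
    ext y
    constructor
    · rintro (rfl | hy)
      · exact Or.inr ⟨0, mem_univ _, rfl⟩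
      · exact Or.inl hy
    · rintro (hy | ⟨z, -, rfl⟩)
      · exact Or.inr hy
      · exact Or.inl rfl

theorem hull_body {n : ℕ} {κ : Type*} [Fintype κ] {u : κ → E n}
    (hu : affineSpan ℝ (range u) = ⊤) : IsConvexBody (convexHull ℝ (range u)) :=
  ⟨(finite_range u).isCompact_convexHull ℝ, convex_convexHull ℝ _,
    interior_convexHull_nonempty_iff_affineSpan_eq_top.2 hu⟩

theorem pyramid {κ : Type*} [Fintype κ] (h0 : ∀ x, L (f x) = 0)
    (h1 : ∀ y, L y = 0 → ∃ x, f x = y) (hp : L p ≠ 0) {u : κ → E m}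
    (hu : affineSpan ℝ (range u) = ⊤) :
    IsConvexBody (convexHull ℝ (insert p (range (f ∘ u)))) ∧
      mahlerRatio (convexHull ℝ (insert p (range (f ∘ u)))) =
        mahlerRatio (convexHull ℝ (range u)) ∧
      (IsSimplex (convexHull ℝ (range u)) →
        IsSimplex (convexHull ℝ (insert p (range (f ∘ u))))) := by
  have h2 := isJoin_pyramid h0 h1 hp (convexHull ℝ (range u))
  have h3 : convexHull ℝ (insert p (f '' convexHull ℝ (range u))) =
      convexHull ℝ (insert p (range (f ∘ u))) := by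
    rw [AffineMap.image_convexHull, insert_eq, convexHull_convexHull_union_right, ← insert_eq,
      range_comp]
  rw [h3] at h2
  have h4 := hull_body hu
  have h5 := isSimplex_point.isConvexBody
  refine ⟨h2.body h4 h5, ?_, fun h => h2.isSimplex h isSimplex_point⟩
  rw [h2.ratio_eq h4 h5, ratio_simplex isSimplex_point, mul_one]

theorem span_base {κ : Type*} [Fintype κ] (hinj : Function.Injective f)
    (h0 : ∀ x, L (f x) = 0) (hp : L p ≠ 0) {u : κ → E m}
    (ht : affineSpan ℝ (insert p (range (f ∘ u))) = ⊤) : affineSpan ℝ (range u) = ⊤ := by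
  rw [eq_top_iff]
  rintro x -
  have h1 : f x ∈ affineSpan ℝ (insert p (range (f ∘ u))) := by
    rw [ht]; exact AffineSubspace.mem_top ℝ _ _
  rw [insert_range] at h1
  obtain ⟨w, hw1, hw2⟩ := span_iff.1 h1
  have h2 := congrArg L hw2
  rw [map_comb L hw1, h0, Fintype.sum_option] at h2
  rw [Fintype.sum_option] at hw1 hw2
  have h3 : ∀ k, w (some k) • L ((fun o : Option κ => o.elim p (f ∘ u)) (some k)) = 0 := by
    intro k
    show w (some k) • L (f (u k)) = 0
    rw [h0, smul_zero]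
  rw [Finset.sum_eq_zero fun k _ => h3 k, add_zero] at h2
  have h4 : w none = 0 := (mul_eq_zero.1 h2).resolve_right hp
  rw [h4, zero_add] at hw1
  rw [h4, zero_smul, zero_add] at hw2
  refine span_iff.2 ⟨fun k => w (some k), hw1, hinj ?_⟩
  rw [map_comb f hw1]
  exact hw2

end pyramid

/-! coordinates -/

section coord

variable {n : ℕ} {ι : Type*} [Fintype ι] {v : ι → E n} {w : ι → ℝ}

theorem span_miss (hv : affineSpan ℝ (range v) = ⊤) (h0 : ∑ i, w i = 0)
    (h1 : ∑ i, w i • v i = 0) {b : ι} (hb : w b ≠ 0) {κ : Type*} [Fintype κ] {i : κ → ι}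
    (hi : Function.Injective i) (hib : ∀ l, i l ≠ b)
    (hc : Fintype.card ι = Fintype.card κ + 1) : affineSpan ℝ (range (v ∘ i)) = ⊤ := by
  rw [eq_top_iff, ← hv, affineSpan_le]
  rintro _ ⟨j, rfl⟩
  rcases miss_cases hi hib hc j with rfl | ⟨k, rfl⟩
  · rw [sum_miss hi hib hc] at h0 h1
    refine span_iff.2 ⟨fun l => -(w (i l)) / w j, ?_, ?_⟩
    · rw [← Finset.sum_div, Finset.sum_neg_distrib, div_eq_one_iff_eq hb]
      linarith
    · have h2 : ∀ l, (-(w (i l)) / w j) • (v ∘ i) l = -((w j)⁻¹ • (w (i l) • v (i l))) := by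
        intro l
        rw [neg_div, neg_smul, div_eq_inv_mul, mul_smul]
        rfl
      simp_rw [h2]
      rw [Finset.sum_neg_distrib, ← Finset.smul_sum, eq_neg_of_add_eq_zero_right h1, smul_neg,
        neg_neg, smul_smul, inv_mul_cancel₀ hb, one_smul]
  · exact subset_affineSpan ℝ _ ⟨k, rfl⟩

theorem indep_miss {κ : Type*} [Fintype κ] {u : κ → E n} (hc : Fintype.card κ = n + 1)
    (hu : affineSpan ℝ (range u) = ⊤) : AffineIndependent ℝ u := by
  rw [affineIndependent_iff_finrank_vectorSpan_eq ℝ _ hc, ← direction_affineSpan, hu,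
    AffineSubspace.direction_top, finrank_top, finrank_euclideanSpace, Fintype.card_fin]

theorem exists_coord (hc : Fintype.card ι = n + 2) (hv : affineSpan ℝ (range v) = ⊤)
    (h0 : ∑ i, w i = 0) (h1 : ∑ i, w i • v i = 0) {a b : ι} (hab : a ≠ b) (hb : w b ≠ 0) :
    ∃ L : E n →ᵃ[ℝ] ℝ, L (v a) = w b ∧ L (v b) = -(w a) ∧
      ∀ j, j ≠ a → j ≠ b → L (v j) = 0 := by
  obtain ⟨i, hi, hib⟩ := exists_miss b (k := n + 1) hc
  have hcard : Fintype.card ι = Fintype.card (Fin (n + 1)) + 1 := by rw [hc, Fintype.card_fin]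
  have ht := span_miss hv h0 h1 hb hi hib hcard
  have hind := indep_miss (by rw [Fintype.card_fin]) ht
  let B : AffineBasis (Fin (n + 1)) ℝ (E n) := ⟨v ∘ i, hind, ht⟩
  have hB : ∀ l, B l = v (i l) := fun l => rfl
  obtain ⟨k, hk⟩ := (miss_cases hi hib hcard a).resolve_left hab
  have hLk : (w b • B.coord k) (v a) = w b := by
    rw [← hk, ← hB]
    show w b • B.coord k (B k) = w b
    rw [AffineBasis.coord_apply_eq, smul_eq_mul, mul_one]
  have hLj : ∀ j, j ≠ a → j ≠ b → (w b • B.coord k) (v j) = 0 := by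
    intro j hja hjb
    obtain ⟨l, hl⟩ := (miss_cases hi hib hcard j).resolve_left hjb
    have hlk : k ≠ l := by
      rintro rfl
      exact hja (hl.symm.trans hk)
    rw [← hl, ← hB]
    show w b • B.coord k (B l) = 0
    rw [AffineBasis.coord_apply_ne _ hlk, smul_zero]
  refine ⟨w b • B.coord k, hLk, ?_, hLj⟩
  have h2 := linear_comb (w b • B.coord k) h0 v
  rw [h1, map_zero, sum_miss hi hib hcard, Finset.sum_eq_single k] at h2
  · rw [hk, hLk, smul_eq_mul, smul_eq_mul] at h2
    have h3 : w b * ((w b • B.coord k) (v b) + w a) = 0 := by rw [mul_add]; linarith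
    have h4 := (mul_eq_zero.1 h3).resolve_left hb
    linarith
  · intro l _ hl
    rw [hLj (i l) (fun h => hl (hi (h.trans hk.symm))) (hib l), smul_zero]
  · intro h; exact absurd (Finset.mem_univ k) h

end coord

/-! one positive weight -/

theorem one_pos {n : ℕ} {ι : Type*} [Fintype ι] {v : ι → E n} {w : ι → ℝ}
    (hc : Fintype.card ι = n + 2) (hv : affineSpan ℝ (range v) = ⊤)
    (h0 : ∑ i, w i = 0) (h1 : ∑ i, w i • v i = 0) {a : ι} (ha : 0 < w a)
    (hn : ∀ j, j ≠ a → w j ≤ 0) : IsSimplex (convexHull ℝ (range v)) := by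
  obtain ⟨i, hi, hia⟩ := exists_miss a (k := n + 1) hc
  have hcard : Fintype.card ι = Fintype.card (Fin (n + 1)) + 1 := by rw [hc, Fintype.card_fin]
  have ht := span_miss hv h0 h1 ha.ne' hi hia hcard
  have hind := indep_miss (by rw [Fintype.card_fin]) ht
  have he : convexHull ℝ (range v) = convexHull ℝ (range (v ∘ i)) := by
    apply Subset.antisymm
    · refine convexHull_min ?_ (convex_convexHull ℝ _)
      rintro _ ⟨j, rfl⟩
      rcases miss_cases hi hia hcard j with rfl | ⟨k, rfl⟩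
      · rw [sum_miss hi hia hcard] at h0 h1
        refine mem_hull_fintype.2 ⟨fun l => -(w (i l)) / w j, fun l => ?_, ?_, ?_⟩
        · exact div_nonneg (neg_nonneg.2 (hn _ (hia l))) ha.le
        · rw [← Finset.sum_div, Finset.sum_neg_distrib, div_eq_one_iff_eq ha.ne']
          linarith
        · have h2 : ∀ l, (-(w (i l)) / w j) • (v ∘ i) l = -((w j)⁻¹ • (w (i l) • v (i l))) := by
            intro l
            rw [neg_div, neg_smul, div_eq_inv_mul, mul_smul]
            rfl
          simp_rw [h2]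
          rw [Finset.sum_neg_distrib, ← Finset.smul_sum, eq_neg_of_add_eq_zero_right h1,
            smul_neg, neg_neg, smul_smul, inv_mul_cancel₀ ha.ne', one_smul]
      · exact subset_convexHull ℝ _ ⟨k, rfl⟩
    · exact convexHull_mono (range_comp_subset_range _ _)
  rw [he]
  exact ⟨v ∘ i, hind, rfl⟩

/-! the induction step -/

/-- the statement in dimension `n` -/
def Few (n : ℕ) : Prop := ∀ (ι : Type) [Fintype ι] (v : ι → E n), Fintype.card ι = n + 2 →
    affineSpan ℝ (range v) = ⊤ → 1 ≤ mahlerRatio (convexHull ℝ (range v)) ∧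
      (mahlerRatio (convexHull ℝ (range v)) = 1 → IsSimplex (convexHull ℝ (range v)))

theorem few_zero {m : ℕ} (IH : Few m) {ι : Type} [Fintype ι] {v : ι → E (m + 1)} {w : ι → ℝ}
    (hc : Fintype.card ι = m + 1 + 2) (hv : affineSpan ℝ (range v) = ⊤)
    (h0 : ∑ i, w i = 0) (h1 : ∑ i, w i • v i = 0) {k b : ι} (hk : w k = 0) (hb : w b ≠ 0) :
    1 ≤ mahlerRatio (convexHull ℝ (range v)) ∧
      (mahlerRatio (convexHull ℝ (range v)) = 1 → IsSimplex (convexHull ℝ (range v))) := by
  have hkb : k ≠ b := by rintro rfl; exact hb hk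
  obtain ⟨L, hL1, hL2, hL3⟩ := exists_coord hc hv h0 h1 hkb hb
  have hL : ∀ j, j ≠ k → L (v j) = 0 := by
    intro j hj
    by_cases hjb : j = b
    · rw [hjb, hL2, hk, neg_zero]
    · exact hL3 j hj hjb
  have he : L.linear ((w b)⁻¹ • (v k - v b)) = 1 := by
    rw [map_smul, map_sub, smul_eq_mul]
    have e1 := aff_eq L (v k)
    have e2 := aff_eq L (v b)
    rw [hL1] at e1
    rw [hL b hkb.symm] at e2
    have e3 : L.linear (v k) - L.linear (v b) = w b := by linarith
    rw [e3, inv_mul_cancel₀ hb]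
  obtain ⟨f, hf1, hf2, hf3⟩ := exists_flat L he
  obtain ⟨i, hi, hik⟩ := exists_miss k (k := m + 2) hc
  have hcard : Fintype.card ι = Fintype.card (Fin (m + 2)) + 1 := by rw [hc, Fintype.card_fin]
  have h2 : ∀ l, ∃ x, f x = v (i l) := fun l => hf3 _ (hL _ (hik l))
  choose u hu using h2
  have hfu : f ∘ u = v ∘ i := funext hu
  have hr : range v = insert (v k) (range (f ∘ u)) := by
    rw [hfu]
    ext y
    constructor
    · rintro ⟨j, rfl⟩
      rcases miss_cases hi hik hcard j with rfl | ⟨l, rfl⟩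
      · exact Or.inl rfl
      · exact Or.inr ⟨l, rfl⟩
    · rintro (rfl | ⟨l, rfl⟩)
      · exact ⟨k, rfl⟩
      · exact ⟨i l, rfl⟩
  have hp : L (v k) ≠ 0 := by rw [hL1]; exact hb
  have hsu := span_base hf1 hf2 hp (u := u) (by rw [← hr]; exact hv)
  obtain ⟨-, P2, P3⟩ := pyramid hf2 hf3 hp hsu
  obtain ⟨I1, I2⟩ := IH (Fin (m + 2)) u (by rw [Fintype.card_fin]) hsu
  rw [hr, P2]
  exact ⟨I1, fun h => P3 (I2 h)⟩

theorem half_hull {V κ : Type*} [AddCommGroup V] [Module ℝ V] [Fintype κ] {x : κ → V}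
    {p q g : V} {α β : ℝ} (hα : 0 < α) (hβ : 0 < β) (hg : (α + β) • g = α • p + β • q)
    {L : V →ᵃ[ℝ] ℝ} (hLp : L p = β) (hLq : L q = -α) (hLg : L g = 0) (hLx : ∀ k, L (x k) = 0) :
    convexHull ℝ (insert p (insert g (range x))) =
      convexHull ℝ (insert p (insert q (range x))) ∩ {y | 0 ≤ L y} := by
  have hab : α + β ≠ 0 := by positivity
  have hg' : g = (α / (α + β)) • p + (β / (α + β)) • q := by
    have h1 : g = (α + β)⁻¹ • ((α + β) • g) := by
      rw [smul_smul, inv_mul_cancel₀ hab, one_smul]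
    rw [h1, hg, smul_add, smul_smul, smul_smul, div_eq_inv_mul, div_eq_inv_mul]
  have hLcomb : ∀ (s t : ℝ) (γ : κ → ℝ), s + t + ∑ k, γ k = 1 →
      L (s • p + t • q + ∑ k, γ k • x k) = s * β - t * α := by
    intro s t γ h1
    have h2 := map_comb L (w := fun o : Option (Option κ) => o.elim s fun o => o.elim t γ) (by
      rw [Fintype.sum_option, Fintype.sum_option, ← add_assoc]; exact h1)
      (fun o : Option (Option κ) => o.elim p fun o => o.elim q x)
    rw [Fintype.sum_option, Fintype.sum_option, Fintype.sum_option, Fintype.sum_option,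
      ← add_assoc] at h2
    have h3 : ∀ k, γ k • L (x k) = 0 := fun k => by rw [hLx, smul_zero]
    refine h2.trans ?_
    show s • L p + (t • L q + ∑ k, γ k • L (x k)) = _
    rw [Finset.sum_eq_zero fun k _ => h3 k, hLp, hLq, smul_eq_mul, smul_eq_mul]
    ring
  have mp : p ∈ convexHull ℝ (insert p (insert q (range x))) :=
    subset_convexHull ℝ _ (Or.inl rfl)
  have mq : q ∈ convexHull ℝ (insert p (insert q (range x))) :=
    subset_convexHull ℝ _ (Or.inr (Or.inl rfl))
  apply Subset.antisymm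
  · refine convexHull_min ?_
      ((convex_convexHull ℝ _).inter ((convex_Ici (0 : ℝ)).affine_preimage L))
    rintro y (rfl | rfl | ⟨k, rfl⟩)
    · exact ⟨subset_convexHull ℝ _ (Or.inl rfl), by show 0 ≤ L y; rw [hLp]; exact hβ.le⟩
    · refine ⟨?_, hLg.ge⟩
      rw [hg']
      refine (convex_convexHull ℝ _) mp mq (by positivity) (by positivity) ?_
      rw [← add_div, div_self hab]
    · exact ⟨subset_convexHull ℝ _ (Or.inr (Or.inr ⟨k, rfl⟩)), (hLx k).ge⟩
  · rintro y ⟨hy, hy0⟩
    obtain ⟨s, t, γ, hs, ht, hγ, h1, rfl⟩ := mem_hull_insert2.1 hy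
    have hy1 : 0 ≤ s * β - t * α := by rw [← hLcomb s t γ h1]; exact hy0
    refine mem_hull_insert2.2 ⟨s - t * α / β, t * (α + β) / β, γ, ?_, by positivity, hγ, ?_, ?_⟩
    · rw [sub_nonneg, div_le_iff₀ hβ]; linarith
    · rw [← h1]; field_simp; ring
    · rw [hg']
      match_scalars <;> field_simp
      ring

theorem few_core {m : ℕ} (IH : Few m) {κ : Type} [Fintype κ] (hκ : Fintype.card κ = m + 1)
    {x : κ → E (m + 1)} {p q : E (m + 1)}
    (hs : affineSpan ℝ (insert p (insert q (range x))) = ⊤) {α β : ℝ} (hα : 0 < α) (hβ : 0 < β)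
    {ω : κ → ℝ} (h0 : α + β + ∑ k, ω k = 0) (h1 : α • p + β • q + ∑ k, ω k • x k = 0)
    {L : E (m + 1) →ᵃ[ℝ] ℝ} (hLp : L p = β) (hLq : L q = -α) (hLx : ∀ k, L (x k) = 0)
    {k₁ k₂ k₃ : κ} (hk₁ : 0 < ω k₁) (hk₂ : ω k₂ < 0) (hk₃ : ω k₃ < 0) (hne : k₂ ≠ k₃) :
    1 < mahlerRatio (convexHull ℝ (insert p (insert q (range x)))) := by
  have hab : α + β ≠ 0 := by positivity
  have ep := aff_eq L p
  have eq := aff_eq L q
  rw [hLp] at ep
  rw [hLq] at eq
  obtain ⟨g, hg⟩ : ∃ g, g = (α + β)⁻¹ • (α • p + β • q) := ⟨_, rfl⟩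
  have hg2 : (α + β) • g = α • p + β • q := by
    rw [hg, smul_smul, mul_inv_cancel₀ hab, one_smul]
  have hLg : L g = 0 := by
    rw [aff_eq, hg, map_smul, map_add, map_smul, map_smul, smul_eq_mul, smul_eq_mul,
      smul_eq_mul]
    have e3 : α * L.linear p + β * L.linear q = -((α + β) * L 0) := by
      rw [show L.linear p = β - L 0 by linarith, show L.linear q = -α - L 0 by linarith]
      ring
    rw [e3, mul_neg, ← mul_assoc, inv_mul_cancel₀ hab, one_mul, neg_add_cancel]
  obtain ⟨e, hedef⟩ : ∃ e, e = (α + β)⁻¹ • (p - q) := ⟨_, rfl⟩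
  have he : L.linear e = 1 := by
    rw [hedef, map_smul, map_sub, smul_eq_mul]
    rw [show L.linear p - L.linear q = α + β by linarith, inv_mul_cancel₀ hab]
  obtain ⟨f, hf1, hf2, hf3⟩ := exists_flat L he
  -- the base
  have h2 : ∀ o : Option κ, ∃ y, f y = o.elim g x := by
    rintro (_ | k)
    · exact hf3 _ hLg
    · exact hf3 _ (hLx k)
  choose u hu using h2
  have hfu : f ∘ u = fun o : Option κ => o.elim g x := funext hu
  have hr : insert g (range x) = range (f ∘ u) := by rw [hfu, insert_range]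
  have hpne : L p ≠ 0 := by rw [hLp]; exact hβ.ne'
  have hqne : L q ≠ 0 := by rw [hLq]; exact neg_ne_zero.2 hα.ne'
  have hsu : affineSpan ℝ (range u) = ⊤ := by
    refine span_base hf1 hf2 hpne ?_
    rw [← hr, eq_top_iff, ← hs, affineSpan_le]
    have mp : p ∈ affineSpan ℝ (insert p (insert g (range x))) :=
      subset_affineSpan ℝ _ (Or.inl rfl)
    have mg : g ∈ affineSpan ℝ (insert p (insert g (range x))) :=
      subset_affineSpan ℝ _ (Or.inr (Or.inl rfl))
    rintro y (rfl | rfl | ⟨k, rfl⟩)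
    · exact mp
    · have h3 := AffineSubspace.smul_vsub_vadd_mem _ ((α + β) / β) mg mp mp
      have h4 : ((α + β) / β) • (g -ᵥ p) +ᵥ p = y := by
        rw [vsub_eq_sub, vadd_eq_add, smul_sub, div_eq_inv_mul, mul_smul, hg2]
        match_scalars <;> field_simp
        ring
      rwa [h4] at h3
    · exact subset_affineSpan ℝ _ (Or.inr (Or.inr ⟨k, rfl⟩))
  obtain ⟨P1, P2, -⟩ := pyramid hf2 hf3 hpne hsu
  obtain ⟨Q1, Q2', -⟩ := pyramid hf2 hf3 hqne hsu
  rw [← hr] at P1 P2 Q1 Q2'
  obtain ⟨I1, I2⟩ := IH (Option κ) u (by rw [Fintype.card_option, hκ]) hsu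
  have hns : ¬ IsSimplex (convexHull ℝ (range u)) := by
    refine not_simplex (w := fun o : Option κ => o.elim (α + β) ω) (a := none)
      (b := some k₁) (c := some k₂) (d := some k₃) (by rw [Fintype.card_option, hκ]) ?_ ?_
      (by simp) (by show 0 < α + β; positivity) hk₁ (fun h => hne (Option.some_injective _ h))
      hk₂ hk₃
    · rw [Fintype.sum_option]; exact h0
    · refine ((AffineMap.linear_injective_iff f).2 hf1) ?_
      rw [map_zero, linear_comb f (by rw [Fintype.sum_option]; exact h0)]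
      simp_rw [hu]
      rw [Fintype.sum_option]
      show (α + β) • g + ∑ k, ω k • x k = 0
      rw [hg2]
      exact h1
  have hr1 : 1 < mahlerRatio (convexHull ℝ (range u)) :=
    lt_of_le_of_ne I1 fun h => hns (I2 h.symm)
  -- the gluing
  have hH1 := half_hull hα hβ hg2 hLp hLq hLg hLx
  have hH2 := half_hull (L := -L) (x := x) hβ hα (by
    rw [add_comm β α, hg2, add_comm (β • q)])
    (show (-L) q = α by show -(L q) = α; rw [hLq, neg_neg])
    (show (-L) p = -β by show -(L p) = -β; rw [hLp])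
    (show (-L) g = 0 by show -(L g) = 0; rw [hLg, neg_zero])
    (fun k => by show -(L (x k)) = 0; rw [hLx, neg_zero])
  rw [insert_comm q p] at hH2
  have hglue : IsGluing (convexHull ℝ (insert p (insert q (range x))))
      (convexHull ℝ (insert p (insert g (range x))))
      (convexHull ℝ (insert q (insert g (range x)))) := by
    refine ⟨L.linear, -(L 0), e, he, ?_, ?_, ?_⟩
    · intro y hy
      obtain ⟨s, t, γ, hs', ht, hγ, e1, rfl⟩ := mem_hull_insert2.1 hy
      have e2 : L.linear (s • p + t • q + ∑ k, γ k • x k) - -(L 0) = s * β - t * α := by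
        have e4 : L.linear (∑ k, γ k • x k) = -((∑ k, γ k) * L 0) := by
          rw [map_sum, Finset.sum_mul, ← Finset.sum_neg_distrib]
          refine Finset.sum_congr rfl fun k _ => ?_
          have e5 := aff_eq L (x k)
          rw [hLx] at e5
          rw [map_smul, smul_eq_mul, show L.linear (x k) = -(L 0) by linarith, mul_neg]
        rw [map_add, map_add, map_smul, map_smul, e4, smul_eq_mul, smul_eq_mul,
          show L.linear p = β - L 0 by linarith, show L.linear q = -α - L 0 by linarith,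
          show ∑ k, γ k = 1 - s - t by linarith]
        ring
      rw [e2]
      refine mem_hull_insert2.2 ⟨(s + t) * α / (α + β), (s + t) * β / (α + β), γ,
        by positivity, by positivity, hγ, ?_, ?_⟩
      · rw [← e1]; field_simp
      · rw [hedef]
        match_scalars <;> field_simp <;> ring
    · rw [hH1]
      congr 1
      ext y
      show 0 ≤ L y ↔ -(L 0) ≤ L.linear y
      rw [aff_eq L y]
      constructor <;> intro h <;> linarith
    · rw [hH2]
      congr 1
      ext y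
      show 0 ≤ -(L y) ↔ L.linear y ≤ -(L 0)
      rw [aff_eq L y]
      constructor <;> intro h <;> linarith
  have hlaw := (hglue.law (convex_convexHull ℝ _) P1 Q1).2.1
  rw [P2, Q2', min_self] at hlaw
  exact hr1.trans_le hlaw

theorem few_three {m : ℕ} (IH : Few m) {ι : Type} [Fintype ι] {v : ι → E (m + 1)} {w : ι → ℝ}
    (hc : Fintype.card ι = m + 1 + 2) (hv : affineSpan ℝ (range v) = ⊤)
    (h0 : ∑ i, w i = 0) (h1 : ∑ i, w i • v i = 0) {a b c d e : ι} (ha : 0 < w a)
    (hb : 0 < w b) (hc' : 0 < w c) (hd : w d < 0) (he : w e < 0) (hab : a ≠ b) (hac : a ≠ c)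
    (hbc : b ≠ c) (hde : d ≠ e) : 1 < mahlerRatio (convexHull ℝ (range v)) := by
  obtain ⟨L, hL1, hL2, hL3⟩ := exists_coord hc hv h0 h1 hab hb.ne'
  obtain ⟨i, hi, hia⟩ := exists_miss a (k := m + 2) hc
  have hcard : Fintype.card ι = Fintype.card (Fin (m + 2)) + 1 := by rw [hc, Fintype.card_fin]
  obtain ⟨b', rfl⟩ := (miss_cases hi hia hcard b).resolve_left hab.symm
  obtain ⟨j, hj, hjb⟩ := exists_miss b' (k := m + 1) (Fintype.card_fin _)
  have hcard' : Fintype.card (Fin (m + 2)) = Fintype.card (Fin (m + 1)) + 1 := by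
    rw [Fintype.card_fin, Fintype.card_fin]
  have hcases : ∀ k, k ≠ a → k ≠ i b' → ∃ l, i (j l) = k := by
    intro k hka hkb
    obtain ⟨k', rfl⟩ := (miss_cases hi hia hcard k).resolve_left hka
    obtain ⟨l, rfl⟩ := (miss_cases hj hjb hcard' k').resolve_left fun h => hkb (by rw [h])
    exact ⟨l, rfl⟩
  have hr : range v = insert (v a) (insert (v (i b')) (range fun l => v (i (j l)))) := by
    ext y
    constructor
    · rintro ⟨k, rfl⟩
      by_cases hka : k = a
      · exact Or.inl (by rw [hka])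
      by_cases hkb : k = i b'
      · exact Or.inr (Or.inl (by rw [hkb]))
      obtain ⟨l, rfl⟩ := hcases k hka hkb
      exact Or.inr (Or.inr ⟨l, rfl⟩)
    · rintro (rfl | rfl | ⟨l, rfl⟩)
      · exact ⟨a, rfl⟩
      · exact ⟨i b', rfl⟩
      · exact ⟨_, rfl⟩
  obtain ⟨k₁, hk₁⟩ := hcases c hac.symm hbc.symm
  obtain ⟨k₂, hk₂⟩ := hcases d (by rintro rfl; linarith) (by rintro rfl; linarith)
  obtain ⟨k₃, hk₃⟩ := hcases e (by rintro rfl; linarith) (by rintro rfl; linarith)
  rw [sum_miss hi hia hcard, sum_miss hj hjb hcard', ← add_assoc] at h0 h1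
  rw [hr] at hv ⊢
  exact few_core IH (by rw [Fintype.card_fin]) hv ha hb (ω := fun l => w (i (j l))) h0 h1 hL1 hL2
    (fun k => hL3 _ (hia _) fun h => hjb k (hi h)) (k₁ := k₁) (k₂ := k₂) (k₃ := k₃)
    (by rw [hk₁]; exact hc') (by rw [hk₂]; exact hd) (by rw [hk₃]; exact he)
    (by rintro rfl; exact hde (hk₂.symm.trans hk₃))

theorem few_low {n : ℕ} (hn : n ≤ 3) : Few n := by
  intro ι _ v _ hv
  obtain ⟨h1, h2⟩ := Q2_down Q2_three hn _ (hull_body hv)
  exact ⟨h1, h2.1⟩

theorem few_step {m : ℕ} (hm : 3 ≤ m) (IH : Few m) : Few (m + 1) := by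
  classical
  intro ι _ v hc hv
  have hdep : ¬ AffineIndependent ℝ v := by
    intro h
    have h1 := h.card_le_finrank_succ
    have h2 := Submodule.finrank_le (vectorSpan ℝ (range v))
    rw [finrank_euclideanSpace, Fintype.card_fin] at h2
    omega
  rw [indep_iff] at hdep
  push Not at hdep
  obtain ⟨w, h0, h1, hw⟩ := hdep
  -- the same for the opposite weights
  have h0' : ∑ i, (-w) i = 0 := by
    simp only [Pi.neg_apply]
    rw [Finset.sum_neg_distrib, h0, neg_zero]
  have h1' : ∑ i, (-w) i • v i = 0 := by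
    simp only [Pi.neg_apply, neg_smul]
    rw [Finset.sum_neg_distrib, h1, neg_zero]
  by_cases hz : ∃ k, w k = 0
  · obtain ⟨k, hk⟩ := hz
    obtain ⟨b, hb⟩ := Function.ne_iff.1 hw
    exact few_zero IH hc hv h0 h1 hk hb
  push Not at hz
  by_cases hP : ∃ a, 0 < w a ∧ ∀ j, j ≠ a → w j ≤ 0
  · obtain ⟨a, ha, hj⟩ := hP
    have h2 := one_pos hc hv h0 h1 ha hj
    exact ⟨(ratio_simplex h2).ge, fun _ => h2⟩
  by_cases hN : ∃ a, w a < 0 ∧ ∀ j, j ≠ a → 0 ≤ w j
  · obtain ⟨a, ha, hj⟩ := hN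
    have h2 := one_pos hc hv h0' h1' (a := a) (neg_pos.2 ha) (fun j hja => neg_nonpos.2 (hj j hja))
    exact ⟨(ratio_simplex h2).ge, fun _ => h2⟩
  push Not at hP hN
  -- at least two of each sign
  obtain ⟨a, ha⟩ : ∃ a, 0 < w a := by
    by_contra hcon
    push Not at hcon
    refine hw (funext fun i => ?_)
    exact (Finset.sum_eq_zero_iff_of_nonpos fun i _ => hcon i).1 h0 i (Finset.mem_univ i)
  obtain ⟨b, hb⟩ : ∃ b, w b < 0 := by
    by_contra hcon
    push Not at hcon
    refine hw (funext fun i => ?_)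
    exact (Finset.sum_eq_zero_iff_of_nonneg fun i _ => hcon i).1 h0 i (Finset.mem_univ i)
  obtain ⟨a', ha', ha2⟩ := hP a ha
  obtain ⟨b', hb', hb2⟩ := hN b hb
  have key : 1 < mahlerRatio (convexHull ℝ (range v)) := by
    have hsum : (Finset.univ.filter fun i => 0 < w i).card +
        (Finset.univ.filter fun i => ¬ 0 < w i).card = m + 1 + 2 := by
      rw [Finset.card_filter_add_card_filter_not, Finset.card_univ, hc]
    have h2 : 2 < (Finset.univ.filter fun i => 0 < w i).card ∨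
        2 < (Finset.univ.filter fun i => ¬ 0 < w i).card := by omega
    rcases h2 with h2 | h2
    · obtain ⟨x, y, z, hx, hy, hz', hxy, hxz, hyz⟩ := Finset.two_lt_card_iff.1 h2
      rw [Finset.mem_filter] at hx hy hz'
      exact few_three IH hc hv h0 h1 hx.2 hy.2 hz'.2 hb hb2 hxy hxz hyz hb'.symm
    · obtain ⟨x, y, z, hx, hy, hz', hxy, hxz, hyz⟩ := Finset.two_lt_card_iff.1 h2
      rw [Finset.mem_filter] at hx hy hz'
      have hneg : ∀ i, ¬ 0 < w i → 0 < (-w) i := fun i hi =>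
        neg_pos.2 (lt_of_le_of_ne (not_lt.1 hi) (hz i))
      exact few_three IH hc hv h0' h1' (hneg x hx.2) (hneg y hy.2) (hneg z hz'.2)
        (neg_neg_of_pos ha) (neg_neg_of_pos ha2) hxy hxz hyz ha'.symm
  exact ⟨key.le, fun h => absurd h key.ne'⟩

theorem few_all (n : ℕ) : Few n := by
  induction n with
  | zero => exact few_low (by omega)
  | succ m ih =>
    rcases Nat.lt_or_ge m 3 with h | h
    · exact few_low (by omega)
    · exact few_step h ih

/-- **The Mahler conjecture for convex hulls of `n + 2` points**, with its equality case. -/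
theorem few {n : ℕ} (v : Fin (n + 2) → E n) (hv : affineSpan ℝ (range v) = ⊤) :
    1 ≤ mahlerRatio (convexHull ℝ (range v)) ∧
      (mahlerRatio (convexHull ℝ (range v)) = 1 → IsSimplex (convexHull ℝ (range v))) :=
  few_all n (Fin (n + 2)) v (Fintype.card_fin _) hv

end Vale.Agent.P248.H432
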