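import Vale.Agent.P248.H432.Class

/-! P248: the product factor, and the conjecture for generated bodies. -/

set_option linter.unusedSectionVars false

open MeasureTheory Set Filter
open scoped ENNReal Topology Pointwise

namespace Vale.Agent.P248.H432

theorem pc_pos (m n : ℕ) : 0 < pc m n := by
  unfold pc
  have h1 := simplexVal_pos m
  have h2 := simplexVal_pos n
  have h3 := simplexVal_pos (m + n)
  positivity

theorem pc_comm (m n : ℕ) : pc m n = pc n m := by
  unfold pc
  rw [Nat.add_comm m n]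
  ring

theorem pc_le_succ (m n : ℕ) : pc m n ≤ pc (m + 1) n := by
  have h := pc_succ m n
  have h1 : (((m + n : ℕ) : ℝ) + 2) ^ (m + n + 2) * ((m : ℝ) + 1) ^ (m + 2) ≤
      ((m : ℝ) + 2) ^ (m + 2) * (((m + n : ℕ) : ℝ) + 1) ^ (m + n + 2) := by
    have h2 := phi_anti.antitone (Nat.le_add_right m n)
    beta_reduce at h2
    rw [div_pow, div_pow, div_le_div_iff₀ (by positivity) (by positivity)] at h2
    exact h2
  have h3 := pc_pos m n
  have h4 : (0 : ℝ) < (((m + n : ℕ) : ℝ) + 2) ^ (m + n + 2) * ((m : ℝ) + 1) ^ (m + 2) := by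
    positivity
  rw [mul_assoc] at h
  refine le_of_mul_le_mul_right ?_ h4
  rw [h]
  exact mul_le_mul_of_nonneg_left h1 h3.le

theorem pc_lt_succ (m : ℕ) {n : ℕ} (hn : 0 < n) : pc m n < pc (m + 1) n := by
  have h := pc_succ m n
  have h1 : (((m + n : ℕ) : ℝ) + 2) ^ (m + n + 2) * ((m : ℝ) + 1) ^ (m + 2) <
      ((m : ℝ) + 2) ^ (m + 2) * (((m + n : ℕ) : ℝ) + 1) ^ (m + n + 2) := by
    have h2 := phi_anti (Nat.lt_add_of_pos_right (n := m) hn)
    beta_reduce at h2
    rw [div_pow, div_pow, div_lt_div_iff₀ (by positivity) (by positivity)] at h2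
    exact h2
  have h3 := pc_pos m n
  have h4 : (0 : ℝ) < (((m + n : ℕ) : ℝ) + 2) ^ (m + n + 2) * ((m : ℝ) + 1) ^ (m + 2) := by
    positivity
  rw [mul_assoc] at h
  refine lt_of_mul_lt_mul_right ?_ h4.le
  rw [h]
  exact mul_lt_mul_of_pos_left h1 h3

theorem one_le_pc (m n : ℕ) : 1 ≤ pc m n := by
  induction m with
  | zero => rw [pc_zero]
  | succ m ih => exact ih.trans (pc_le_succ m n)

theorem one_lt_pc {m n : ℕ} (hm : 0 < m) (hn : 0 < n) : 1 < pc m n := by
  obtain ⟨k, rfl⟩ := Nat.exists_eq_succ_of_ne_zero hm.ne'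
  exact (one_le_pc k n).trans_lt (pc_lt_succ k hn)

section prod

variable {m n N : ℕ} {K : Set (E m)} {L : Set (E n)} {M : Set (E N)}

/-- The Mahler ratio of a product. -/
theorem IsProduct.ratio_eq (hK : IsConvexBody K) (hL : IsConvexBody L) (h : IsProduct K L M) :
    mahlerRatio M = ENNReal.ofReal (pc m n) * (mahlerRatio K * mahlerRatio L) := by
  have hN : m + n = N := h.1
  have h1 := h.volumeProduct_eq hK hL
  rw [volumeProduct_eq_ratio K, volumeProduct_eq_ratio L] at h1
  have e : ENNReal.ofReal ((m.factorial : ℝ) * n.factorial / (m + n).factorial) *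
      (ENNReal.ofReal (simplexVal m) * ENNReal.ofReal (simplexVal n)) =
      ENNReal.ofReal (pc m n) * ENNReal.ofReal (simplexVal N) := by
    rw [← ENNReal.ofReal_mul (simplexVal_pos m).le, ← ENNReal.ofReal_mul (by positivity),
      ← ENNReal.ofReal_mul (pc_pos m n).le]
    congr 1
    unfold pc
    rw [hN, div_mul_cancel₀ _ (simplexVal_pos N).ne']
  have h2 : volumeProduct M = ENNReal.ofReal (pc m n) * (mahlerRatio K * mahlerRatio L) *
      ENNReal.ofReal (simplexVal N) := by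
    rw [h1]
    calc _ = (ENNReal.ofReal ((m.factorial : ℝ) * n.factorial / (m + n).factorial) *
        (ENNReal.ofReal (simplexVal m) * ENNReal.ofReal (simplexVal n))) *
          (mahlerRatio K * mahlerRatio L) := by ring
      _ = _ := by rw [e]; ring
  unfold mahlerRatio at *
  rw [h2, ENNReal.mul_div_cancel_right (ofReal_sv_ne_zero N) ENNReal.ofReal_ne_top]

theorem ratio_ne_zero {n : ℕ} {K : Set (E n)} (hK : IsConvexBody K) : mahlerRatio K ≠ 0 := by
  unfold mahlerRatio
  refine (ENNReal.div_pos ?_ ENNReal.ofReal_ne_top).ne'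
  rw [volumeProduct_eq_vp K 0 (sb n)]
  obtain ⟨z, hz, hmin⟩ := exists_santalo (CB_frame hK 0 (sb n)).cpt (CB_frame hK 0 (sb n)).cvx
    (CB_frame hK 0 (sb n)).ne
  have h1 : volume (frame 0 (sb n) ⁻¹' K) * volume (polarP (frame 0 (sb n) ⁻¹' K) z) ≤
      vp (frame 0 (sb n) ⁻¹' K) := le_iInf₂ fun w hw => mul_le_mul' le_rfl (hmin w hw)
  intro h0
  rw [h0, nonpos_iff_eq_zero] at h1
  exact ((CB_frame hK 0 (sb n)).term_ne hz).1 h1

/-- The Mahler ratio is strictly supermultiplicative under products. -/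
theorem IsProduct.ratio_lt (hK : IsConvexBody K) (hL : IsConvexBody L) (h : IsProduct K L M)
    (hm : 0 < m) (hn : 0 < n) : mahlerRatio K * mahlerRatio L < mahlerRatio M := by
  rw [h.ratio_eq hK hL]
  have h3 : 1 < ENNReal.ofReal (pc m n) := by
    rw [← ENNReal.ofReal_one]
    exact (ENNReal.ofReal_lt_ofReal_iff (pc_pos m n)).2 (one_lt_pc hm hn)
  have h4 : mahlerRatio K * mahlerRatio L ≠ 0 :=
    mul_ne_zero (ratio_ne_zero hK) (ratio_ne_zero hL)
  have h5 : mahlerRatio K * mahlerRatio L ≠ ∞ :=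
    ENNReal.mul_ne_top (mahlerRatio_ne_top hK) (mahlerRatio_ne_top hL)
  calc mahlerRatio K * mahlerRatio L = 1 * (mahlerRatio K * mahlerRatio L) := (one_mul _).symm
    _ < _ := (ENNReal.mul_lt_mul_iff_left h4 h5).2 h3

theorem IsProduct.symm (h : IsProduct K L M) : IsProduct L K M := by
  obtain ⟨hN, p, f, g, ht, rfl⟩ := h
  refine ⟨by omega, p, g, f, by rw [sup_comm]; exact ht, ?_⟩
  rw [image2_swap]
  refine image2_congr fun x _ y _ => ?_
  abel

end prod

theorem isSimplex_image {n : ℕ} {K : Set (E n)} (f : E n →ᵃ[ℝ] E n)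
    (hf : Function.Injective f) (h : IsSimplex K) : IsSimplex (f '' K) := by
  obtain ⟨v, hv, rfl⟩ := h
  refine ⟨f ∘ v, hv.map' f hf, ?_⟩
  rw [AffineMap.image_convexHull, range_comp]

theorem isSimplex_image_iff {n : ℕ} {K : Set (E n)} (e : E n ≃ᵃ[ℝ] E n) :
    IsSimplex (e '' K) ↔ IsSimplex K := by
  refine ⟨fun h => ?_, fun h => isSimplex_image e.toAffineMap e.injective h⟩
  have h2 := isSimplex_image e.symm.toAffineMap e.symm.injective h
  have e1 : e.symm.toAffineMap '' (e '' K) = K := by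
    rw [image_image]
    simp
  rwa [e1] at h2

theorem body_zero {L : Set (E 0)} (hL : IsConvexBody L) : L = univ := by
  obtain ⟨x, hx⟩ := hL.2.2
  refine eq_univ_of_forall fun y => ?_
  rw [Subsingleton.elim y x]
  exact interior_subset hx

/-- product with a point -/
theorem IsProduct.point {n N : ℕ} {K : Set (E n)} {L : Set (E 0)} {M : Set (E N)}
    (hL : IsConvexBody L) (h : IsProduct K L M) : IsSimplex M ↔ IsSimplex K := by
  obtain ⟨hN, p, f, g, ht, rfl⟩ := h
  rw [Nat.add_zero] at hN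
  subst hN
  have hg : LinearMap.range g = ⊥ := by
    rw [eq_bot_iff]
    rintro _ ⟨x, rfl⟩
    rw [Subsingleton.elim x 0, map_zero]
    exact Submodule.zero_mem _
  rw [hg, sup_bot_eq] at ht
  have hsurj : Function.Surjective f := LinearMap.range_eq_top.1 ht
  let e0 : E n ≃ₗ[ℝ] E n := LinearEquiv.ofBijective f ⟨LinearMap.injective_iff_surjective.2 hsurj,
    hsurj⟩
  let e : E n ≃ᵃ[ℝ] E n := e0.toAffineEquiv.trans (AffineEquiv.constVAdd ℝ _ p)
  have he : image2 (fun x y => p + f x + g y) K L = e '' K := by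
    rw [body_zero hL]
    ext x
    constructor
    · rintro ⟨a, ha, b, -, rfl⟩
      refine ⟨a, ha, ?_⟩
      change p + f a = p + f a + g b
      rw [Subsingleton.elim b 0, map_zero, add_zero]
    · rintro ⟨a, ha, rfl⟩
      refine ⟨a, ha, 0, mem_univ _, ?_⟩
      change p + f a + g 0 = p + f a
      rw [map_zero, add_zero]
  rw [he]
  exact isSimplex_image_iff e

theorem ratio_zero {L : Set (E 0)} (hL : IsConvexBody L) : mahlerRatio L = 1 := by
  rw [body_zero hL]
  exact ratio_simplex isSimplex_point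

theorem IsProduct.ratio_iff {m n N : ℕ} {K : Set (E m)} {L : Set (E n)} {M : Set (E N)}
    (hK : IsConvexBody K) (hL : IsConvexBody L) (hKr : 1 ≤ mahlerRatio K)
    (hKs : mahlerRatio K = 1 ↔ IsSimplex K) (hLr : 1 ≤ mahlerRatio L)
    (hLs : mahlerRatio L = 1 ↔ IsSimplex L) (h : IsProduct K L M) :
    1 ≤ mahlerRatio M ∧ (mahlerRatio M = 1 ↔ IsSimplex M) := by
  have hr := h.ratio_eq hK hL
  have h1 : 1 ≤ mahlerRatio K * mahlerRatio L := one_le_mul hKr hLr
  have h2 : 1 ≤ ENNReal.ofReal (pc m n) := by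
    rw [← ENNReal.ofReal_one]
    exact ENNReal.ofReal_le_ofReal (one_le_pc m n)
  refine ⟨by rw [hr]; exact one_le_mul h2 h1, ?_⟩
  rcases Nat.eq_zero_or_pos m with rfl | hm
  · rw [h.symm.point hK, hr, pc_zero, ENNReal.ofReal_one, one_mul, ratio_zero hK, one_mul]
    exact hLs
  rcases Nat.eq_zero_or_pos n with rfl | hn
  · rw [h.point hL, hr, pc_comm, pc_zero, ENNReal.ofReal_one, one_mul, ratio_zero hL, mul_one]
    exact hKs
  have h3 : 1 < ENNReal.ofReal (pc m n) := by
    rw [← ENNReal.ofReal_one]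
    exact (ENNReal.ofReal_lt_ofReal_iff (pc_pos m n)).2 (one_lt_pc hm hn)
  have h4 : mahlerRatio M ≠ 1 := by
    rw [hr]
    refine ne_of_gt (h3.trans_le ?_)
    exact le_mul_of_one_le_right' h1
  exact ⟨fun h5 => absurd h5 h4, fun h5 => absurd (ratio_simplex h5) h4⟩

theorem IsJoin.ratio_iff {m n N : ℕ} {K : Set (E m)} {L : Set (E n)} {M : Set (E N)}
    (hK : IsConvexBody K) (hL : IsConvexBody L) (hKr : 1 ≤ mahlerRatio K)
    (hKs : mahlerRatio K = 1 ↔ IsSimplex K) (hLr : 1 ≤ mahlerRatio L)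
    (hLs : mahlerRatio L = 1 ↔ IsSimplex L) (h : IsJoin K L M) :
    1 ≤ mahlerRatio M ∧ (mahlerRatio M = 1 ↔ IsSimplex M) := by
  have hr := h.ratio_eq hK hL
  refine ⟨by rw [hr]; exact one_le_mul hKr hLr, fun h1 => ?_, ratio_simplex⟩
  rw [hr] at h1
  have h2 : mahlerRatio K = 1 := le_antisymm (by
    rw [← h1]; exact le_mul_of_one_le_right' hLr) hKr
  have h3 : mahlerRatio L = 1 := le_antisymm (by
    rw [← h1]; exact le_mul_of_one_le_left' hKr) hLr
  exact h.isSimplex (hKs.1 h2) (hLs.1 h3)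

end Vale.Agent.P248.H432
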