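import Vale.Agent.P248.H432.Mix
import Vale.Agent.P248.H432.Gen

/-! P248: gluing and fibre sums in `EuclideanSpace`. -/

set_option linter.unusedSectionVars false

open MeasureTheory Set Filter
open scoped ENNReal Topology Pointwise

namespace Vale.Agent.P248.H432

theorem exists_adapted {m : ℕ} (ℓ : E (m + 1) →ₗ[ℝ] ℝ) {e : E (m + 1)} (he : ℓ e = 1) :
    ∃ b : Module.Basis (Fin (m + 1)) ℝ (E (m + 1)), b 0 = e ∧
      ∀ (p : E (m + 1)) (u : Fin (m + 1) → ℝ), ℓ (frame p b u) = ℓ p + u 0 := by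
  have hr : LinearMap.range ℓ = ⊤ := by
    rw [LinearMap.range_eq_top]
    intro r
    exact ⟨r • e, by rw [map_smul, he, smul_eq_mul, mul_one]⟩
  have hk : Module.finrank ℝ (LinearMap.ker ℓ) = m := by
    have h1 := LinearMap.finrank_range_add_finrank_ker ℓ
    rw [hr, finrank_top, Module.finrank_self, finrank_euclideanSpace, Fintype.card_fin] at h1
    omega
  let c := Module.finBasisOfFinrankEq ℝ (LinearMap.ker ℓ) hk
  let v : Fin (m + 1) → E (m + 1) := Fin.cons e fun j => (c j : E (m + 1))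
  have hv0 : v 0 = e := rfl
  have hvs : ∀ j : Fin m, v j.succ = (c j : E (m + 1)) := fun j => rfl
  have htop : ⊤ ≤ Submodule.span ℝ (range v) := by
    intro x _
    have h1 : x - ℓ x • e ∈ LinearMap.ker ℓ := by
      rw [LinearMap.mem_ker, map_sub, map_smul, he, smul_eq_mul, mul_one, sub_self]
    have h2 : x - ℓ x • e ∈ Submodule.span ℝ (range v) := by
      have h3 := c.sum_repr ⟨x - ℓ x • e, h1⟩
      have h4 := congrArg (Submodule.subtype _) h3
      rw [map_sum] at h4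
      simp only [map_smul, Submodule.subtype_apply] at h4
      rw [← h4]
      refine Submodule.sum_mem _ fun j _ => Submodule.smul_mem _ _ (Submodule.subset_span ?_)
      exact ⟨j.succ, hvs j⟩
    have h5 : ℓ x • e ∈ Submodule.span ℝ (range v) :=
      Submodule.smul_mem _ _ (Submodule.subset_span ⟨0, hv0⟩)
    have h6 := Submodule.add_mem _ h2 h5
    rwa [sub_add_cancel] at h6
  let b := basisOfTopLeSpanOfCardEqFinrank v htop (by
    rw [finrank_euclideanSpace])
  have hb : ∀ j, b j = v j := fun j => by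
    rw [show b = basisOfTopLeSpanOfCardEqFinrank v htop (by
      rw [finrank_euclideanSpace]) from rfl, coe_basisOfTopLeSpanOfCardEqFinrank]
  refine ⟨b, by rw [hb, hv0], fun p u => ?_⟩
  unfold frame
  rw [map_add, Module.Basis.equivFun_symm_apply, map_sum, Fin.sum_univ_succ]
  have h1 : ∀ j : Fin m, ℓ (u j.succ • b j.succ) = 0 := by
    intro j
    rw [map_smul, hb, hvs, show ℓ (c j : E (m + 1)) = 0 from (c j).2, smul_zero]
  rw [Finset.sum_eq_zero fun j _ => h1 j, add_zero, map_smul, hb, hv0, he, smul_eq_mul, mul_one]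

section coord

variable {ι : Type*} [Fintype ι] [DecidableEq ι]

theorem EF_lower {S : Set (ι → ℝ)} (hS : CB S) (z : ι → ℝ) :
    ENNReal.ofReal ((Fintype.card ι).factorial * (vp S).toReal) ≤ volume S * EF S z := by
  by_cases hz : z ∈ interior S
  · rw [EF_eq hS.cpt (interior_subset hz), ENNReal.ofReal_mul (by positivity),
      ENNReal.ofReal_toReal hS.vp_ne_top, ENNReal.ofReal_natCast]
    calc ((Fintype.card ι).factorial : ℝ≥0∞) * vp S ≤
          ((Fintype.card ι).factorial : ℝ≥0∞) * (volume S * volume (polarP S z)) :=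
          mul_le_mul' le_rfl (iInf₂_le z hz)
      _ = _ := by ring
  · rw [EF_top hS.cpt hS.cvx hS.ne hz, ENNReal.mul_top hS.vol_ne_zero]
    exact le_top

theorem vp_lower {S : Set (ι → ℝ)} (hS : CB S) {a : ℝ}
    (h : ∀ z ∈ interior S, ENNReal.ofReal ((Fintype.card ι).factorial * a) ≤
      volume S * EF S z) : ENNReal.ofReal a ≤ vp S := by
  refine le_iInf₂ fun z hz => ?_
  have h1 := h z hz
  rw [EF_eq hS.cpt (interior_subset hz), ENNReal.ofReal_mul (by positivity),
    ENNReal.ofReal_natCast] at h1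
  have h2 : ((Fintype.card ι).factorial : ℝ≥0∞) * ENNReal.ofReal a ≤
      ((Fintype.card ι).factorial : ℝ≥0∞) * (volume S * volume (polarP S z)) := by
    refine h1.trans (le_of_eq ?_)
    ring
  exact (ENNReal.mul_le_mul_iff_right (by exact_mod_cast (Nat.factorial_pos _).ne')
    (ENNReal.natCast_ne_top _)).1 h2

end coord

theorem ratio_real {n : ℕ} {K : Set (E n)} (hK : IsConvexBody K) :
    0 < (mahlerRatio K).toReal ∧ (volumeProduct K).toReal =
      (mahlerRatio K).toReal * simplexVal n := by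
  refine ⟨ENNReal.toReal_pos (ratio_ne_zero hK) (mahlerRatio_ne_top hK), ?_⟩
  rw [volumeProduct_eq_ratio, ENNReal.toReal_mul, ENNReal.toReal_ofReal (simplexVal_pos n).le]

theorem wh_smul {v1 v2 c1 c2 s : ℝ} (hs : 0 < s) (hc1 : 0 < c1) (hc2 : 0 < c2) (hv1 : 0 < v1)
    (hv2 : 0 < v2) : wh v1 v2 (s * c1) (s * c2) = s * wh v1 v2 c1 c2 := by
  unfold wh
  have h1 : 0 < v1 / c1 + v2 / c2 := by positivity
  field_simp

theorem ratio_of_wh {n : ℕ} {K K₁ K₂ : Set (E n)} (hK : IsConvexBody K) (hK₁ : IsConvexBody K₁)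
    (hK₂ : IsConvexBody K₂) {v1 v2 : ℝ} (hv1 : 0 < v1) (hv2 : 0 < v2)
    (h : ENNReal.ofReal (wh v1 v2 (volumeProduct K₁).toReal (volumeProduct K₂).toReal) ≤
      volumeProduct K) :
    min (mahlerRatio K₁) (mahlerRatio K₂) ≤ mahlerRatio K ∧
      (mahlerRatio K₁ ≠ mahlerRatio K₂ →
        min (mahlerRatio K₁) (mahlerRatio K₂) < mahlerRatio K) := by
  obtain ⟨a1, b1⟩ := ratio_real hK₁
  obtain ⟨a2, b2⟩ := ratio_real hK₂
  have t1 := mahlerRatio_ne_top hK₁
  have t2 := mahlerRatio_ne_top hK₂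
  have t := mahlerRatio_ne_top hK
  rw [b1, b2, mul_comm _ (simplexVal n), mul_comm _ (simplexVal n),
    wh_smul (simplexVal_pos n) a1 a2 hv1 hv2, volumeProduct_eq_ratio,
    mul_comm (simplexVal n), ENNReal.ofReal_mul (by unfold wh; positivity),
    ENNReal.mul_le_mul_iff_left (ofReal_sv_ne_zero n) ENNReal.ofReal_ne_top,
    ENNReal.ofReal_le_iff_le_toReal t] at h
  have hm : (min (mahlerRatio K₁) (mahlerRatio K₂)).toReal =
      min (mahlerRatio K₁).toReal (mahlerRatio K₂).toReal := ENNReal.toReal_min t1 t2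
  have tm : min (mahlerRatio K₁) (mahlerRatio K₂) ≠ ∞ := by
    rcases min_choice (mahlerRatio K₁) (mahlerRatio K₂) with h1 | h1 <;> rw [h1] <;> assumption
  constructor
  · rw [← ENNReal.toReal_le_toReal tm t, hm]
    exact (min_le_wh hv1 hv2 a1 a2).trans h
  · intro hne
    rw [← ENNReal.toReal_lt_toReal tm t, hm]
    refine (min_lt_wh hv1 hv2 a1 a2 fun h1 => hne ?_).trans_le h
    exact (ENNReal.toReal_eq_toReal_iff' t1 t2).1 h1

theorem CB.vol_toReal_pos {ι : Type*} [Fintype ι] [DecidableEq ι] {S : Set (ι → ℝ)} (hS : CB S) :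
    0 < (volume S).toReal := ENNReal.toReal_pos hS.vol_ne_zero hS.vol_ne_top

/-- **Gluing law.** -/
theorem IsGluing.law {n : ℕ} {K K₁ K₂ : Set (E n)} (hcv : Convex ℝ K) (hK₁ : IsConvexBody K₁)
    (hK₂ : IsConvexBody K₂) (h : IsGluing K K₁ K₂) :
    IsConvexBody K ∧ min (mahlerRatio K₁) (mahlerRatio K₂) ≤ mahlerRatio K ∧
      (mahlerRatio K₁ ≠ mahlerRatio K₂ →
        min (mahlerRatio K₁) (mahlerRatio K₂) < mahlerRatio K) := by
  obtain ⟨ℓ, c, e, he, hpr, e₁, e₂⟩ := h
  have hU : K = K₁ ∪ K₂ := by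
    rw [e₁, e₂]
    ext x
    constructor
    · intro hx
      rcases le_total c (ℓ x) with h1 | h1
      · exact Or.inl ⟨hx, h1⟩
      · exact Or.inr ⟨hx, h1⟩
    · rintro (hx | hx) <;> exact hx.1
  have hK : IsConvexBody K := by
    refine ⟨by rw [hU]; exact hK₁.1.union hK₂.1, hcv, ?_⟩
    obtain ⟨x, hx⟩ := hK₁.2.2
    exact ⟨x, interior_mono (by rw [hU]; exact subset_union_left) hx⟩
  refine ⟨hK, ?_⟩
  rcases n with _ | m
  · rw [Subsingleton.elim e 0, map_zero] at he
    exact absurd he zero_ne_one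
  obtain ⟨b, hb0, hb⟩ := exists_adapted ℓ he
  have hbc : ∀ u, ℓ (frame (c • e) b u) = c + u 0 := by
    intro u
    rw [hb, map_smul, he, smul_eq_mul, mul_one]
  have hS := CB_frame hK (c • e) b
  have hS₁ := CB_frame hK₁ (c • e) b
  have hS₂ := CB_frame hK₂ (c • e) b
  have q₁ : half (frame (c • e) b ⁻¹' K) 0 1 = frame (c • e) b ⁻¹' K₁ := by
    ext u
    have h1 : frame (c • e) b u ∈ K₁ ↔ frame (c • e) b u ∈ K ∧ c ≤ ℓ (frame (c • e) b u) := by
      rw [e₁]; rfl
    rw [mem_preimage, h1, hbc]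
    exact ⟨fun h2 => ⟨h2.1, by have : 0 ≤ 1 * u 0 := h2.2; linarith⟩,
      fun h2 => ⟨h2.1, by show 0 ≤ 1 * u 0; linarith [h2.2]⟩⟩
  have q₂ : half (frame (c • e) b ⁻¹' K) 0 (-1) = frame (c • e) b ⁻¹' K₂ := by
    ext u
    have h1 : frame (c • e) b u ∈ K₂ ↔ frame (c • e) b u ∈ K ∧ ℓ (frame (c • e) b u) ≤ c := by
      rw [e₂]; rfl
    rw [mem_preimage, h1, hbc]
    exact ⟨fun h2 => ⟨h2.1, by have : 0 ≤ -1 * u 0 := h2.2; linarith⟩,
      fun h2 => ⟨h2.1, by show 0 ≤ -1 * u 0; linarith [h2.2]⟩⟩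
  have hP : Proj0 (frame (c • e) b ⁻¹' K) 0 := by
    intro u hu
    rw [mem_preimage, frame_update]
    have h1 := hpr _ hu
    have h2 : b.repr (frame (c • e) b u - c • e) 0 = u 0 := by
      unfold frame
      rw [add_sub_cancel_left]
      exact congrFun (b.equivFun.apply_symm_apply u) 0
    rw [hbc, add_sub_cancel_left] at h1
    rw [h2, hb0]
    exact h1
  refine ratio_of_wh hK hK₁ hK₂ hS₁.vol_toReal_pos hS₂.vol_toReal_pos ?_
  rw [volumeProduct_eq_vp K (c • e) b]
  refine vp_lower hS fun z hz => ?_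
  have hp1 : 0 < (volumeProduct K₁).toReal := by
    rw [(ratio_real hK₁).2]; exact mul_pos (ratio_real hK₁).1 (simplexVal_pos _)
  have hp2 : 0 < (volumeProduct K₂).toReal := by
    rw [(ratio_real hK₂).2]; exact mul_pos (ratio_real hK₂).1 (simplexVal_pos _)
  have hf : (0 : ℝ) < ((Fintype.card (Fin (m + 1))).factorial : ℝ) := by positivity
  rw [← wh_smul hf hp1 hp2 hS₁.vol_toReal_pos hS₂.vol_toReal_pos]
  have l1 := fun z => EF_lower hS₁ z
  have l2 := fun z => EF_lower hS₂ z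
  rw [← volumeProduct_eq_vp K₁ (c • e) b] at l1
  rw [← volumeProduct_eq_vp K₂ (c • e) b] at l2
  have h3 := glue2 (i := 0) hS.cpt hP hz (mul_pos hf hp1) (mul_pos hf hp2)
    (by rw [q₁]; exact pos_iff_ne_zero.2 hS₁.vol_ne_zero)
    (by rw [q₂]; exact pos_iff_ne_zero.2 hS₂.vol_ne_zero)
    (fun ζ _ => by rw [q₁]; exact l1 _) (fun ζ _ => by rw [q₂]; exact l2 _)
  rw [q₁, q₂] at h3
  exact h3

/-- **Fibre-sum law.** -/
theorem IsFibreSum.law {n : ℕ} {K K₁ K₂ : Set (E n)} (hK₁ : IsConvexBody K₁)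
    (hK₂ : IsConvexBody K₂) (h : IsFibreSum K K₁ K₂) :
    IsConvexBody K ∧ min (mahlerRatio K₁) (mahlerRatio K₂) ≤ mahlerRatio K ∧
      (mahlerRatio K₁ ≠ mahlerRatio K₂ →
        min (mahlerRatio K₁) (mahlerRatio K₂) < mahlerRatio K) := by
  obtain ⟨e, he0, hp1, hp2, hKe⟩ := h
  rcases n with _ | m
  · exact absurd (Subsingleton.elim e 0) he0
  obtain ⟨ℓ, he⟩ : ∃ ℓ : E (m + 1) →ₗ[ℝ] ℝ, ℓ e = 1 := by
    obtain ⟨f, hf⟩ := SeparatingDual.exists_eq_one (R := ℝ) he0
    exact ⟨f.toLinearMap, hf⟩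
  obtain ⟨b, hb0, hb⟩ := exists_adapted ℓ he
  have hadd : ∀ (u : Fin (m + 1) → ℝ) (r : ℝ),
      frame 0 b (u + r • (Pi.single 0 1 : Fin (m + 1) → ℝ)) = frame 0 b u + r • e := by
    intro u r
    unfold frame
    rw [map_add, map_smul, ← hb0]
    have : b.equivFun.symm (Pi.single 0 1) = b 0 := by
      rw [Module.Basis.equivFun_symm_apply, Finset.sum_eq_single 0]
      · simp
      · intro j _ hj; simp [hj]
      · simp
    rw [this, add_assoc]
  have hsub : ∀ (u : Fin (m + 1) → ℝ) (r : ℝ),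
      frame 0 b (u - r • (Pi.single 0 1 : Fin (m + 1) → ℝ)) = frame 0 b u - r • e := by
    intro u r
    have := hadd u (-r)
    rwa [neg_smul, neg_smul, ← sub_eq_add_neg, ← sub_eq_add_neg] at this
  have hS₁ := CB_frame hK₁ 0 b
  have hS₂ := CB_frame hK₂ 0 b
  obtain ⟨F, hF⟩ := frame_homeo (0 : E (m + 1)) b
  have hp1' : ∀ x ∈ frame 0 b ⁻¹' K₁, ∃ r : ℝ,
      x + r • (Pi.single 0 1 : Fin (m + 1) → ℝ) ∈ frame 0 b ⁻¹' K₂ := by
    intro x hx
    obtain ⟨r, hr⟩ := hp1 _ hx
    exact ⟨r, by rw [mem_preimage, hadd]; exact hr⟩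
  have hp2' : ∀ x ∈ frame 0 b ⁻¹' K₂, ∃ r : ℝ,
      x + r • (Pi.single 0 1 : Fin (m + 1) → ℝ) ∈ frame 0 b ⁻¹' K₁ := by
    intro x hx
    obtain ⟨r, hr⟩ := hp2 _ hx
    exact ⟨r, by rw [mem_preimage, hadd]; exact hr⟩
  have hKS : ∀ x, x ∈ frame 0 b ⁻¹' K ↔ ∃ r : ℝ,
      x + r • (Pi.single 0 1 : Fin (m + 1) → ℝ) ∈ frame 0 b ⁻¹' K₁ ∧
      x - r • (Pi.single 0 1 : Fin (m + 1) → ℝ) ∈ frame 0 b ⁻¹' K₂ := by
    intro x
    simp only [mem_preimage, hadd, hsub]
    rw [hKe]
    rfl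
  have hS : CB (frame 0 b ⁻¹' K) := by
    set e' : Fin (m + 1) → ℝ := Pi.single 0 1 with he'
    set S₁ := frame 0 b ⁻¹' K₁ with hS₁'
    set S₂ := frame 0 b ⁻¹' K₂ with hS₂'
    refine ⟨?_, ?_, ?_⟩
    · have hA : IsCompact ((S₁ ×ˢ S₂) ∩
          {p : (Fin (m + 1) → ℝ) × (Fin (m + 1) → ℝ) | p.1 - p.2 = (p.1 0 - p.2 0) • e'}) :=
        (hS₁.cpt.prod hS₂.cpt).inter_right (isClosed_eq (by fun_prop) (by fun_prop))
      have hB := hA.image (f := fun p : (Fin (m + 1) → ℝ) × (Fin (m + 1) → ℝ) =>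
        (1 / 2 : ℝ) • (p.1 + p.2)) (by fun_prop)
      have hE : frame 0 b ⁻¹' K = (fun p : (Fin (m + 1) → ℝ) × (Fin (m + 1) → ℝ) =>
        (1 / 2 : ℝ) • (p.1 + p.2)) '' ((S₁ ×ˢ S₂) ∩
          {p | p.1 - p.2 = (p.1 0 - p.2 0) • e'}) := by
        ext x
        rw [hKS]
        constructor
        · rintro ⟨r, h1, h2⟩
          refine ⟨(x + r • e', x - r • e'), ⟨⟨h1, h2⟩, ?_⟩, ?_⟩
          · show x + r • e' - (x - r • e') = ((x + r • e') 0 - (x - r • e') 0) • e'
            have : (x + r • e') 0 - (x - r • e') 0 = 2 * r := by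
              simp [he']; ring
            rw [this]
            module
          · show (1 / 2 : ℝ) • (x + r • e' + (x - r • e')) = x
            module
        · rintro ⟨⟨p, q⟩, ⟨⟨h1, h2⟩, h3⟩, rfl⟩
          have h3' : p - q = (p 0 - q 0) • e' := h3
          refine ⟨(p 0 - q 0) / 2, ?_, ?_⟩
          · have : (1 / 2 : ℝ) • (p + q) + ((p 0 - q 0) / 2) • e' = p := by
              have h4 : ((p 0 - q 0) / 2) • e' = (1 / 2 : ℝ) • (p - q) := by
                rw [h3', smul_smul]; congr 1; ring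
              rw [h4]; module
            simp only
            rw [this]
            exact h1
          · have : (1 / 2 : ℝ) • (p + q) - ((p 0 - q 0) / 2) • e' = q := by
              have h4 : ((p 0 - q 0) / 2) • e' = (1 / 2 : ℝ) • (p - q) := by
                rw [h3', smul_smul]; congr 1; ring
              rw [h4]; module
            simp only
            rw [this]
            exact h2
      rw [hE]
      exact hB
    · intro x hx y hy s t hs ht hst
      rw [hKS] at hx hy ⊢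
      obtain ⟨r, h1, h2⟩ := hx
      obtain ⟨r', h3, h4⟩ := hy
      refine ⟨s * r + t * r', ?_, ?_⟩
      · have := hS₁.cvx h1 h3 hs ht hst
        have e1 : s • x + t • y + (s * r + t * r') • e' = s • (x + r • e') + t • (y + r' • e') := by
          module
        rw [e1]; exact this
      · have := hS₂.cvx h2 h4 hs ht hst
        have e1 : s • x + t • y - (s * r + t * r') • e' = s • (x - r • e') + t • (y - r' • e') := by
          module
        rw [e1]; exact this
    · obtain ⟨z, hz⟩ := hS₁.ne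
      obtain ⟨c, hc⟩ := exists_center (i := 0) hS₂.cvx hS₂.ne hp1' hz
      set w := Function.update z 0 c with hw
      refine ⟨(1 / 2 : ℝ) • (z + w), ?_⟩
      have hzw : z - w = (z 0 - c) • e' := by
        ext k
        by_cases hk : k = 0
        · subst hk; simp [hw, he']
        · simp [hw, he', hk]
      have hcont1 : Continuous fun x : Fin (m + 1) → ℝ => x + ((z 0 - c) / 2) • e' := by fun_prop
      have hcont2 : Continuous fun x : Fin (m + 1) → ℝ => x - ((z 0 - c) / 2) • e' := by fun_prop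
      have hopen := (isOpen_interior (s := S₁)).preimage hcont1 |>.inter
        ((isOpen_interior (s := S₂)).preimage hcont2)
      refine interior_maximal (fun x hx => ?_) hopen ⟨?_, ?_⟩
      · rw [hKS]
        exact ⟨(z 0 - c) / 2, interior_subset hx.1, interior_subset hx.2⟩
      · have h4 : ((z 0 - c) / 2) • e' = (1 / 2 : ℝ) • (z - w) := by
          rw [hzw, smul_smul]; congr 1; ring
        show (1 / 2 : ℝ) • (z + w) + ((z 0 - c) / 2) • e' ∈ interior S₁
        rw [h4]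
        have : (1 / 2 : ℝ) • (z + w) + (1 / 2 : ℝ) • (z - w) = z := by module
        rw [this]
        exact hz
      · have h4 : ((z 0 - c) / 2) • e' = (1 / 2 : ℝ) • (z - w) := by
          rw [hzw, smul_smul]; congr 1; ring
        show (1 / 2 : ℝ) • (z + w) - ((z 0 - c) / 2) • e' ∈ interior S₂
        rw [h4]
        have : (1 / 2 : ℝ) • (z + w) - (1 / 2 : ℝ) • (z - w) = w := by module
        rw [this]
        exact hc
  have hK : IsConvexBody K := body_of_CB hS
  refine ⟨hK, ratio_of_wh hK hK₁ hK₂ hS₁.vol_toReal_pos hS₂.vol_toReal_pos ?_⟩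
  rw [volumeProduct_eq_vp K 0 b]
  refine vp_lower hS fun z hz => ?_
  have hv1 : 0 < (volumeProduct K₁).toReal := by
    rw [(ratio_real hK₁).2]; exact mul_pos (ratio_real hK₁).1 (simplexVal_pos _)
  have hv2 : 0 < (volumeProduct K₂).toReal := by
    rw [(ratio_real hK₂).2]; exact mul_pos (ratio_real hK₂).1 (simplexVal_pos _)
  have hf : (0 : ℝ) < ((Fintype.card (Fin (m + 1))).factorial : ℝ) := by positivity
  rw [← wh_smul hf hv1 hv2 hS₁.vol_toReal_pos hS₂.vol_toReal_pos]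
  have l1 := fun z => EF_lower hS₁ z
  have l2 := fun z => EF_lower hS₂ z
  rw [← volumeProduct_eq_vp K₁ 0 b] at l1
  rw [← volumeProduct_eq_vp K₂ 0 b] at l2
  exact fiber_sum2 (i := 0) hS.cpt hS₁.cpt hS₁.cvx hS₁.ne hS₂.cpt hS₂.cvx hS₂.ne hKS hp1' hp2'
    (mul_pos hf hv1) (mul_pos hf hv2) l1 l2 hz

end Vale.Agent.P248.H432
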