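import Vale.Agent.P248.Bdl.B2
import Vale.Agent.P254.Bdl.B19
import Vale.Agent.P254.H242.W175

/-!
P248, near-sharp bound for the volume product of all convex bodies, with the constant `7/20`
(profile of helper242).
-/

open MeasureTheory Set

namespace Vale.Agent.P248.H432

theorem nice175 (n : ℕ) : Vale.Agent.P254.X.Loss.NiceDDL (7 / 40) n :=
  (Vale.Agent.P254.X.Top.niceFrL Vale.Agent.P254.H242.wp
    (Vale.Agent.P254.S5.N710.stmtNice_of (Vale.Agent.P254.X.Chain.stmtStatic_of_sc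
      (Vale.Agent.P227.M.HL.stmtSC_of_heat Vale.Agent.P227.M.SC.stmtHeat))) n).niceDDL

theorem near_sharp175 {n : ℕ} {K : Set (EuclideanSpace ℝ (Fin n))}
    (hK : Vale.Agent.P248.IsConvexBody K) :
    ENNReal.ofReal (Real.exp (-(7 / 20 * ((n : ℝ) + 1))) *
      (((n : ℝ) + 1) ^ (n + 1) / (n.factorial : ℝ) ^ 2)) ≤ Vale.Agent.P248.volumeProduct K := by
  have h1 := NS.T10.volumeProduct_ge
    (fun _ hK _ hz => NS.T10.body_of (NS.Asm541.stmtMain_of NS.T2.stmtLoss) NS.T9.stmtCone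
      (nice175 (n + 1)) hK hz) hK
  have e : (2 * (7 / 40) * ((n : ℝ) + 1) : ℝ) = 7 / 20 * ((n : ℝ) + 1) := by ring
  rwa [e] at h1

end Vale.Agent.P248.H432
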