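import Vale.Agent.P248.H432.Rot
import Vale.Agent.P248.H432.Near

/-! P248: bodies invariant under rotations in blocks of coordinates. -/

set_option linter.unusedSectionVars false

open MeasureTheory Set Filter
open scoped ENNReal Topology

namespace Vale.Agent.P248.H432

open Vale.Agent.P254.H242 (RR RR_pos RInv kap kap_pos)

theorem frame_repr {n : ℕ} (p : E n) (b : Module.Basis (Fin n) ℝ (E n)) (u : Fin n → ℝ)
    (j : Fin n) : b.repr (frame p b u - p) j = u j := by
  unfold frame
  rw [add_sub_cancel_left]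
  exact congrFun (b.equivFun.apply_symm_apply u) j

theorem rot_lower {n m : ℕ} {K : Set (E n)} (hK : IsConvexBody K) {T : Fin m → Finset (Fin n)}
    (hd : ∀ i j, i ≠ j → Disjoint (T i) (T j)) (hT : IsRotInv T K) :
    ENNReal.ofReal (Real.exp (-(7 / 20 * ((n : ℝ) + 1)))) ≤
      ENNReal.ofReal (∏ i, RR (T i).card) * mahlerRatio K := by
  classical
  obtain ⟨p, b, hT⟩ := hT
  have hS := CB_frame hK p b
  set S := frame p b ⁻¹' K with hSd
  have hR : ∀ i, RInv (T i) S := by
    intro i x hx y h1 h2
    refine hT i _ hx _ (fun j hj => ?_) ?_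
    · rw [frame_repr, frame_repr]; exact h1 j hj
    · simp only [frame_repr]; exact h2
  obtain ⟨S', hS', hV⟩ := blocksV T hd hS hR
  set U : Finset (Fin n) := Finset.univ.biUnion T with hU
  have hUm : ∀ j, j ∈ U ↔ ∃ i, j ∈ T i := fun j => by
    rw [hU, Finset.mem_biUnion]
    simp
  have hsym : ∀ x ∈ S, (fun i => if i ∈ U then -x i else x i) ∈ S := by
    have key : ∀ s : Finset (Fin m), ∀ x ∈ S,
        (fun j => if j ∈ s.biUnion T then -x j else x j) ∈ S := by
      intro s
      induction s using Finset.induction_on with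
      | empty => intro x hx; simpa using hx
      | insert i s hi ih =>
        intro x hx
        have h1 := ih x hx
        refine hR i _ h1 _ (fun j hj => ?_) ?_
        · simp only [Finset.biUnion_insert, Finset.mem_union, hj, false_or]
        · refine Finset.sum_congr rfl fun j hj => ?_
          have h2 : j ∉ s.biUnion T := by
            rw [Finset.mem_biUnion]
            rintro ⟨k, hk, hjk⟩
            have hne : i ≠ k := fun h => hi (h ▸ hk)
            exact Finset.disjoint_left.1 (hd i k hne) hj hjk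
          simp only [Finset.biUnion_insert, Finset.mem_union, hj, true_or, if_true, h2, if_false]
          ring
    exact key Finset.univ
  have hRR : 0 < ∏ i, RR (T i).card := Finset.prod_pos fun i _ => RR_pos _
  -- the lower bound for the exchanged body
  have hN : ∀ z, ENNReal.ofReal ((Fintype.card (Fin n)).factorial *
      (Real.exp (-(7 / 20 * ((n : ℝ) + 1))) * simplexVal n)) ≤ volume S' * EF S' z := by
    intro z
    refine le_trans (ENNReal.ofReal_le_ofReal ?_) (EF_lower hS' z)
    refine mul_le_mul_of_nonneg_left ?_ (by positivity)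
    obtain ⟨F, hF⟩ := frame_homeo (0 : E n) (sb n)
    have hFe : frame 0 (sb n) = F := funext fun u => (hF u).symm
    have hpre : frame 0 (sb n) ⁻¹' (frame 0 (sb n) '' S') = S' := by
      rw [hFe]; exact F.preimage_image S'
    have hb' : IsConvexBody (frame 0 (sb n) '' S') := body_of_CB (p := 0) (b := sb n) (by
      rw [hpre]; exact hS')
    have h1 := near_sharp175 hb'
    rw [volumeProduct_eq_vp _ 0 (sb n), hpre] at h1
    exact (ENNReal.ofReal_le_iff_le_toReal hS'.vp_ne_top).1 h1
  have hmain : ENNReal.ofReal (Real.exp (-(7 / 20 * ((n : ℝ) + 1))) * simplexVal n /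
      ∏ i, RR (T i).card) ≤ vp S := by
    refine vp_lower hS fun z hz => ?_
    set z' : Fin n → ℝ := fun i => if i ∈ U then 0 else z i with hz'
    have h1 := symm_le hS hsym z
    have h2 := hV z' (fun i j hj => if_pos ((hUm j).2 ⟨i, hj⟩))
    refine le_trans ?_ (mul_le_mul' le_rfl h1)
    have h3 := hN z'
    rw [← h2] at h3
    have h4 : (Fintype.card (Fin n)).factorial * (Real.exp (-(7 / 20 * ((n : ℝ) + 1))) *
        simplexVal n / ∏ i, RR (T i).card) = (Fintype.card (Fin n)).factorial *
          (Real.exp (-(7 / 20 * ((n : ℝ) + 1))) * simplexVal n) / ∏ i, RR (T i).card := by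
      ring
    rw [h4, ENNReal.ofReal_div_of_pos hRR]
    exact ENNReal.div_le_of_le_mul h3
  rw [← volumeProduct_eq_vp K p b, volumeProduct_eq_ratio, mul_div_right_comm,
    ENNReal.ofReal_mul (by positivity), ENNReal.mul_le_mul_iff_left (ofReal_sv_ne_zero n)
      ENNReal.ofReal_ne_top, ENNReal.ofReal_div_of_pos hRR] at hmain
  rw [mul_comm (ENNReal.ofReal (∏ i, RR (T i).card))]
  exact (ENNReal.div_le_iff (by rw [Ne, ENNReal.ofReal_eq_zero, not_le]; exact hRR)
    ENNReal.ofReal_ne_top).1 hmain

theorem ratio_ball {p : ℕ} (hp : 1 ≤ p) :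
    ENNReal.ofReal (RR p) * mahlerRatio (Metric.closedBall (0 : E p) 1) ≤ 1 := by
  have : Nonempty (Fin p) := ⟨⟨0, hp⟩⟩
  have hk := kap_pos p
  have hsv := simplexVal_pos p
  have hv : volume (Metric.closedBall (0 : E p) 1) = ENNReal.ofReal (kap p) := by
    rw [EuclideanSpace.volume_closedBall, ENNReal.ofReal_one, one_pow, one_mul, Fintype.card_fin]
    rfl
  have hpol : polarAt (Metric.closedBall (0 : E p) 1) 0 ⊆ Metric.closedBall (0 : E p) 1 := by
    intro y hy
    rw [mem_closedBall_zero_iff]
    by_contra hlt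
    rw [not_le] at hlt
    have hy0 : 0 < ‖y‖ := by linarith
    have h1 := hy (‖y‖⁻¹ • y) (by
      rw [mem_closedBall_zero_iff, norm_smul, norm_inv, norm_norm, inv_mul_cancel₀ hy0.ne'])
    rw [sub_zero, inner_smul_right, real_inner_self_eq_norm_sq] at h1
    have h2 : ‖y‖⁻¹ * ‖y‖ ^ 2 = ‖y‖ := by field_simp
    rw [h2] at h1
    linarith
  have h1 : volumeProduct (Metric.closedBall (0 : E p) 1) ≤ ENNReal.ofReal (kap p ^ 2) := by
    refine (iInf₂_le 0 (by
      rw [interior_closedBall _ one_ne_zero]; exact Metric.mem_ball_self one_pos)).trans ?_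
    rw [pow_two, ENNReal.ofReal_mul hk.le, ← hv]
    exact mul_le_mul' le_rfl (measure_mono hpol)
  have hRR : RR p = simplexVal p / kap p ^ 2 := by
    unfold RR simplexVal
    field_simp
  unfold mahlerRatio
  calc ENNReal.ofReal (RR p) * (volumeProduct (Metric.closedBall (0 : E p) 1) /
        ENNReal.ofReal (simplexVal p))
      ≤ ENNReal.ofReal (RR p) * (ENNReal.ofReal (kap p ^ 2) / ENNReal.ofReal (simplexVal p)) :=
        mul_le_mul' le_rfl (ENNReal.div_le_div_right h1 _)
    _ = 1 := by
        rw [← ENNReal.ofReal_div_of_pos hsv, ← ENNReal.ofReal_mul (RR_pos p).le, hRR]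
        have : simplexVal p / kap p ^ 2 * (kap p ^ 2 / simplexVal p) = 1 := by
          field_simp
        rw [this, ENNReal.ofReal_one]

/-- **Rotation-invariant bodies.** -/
theorem rot_law {n m : ℕ} {K : Set (E n)} (hK : IsConvexBody K) {T : Fin m → Finset (Fin n)}
    (hd : ∀ i j, i ≠ j → Disjoint (T i) (T j)) (hT : IsRotInv T K) :
    ENNReal.ofReal (Real.exp (-(7 / 20 * ((n : ℝ) + 1)))) *
      ∏ i, mahlerRatio (Metric.closedBall (0 : E (T i).card) 1) ≤ mahlerRatio K := by
  have h1 := rot_lower hK hd hT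
  have h2 : ENNReal.ofReal (∏ i, RR (T i).card) *
      ∏ i, mahlerRatio (Metric.closedBall (0 : E (T i).card) 1) ≤ 1 := by
    rw [ENNReal.ofReal_prod_of_nonneg fun i _ => (RR_pos _).le, ← Finset.prod_mul_distrib]
    refine Finset.prod_le_one' fun i _ => ?_
    rcases Nat.eq_zero_or_pos (T i).card with h0 | h0
    · have key : ∀ k : ℕ, k = 0 →
          ENNReal.ofReal (RR k) * mahlerRatio (Metric.closedBall (0 : E k) 1) ≤ 1 := by
        intro k hk
        subst hk
        have hu : Metric.closedBall (0 : E 0) 1 = univ := by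
          refine eq_univ_of_forall fun x => ?_
          rw [Subsingleton.elim x 0]
          exact Metric.mem_closedBall_self zero_le_one
        rw [hu, Vale.Agent.P254.H242.RR_zero, ratio_simplex isSimplex_point, ENNReal.ofReal_one,
          one_mul]
      exact key _ h0
    · exact ratio_ball h0
  calc ENNReal.ofReal (Real.exp (-(7 / 20 * ((n : ℝ) + 1)))) *
      ∏ i, mahlerRatio (Metric.closedBall (0 : E (T i).card) 1)
      ≤ (ENNReal.ofReal (∏ i, RR (T i).card) * mahlerRatio K) *
        ∏ i, mahlerRatio (Metric.closedBall (0 : E (T i).card) 1) := mul_le_mul' h1 le_rfl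
    _ = (ENNReal.ofReal (∏ i, RR (T i).card) *
        ∏ i, mahlerRatio (Metric.closedBall (0 : E (T i).card) 1)) * mahlerRatio K := by ring
    _ ≤ 1 * mahlerRatio K := mul_le_mul' h2 le_rfl
    _ = mahlerRatio K := one_mul _

theorem one_lt_of_RR {n m : ℕ} {K : Set (E n)} (hK : IsConvexBody K)
    {T : Fin m → Finset (Fin n)} (hd : ∀ i j, i ≠ j → Disjoint (T i) (T j)) (hT : IsRotInv T K)
    (h : Real.exp (7 / 20 * ((n : ℝ) + 1)) * ∏ i, RR (T i).card < 1) : 1 < mahlerRatio K := by
  have h1 := rot_lower hK hd hT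
  have ht := mahlerRatio_ne_top hK
  have hRR : 0 < ∏ i, RR (T i).card := Finset.prod_pos fun i _ => RR_pos _
  rw [← ENNReal.ofReal_toReal ht, ← ENNReal.ofReal_mul hRR.le,
    ENNReal.ofReal_le_ofReal_iff (mul_nonneg hRR.le ENNReal.toReal_nonneg)] at h1
  rw [← ENNReal.ofReal_toReal ht, ← ENNReal.ofReal_one, ENNReal.ofReal_lt_ofReal_iff_of_nonneg
    zero_le_one]
  by_contra hlt
  rw [not_lt] at hlt
  have h2 : (∏ i, RR (T i).card) * (mahlerRatio K).toReal ≤ ∏ i, RR (T i).card :=
    mul_le_of_le_one_right hRR.le hlt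
  have h3 := h1.trans h2
  rw [Real.exp_neg, inv_eq_one_div, div_le_iff₀ (Real.exp_pos _)] at h3
  linarith

/-- **The general Mahler conjecture for bodies with big blocks of rotations**, strict. -/
theorem rot_big {n m : ℕ} {K : Set (E n)} (hK : IsConvexBody K) {T : Fin m → Finset (Fin n)}
    (hd : ∀ i j, i ≠ j → Disjoint (T i) (T j)) (hT : IsRotInv T K) (hb : BigBlocks T) :
    1 < mahlerRatio K := by
  rcases hb with ⟨i, hi⟩ | ⟨h4, hs⟩
  · have hpn : (T i).card ≤ n := by
      have := Finset.card_le_univ (T i)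
      rwa [Fintype.card_fin] at this
    have hp5 : 5 ≤ (T i).card := by omega
    have h1 := Vale.Agent.P254.H242.one_block hp5
    obtain ⟨p, b, hT⟩ := hT
    refine one_lt_of_RR (m := 1) (T := fun _ => T i) hK
      (fun j k hjk => absurd (Subsingleton.elim j k) hjk) ⟨p, b, fun _ => hT i⟩ ?_
    rw [Fin.prod_univ_one]
    refine lt_of_le_of_lt (mul_le_mul_of_nonneg_right (Real.exp_le_exp.2 ?_) (RR_pos _).le) h1
    have h2 : ((n + 5 : ℕ) : ℝ) ≤ ((2 * (T i).card : ℕ) : ℝ) := by exact_mod_cast hi
    push_cast at h2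
    linarith
  · refine one_lt_of_RR hK hd hT ?_
    have h1 : ∏ i, RR (T i).card ≤ ∏ i, Real.exp (-(3 / 8 * ((T i).card : ℝ))) :=
      Finset.prod_le_prod (fun i _ => (RR_pos _).le)
        fun i _ => Vale.Agent.P254.H242.four_block (h4 i)
    rw [← Real.exp_sum] at h1
    refine lt_of_le_of_lt (mul_le_mul_of_nonneg_left h1 (Real.exp_pos _).le) ?_
    rw [← Real.exp_add, Real.exp_lt_one_iff, Finset.sum_neg_distrib, ← Finset.mul_sum]
    have h2 : ((14 * n + 15 : ℕ) : ℝ) ≤ ((15 * ∑ i, (T i).card : ℕ) : ℝ) := by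
      exact_mod_cast hs
    push_cast at h2
    linarith

end Vale.Agent.P248.H432
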