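import Vale.Agent.P248.H432.PolarLaw
import Vale.Agent.P248.H432.MixLaw
import Vale.Agent.P248.H432.RotLaw
import Vale.Agent.P248.H432.Bridge
import Vale.Agent.P248.H432.Few

/-! P248: the general Mahler conjecture for generated bodies. -/

set_option linter.unusedSectionVars false

open MeasureTheory Set Filter
open scoped ENNReal Topology Pointwise

namespace Vale.Agent.P248.H432

theorem mix_ratio {a b c : ℝ≥0∞} (ha : 1 ≤ a) (hb : 1 ≤ b) (hab : ¬ (a = 1 ∧ b = 1))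
    (h : min a b ≤ c) (h' : a ≠ b → min a b < c) : 1 < c := by
  by_cases e : a = b
  · subst e
    rw [min_self] at h
    exact (lt_of_le_of_ne ha fun h1 => hab ⟨h1.symm, h1.symm⟩).trans_le h
  · exact (le_min ha hb).trans_lt (h' e)

/-- **The general Mahler conjecture for generated bodies**, with its equality case. -/
theorem generated {n : ℕ} {K : Set (E n)} (h : Generated n K) :
    IsConvexBody K ∧ 1 ≤ mahlerRatio K ∧ (mahlerRatio K = 1 ↔ IsSimplex K) := by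
  induction h with
  | low hn hK => exact ⟨hK, Q2_down Q2_three hn _ hK⟩
  | few hK =>
    have h1 := few _ (interior_convexHull_nonempty_iff_affineSpan_eq_top.1 hK.2.2)
    exact ⟨hK, h1.1, h1.2, ratio_simplex⟩
  | lab hK hL =>
    refine ⟨hK, ?_⟩
    rw [one_le_ratio_iff, ratio_eq_one_iff]
    exact lab_full hK hL
  | rot hK hd hT hb =>
    have h4 := rot_big hK hd hT hb
    exact ⟨hK, h4.le, fun h => absurd h h4.ne', fun h => absurd (ratio_simplex h) h4.ne'⟩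
  | join _ _ hj ihK ihL =>
    replace hj := hj.isJoin
    exact ⟨hj.body ihK.1 ihL.1,
      hj.ratio_iff ihK.1 ihL.1 ihK.2.1 ihK.2.2 ihL.2.1 ihL.2.2⟩
  | prod _ _ hj ihK ihL =>
    replace hj := hj.isProduct
    exact ⟨hj.body ihK.1 ihL.1,
      hj.ratio_iff ihK.1 ihL.1 ihK.2.1 ihK.2.2 ihL.2.1 ihL.2.2⟩
  | polar _ ih =>
    have h1 := ratio_le_polar ih.1
    change mahlerRatio _ ≤ mahlerRatio (centroidPolar _) at h1
    refine ⟨polarAt_body ih.1 (centroid_mem ih.1), ih.2.1.trans h1, fun h2 => ?_, ratio_simplex⟩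
    rw [h2] at h1
    exact polarAt_simplex (ih.2.2.1 (le_antisymm h1 ih.2.1)) (centroid_mem ih.1)
  | @glue n K K₁ K₂ _ _ hcv hg ih₁ ih₂ =>
    obtain ⟨h1, h2, h3⟩ := hg.law hcv ih₁.1 ih₂.1
    by_cases hs : IsSimplex K₁ ∧ IsSimplex K₂
    · obtain ⟨v, hv, e⟩ := glue_few hcv hg hs.1 hs.2
      rw [e] at h1 ⊢
      have h4 := few v hv
      exact ⟨h1, h4.1, h4.2, ratio_simplex⟩
    have h4 := mix_ratio ih₁.2.1 ih₂.2.1 (fun h => hs ⟨ih₁.2.2.1 h.1, ih₂.2.2.1 h.2⟩) h2 h3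
    exact ⟨h1, h4.le, fun h => absurd h h4.ne', fun h => absurd (ratio_simplex h) h4.ne'⟩
  | fibreSum _ _ hs hg ih₁ ih₂ =>
    obtain ⟨h1, h2, h3⟩ := hg.law ih₁.1 ih₂.1
    have h4 := mix_ratio ih₁.2.1 ih₂.2.1 (fun h => hs ⟨ih₁.2.2.1 h.1, ih₂.2.2.1 h.2⟩) h2 h3
    exact ⟨h1, h4.le, fun h => absurd h h4.ne', fun h => absurd (ratio_simplex h) h4.ne'⟩

end Vale.Agent.P248.H432
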