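import Vale.Agent.P248.H432.Tensor

/-! P248: the asymptotic constant of the general Mahler conjecture. -/

set_option linter.unusedSectionVars false

open MeasureTheory Set Filter
open scoped ENNReal Topology Pointwise

namespace Vale.Agent.P248.H432

/-- `t` is admissible: `P(K) ≥ t^(n+1) c_n` for all convex bodies in all dimensions. -/
def Adm (t : ℝ) : Prop := ∀ (n : ℕ) (K : Set (E n)), IsConvexBody K →
  ENNReal.ofReal (t ^ (n + 1) * simplexVal n) ≤ volumeProduct K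

theorem le_vp_iff {n : ℕ} {K : Set (E n)} (hK : IsConvexBody K) {a : ℝ} (ha : 0 ≤ a) :
    ENNReal.ofReal (a * simplexVal n) ≤ volumeProduct K ↔ a ≤ (mahlerRatio K).toReal := by
  have hr := mahlerRatio_ne_top hK
  rw [volumeProduct_eq_ratio, ENNReal.ofReal_mul ha,
    ENNReal.mul_le_mul_iff_left (ofReal_sv_ne_zero n) ENNReal.ofReal_ne_top,
    ENNReal.ofReal_le_iff_le_toReal hr]

theorem adm_le_one {t : ℝ} (ht : 0 ≤ t) (h : Adm t) : t ≤ 1 := by
  have h1 := h 0 univ isSimplex_point.isConvexBody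
  rw [zero_add, pow_one, le_vp_iff isSimplex_point.isConvexBody ht,
    ratio_simplex isSimplex_point, ENNReal.toReal_one] at h1
  exact h1

/-- one body gives bodies in all large dimensions -/
theorem spread {d : ℕ} {K : Set (E d)} (hK : IsConvexBody K) {n : ℕ} (hn : d ≤ n) :
    ∃ (k j : ℕ) (M : Set (E n)), n = k * (d + 1) + d + j ∧ j ≤ d ∧ IsConvexBody M ∧
      mahlerRatio M = mahlerRatio K ^ (k + 1) := by
  obtain ⟨k, j, hNe, hj⟩ : ∃ k j : ℕ, n = k * (d + 1) + d + j ∧ j ≤ d := by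
    refine ⟨(n - d) / (d + 1), (n - d) % (d + 1), ?_, ?_⟩
    · have hkj : (d + 1) * ((n - d) / (d + 1)) + (n - d) % (d + 1) = n - d := Nat.div_add_mod _ _
      have h1 : (d + 1) * ((n - d) / (d + 1)) = (n - d) / (d + 1) * (d + 1) := Nat.mul_comm _ _
      omega
    · have : (n - d) % (d + 1) < d + 1 := Nat.mod_lt _ (Nat.succ_pos d)
      omega
  subst hNe
  obtain ⟨M, hM, hMr⟩ := join_power hK k
  obtain ⟨M', hM', hMr'⟩ := join_points hM j
  rw [hMr] at hMr'
  exact ⟨k, j, M', rfl, hj, hM', hMr'⟩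

/-- **The asymptotic constant.** -/
theorem exists_constant {c : ℝ} (hc : 0 < c) (hcA : Adm c) :
    ∃ lam : ℝ, c ≤ lam ∧ lam ≤ 1 ∧ Adm lam ∧
      (∀ μ : ℝ, lam < μ → ∃ N : ℕ, ∀ n : ℕ, N ≤ n → ∃ K : Set (E n), IsConvexBody K ∧
        volumeProduct K < ENNReal.ofReal (μ ^ (n + 1) * simplexVal n)) ∧
      (lam = 1 ↔ ∀ (n : ℕ) (K : Set (E n)), IsConvexBody K →
        ENNReal.ofReal (simplexVal n) ≤ volumeProduct K) := by
  set S : Set ℝ := {t | 0 ≤ t ∧ Adm t} with hS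
  have hcS : c ∈ S := ⟨hc.le, hcA⟩
  have hbdd : BddAbove S := ⟨1, fun t ht => adm_le_one ht.1 ht.2⟩
  set lam := sSup S with hlam
  have hle : c ≤ lam := le_csSup hbdd hcS
  have hl0 : 0 < lam := hc.trans_le hle
  have hl1 : lam ≤ 1 := csSup_le ⟨c, hcS⟩ fun t ht => adm_le_one ht.1 ht.2
  have hAl : Adm lam := by
    intro n K hK
    rw [le_vp_iff hK (by positivity)]
    set r := (mahlerRatio K).toReal with hr
    have hr0 : 0 ≤ r := ENNReal.toReal_nonneg
    have h1 : (r ^ (((n + 1 : ℕ) : ℝ)⁻¹)) ^ (n + 1) = r :=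
      Real.rpow_inv_natCast_pow hr0 (Nat.succ_ne_zero n)
    rw [← h1]
    refine pow_le_pow_left₀ hl0.le ?_ _
    refine csSup_le ⟨c, hcS⟩ fun t ht => ?_
    have h2 := ht.2 n K hK
    rw [le_vp_iff hK (pow_nonneg ht.1 _), ← hr, ← h1] at h2
    exact (pow_le_pow_iff_left₀ ht.1 (Real.rpow_nonneg hr0 _) (Nat.succ_ne_zero n)).1 h2
  refine ⟨lam, hle, hl1, hAl, ?_, ?_⟩
  · intro μ hμ
    have hμ0 : 0 < μ := hl0.trans hμ
    rcases lt_or_ge 1 μ with h1 | h1
    · refine ⟨0, fun n _ => ?_⟩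
      have h := join_points isSimplex_point.isConvexBody n
      rw [Nat.zero_add, ratio_simplex isSimplex_point] at h
      obtain ⟨M, hM, hMr⟩ := h
      refine ⟨M, hM, ?_⟩
      rw [← not_le, le_vp_iff hM (pow_nonneg hμ0.le _), not_le, hMr, ENNReal.toReal_one]
      exact one_lt_pow₀ h1 (Nat.succ_ne_zero n)
    · obtain ⟨μ', h2, h3⟩ := exists_between hμ
      have hμ'0 : 0 < μ' := hl0.trans h2
      have hnot : ¬ Adm μ' := fun h => absurd (le_csSup hbdd ⟨hμ'0.le, h⟩) (not_le.2 h2)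
      unfold Adm at hnot
      push Not at hnot
      obtain ⟨d, K, hK, hlt⟩ := hnot
      rw [← not_le, le_vp_iff hK (pow_nonneg hμ'0.le _), not_le] at hlt
      have hr0 : 0 ≤ (mahlerRatio K).toReal := ENNReal.toReal_nonneg
      obtain ⟨k0, hk0⟩ := exists_pow_lt_of_lt_one (pow_pos hμ0 d)
        ((div_lt_one hμ0).2 h3)
      refine ⟨k0 * (d + 1) + d + d, fun n hn => ?_⟩
      obtain ⟨k, j, M, hn2, hj, hM, hMr⟩ := spread hK (show d ≤ n by omega)
      refine ⟨M, hM, ?_⟩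
      rw [← not_le, le_vp_iff hM (pow_nonneg hμ0.le _), not_le, hMr, ENNReal.toReal_pow]
      have hk : k0 ≤ k := by
        have : k0 * (d + 1) ≤ k * (d + 1) := by omega
        exact Nat.le_of_mul_le_mul_right this (Nat.succ_pos d)
      have e1 : (mahlerRatio K).toReal ^ (k + 1) ≤ (μ' ^ (d + 1)) ^ (k + 1) :=
        pow_le_pow_left₀ hr0 hlt.le _
      have hq0 : 0 < μ' / μ := div_pos hμ'0 hμ0
      have hq1 : μ' / μ ≤ 1 := ((div_lt_one hμ0).2 h3).le
      have e2 : (μ' / μ) ^ ((d + 1) * (k + 1)) ≤ (μ' / μ) ^ k0 := by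
        refine pow_le_pow_of_le_one hq0.le hq1 ?_
        nlinarith
      have e3 : (μ' / μ) ^ ((d + 1) * (k + 1)) < μ ^ j :=
        (e2.trans_lt hk0).trans_le (pow_le_pow_of_le_one hμ0.le h1 hj)
      rw [div_pow, div_lt_iff₀ (pow_pos hμ0 _)] at e3
      rw [← pow_mul] at e1
      refine e1.trans_lt (e3.trans_le (le_of_eq ?_))
      rw [← pow_add]
      congr 1
      rw [hn2]
      ring
  · constructor
    · intro h n K hK
      have h1 := hAl n K hK
      rwa [h, one_pow, one_mul] at h1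
    · intro h
      refine le_antisymm hl1 (le_csSup hbdd ⟨zero_le_one, fun n K hK => ?_⟩)
      rw [one_pow, one_mul]
      exact h n K hK

end Vale.Agent.P248.H432
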