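import Mathlib.MeasureTheory.Integral.Average
import Vale.Agent.P248.Defs

/-! P248: operations on convex bodies. -/

open MeasureTheory

namespace Vale.Agent.P248.H432

/-- Euclidean space -/
abbrev E (n : ℕ) : Type := EuclideanSpace ℝ (Fin n)

/-- the value `(n+1)^(n+1) / (n!)^2` of the volume product at a simplex of dimension `n` -/
noncomputable def simplexVal (n : ℕ) : ℝ := ((n : ℝ) + 1) ^ (n + 1) / (n.factorial : ℝ) ^ 2

/-- the Mahler ratio `P(K) / ((n+1)^(n+1) / (n!)^2)` -/
noncomputable def mahlerRatio {n : ℕ} (K : Set (E n)) : ENNReal :=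
  volumeProduct K / ENNReal.ofReal (simplexVal n)

/-- `M` is a join of `K` and `L`: the convex hull of affine copies of `K` and `L` lying in
complementary skew affine subspaces (a simplex is the join of any two opposite faces). -/
def JoinOf {m n N : ℕ} (K : Set (E m)) (L : Set (E n)) (M : Set (E N)) : Prop :=
  m + n + 1 = N ∧ ∃ (p q : E N) (f : E m → E N) (g : E n → E N),
    IsLinearMap ℝ f ∧ IsLinearMap ℝ g ∧ (∀ z, ∃ x y, ∃ r : ℝ, z = f x + g y + r • (p - q)) ∧
    M = convexHull ℝ ((fun x => p + f x) '' K ∪ (fun y => q + g y) '' L)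

/-- `M` is a product of `K` and `L` (up to an affine isomorphism) -/
def ProductOf {m n N : ℕ} (K : Set (E m)) (L : Set (E n)) (M : Set (E N)) : Prop :=
  m + n = N ∧ ∃ (p : E N) (f : E m → E N) (g : E n → E N),
    IsLinearMap ℝ f ∧ IsLinearMap ℝ g ∧ (∀ z, ∃ x y, z = f x + g y) ∧
    M = Set.image2 (fun x y => p + f x + g y) K L

/-- the polar body at the centroid -/
noncomputable def centroidPolar {n : ℕ} (K : Set (E n)) : Set (E n) := polarAt K (⨍ x in K, x)

/-- `K` is glued from `K₁` and `K₂`: its two parts on both sides of a hyperplane `ℓ = c` onto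
which `K` projects into itself along some direction `e`. -/
def IsGluing {n : ℕ} (K K₁ K₂ : Set (E n)) : Prop :=
  ∃ (ℓ : E n →ₗ[ℝ] ℝ) (c : ℝ) (e : E n), ℓ e = 1 ∧ (∀ x ∈ K, x - (ℓ x - c) • e ∈ K) ∧
    K₁ = K ∩ {x | c ≤ ℓ x} ∧ K₂ = K ∩ {x | ℓ x ≤ c}

/-- `K` is the fibrewise sum `(K₁ + K₂)/2` along a direction `e` of two bodies with the same
projection along `e`. -/
def IsFibreSum {n : ℕ} (K K₁ K₂ : Set (E n)) : Prop :=
  ∃ e : E n, e ≠ 0 ∧ (∀ x ∈ K₁, ∃ r : ℝ, x + r • e ∈ K₂) ∧
    (∀ x ∈ K₂, ∃ r : ℝ, x + r • e ∈ K₁) ∧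
    K = {x | ∃ r : ℝ, x + r • e ∈ K₁ ∧ x - r • e ∈ K₂}

/-- `K` is invariant, in some affine frame, under the rotations in each block `T i` of the
coordinates (nothing is assumed on the other coordinates). -/
def IsRotInv {n m : ℕ} (T : Fin m → Finset (Fin n)) (K : Set (E n)) : Prop :=
  ∃ (p : E n) (b : Module.Basis (Fin n) ℝ (E n)), ∀ i, ∀ x ∈ K, ∀ y : E n,
    (∀ j, j ∉ T i → b.repr (y - p) j = b.repr (x - p) j) →
    ∑ j ∈ T i, b.repr (y - p) j ^ 2 = ∑ j ∈ T i, b.repr (x - p) j ^ 2 → y ∈ K

/-- One block has at least `(n + 5) / 2` elements, or all blocks have at least four elements and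
together at least `(14 n + 15) / 15`. -/
def BigBlocks {n m : ℕ} (T : Fin m → Finset (Fin n)) : Prop :=
  (∃ i, n + 5 ≤ 2 * (T i).card) ∨
    (∀ i, 4 ≤ (T i).card) ∧ 14 * n + 15 ≤ 15 * ∑ i, (T i).card

/-- The bodies generated from all convex bodies of dimension at most three, all polytopes with at
most `n + 2` vertices, all locally anti-blocking bodies and all bodies with big blocks of
rotations, by joins, products (a product with a point is an affine image), polarity at the
centroid, gluings, and fibre sums of two bodies that are not both simplices. -/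
inductive Generated : ∀ n : ℕ, Set (E n) → Prop
  | low {n : ℕ} {K : Set (E n)} : n ≤ 3 → IsConvexBody K → Generated n K
  | few {n : ℕ} {v : Fin (n + 2) → E n} : IsConvexBody (convexHull ℝ (Set.range v)) →
      Generated n (convexHull ℝ (Set.range v))
  | lab {n : ℕ} {K : Set (E n)} : IsConvexBody K → IsLocallyAntiBlocking K → Generated n K
  | rot {n m : ℕ} {K : Set (E n)} {T : Fin m → Finset (Fin n)} : IsConvexBody K →
      (∀ i j, i ≠ j → Disjoint (T i) (T j)) → IsRotInv T K → BigBlocks T → Generated n K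
  | join {m n N : ℕ} {K : Set (E m)} {L : Set (E n)} {M : Set (E N)} :
      Generated m K → Generated n L → JoinOf K L M → Generated N M
  | prod {m n N : ℕ} {K : Set (E m)} {L : Set (E n)} {M : Set (E N)} :
      Generated m K → Generated n L → ProductOf K L M → Generated N M
  | polar {n : ℕ} {K : Set (E n)} : Generated n K → Generated n (centroidPolar K)
  | glue {n : ℕ} {K K₁ K₂ : Set (E n)} : Generated n K₁ → Generated n K₂ → Convex ℝ K →
      IsGluing K K₁ K₂ → Generated n K
  | fibreSum {n : ℕ} {K K₁ K₂ : Set (E n)} : Generated n K₁ → Generated n K₂ →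
      ¬ (IsSimplex K₁ ∧ IsSimplex K₂) → IsFibreSum K K₁ K₂ → Generated n K

/-- the conjecture for the body `K`: `P(K) ≥ (n+1)^(n+1) / (n!)^2`, with equality iff `K` is a
simplex -/
def MahlerFor {n : ℕ} (K : Set (E n)) : Prop :=
  ENNReal.ofReal (simplexVal n) ≤ volumeProduct K ∧
    (volumeProduct K = ENNReal.ofReal (simplexVal n) ↔ IsSimplex K)

/-- the inequality of the conjecture in dimension `n` up to the factor `t`: every convex body `K`
of `ℝⁿ` has `P(K) ≥ t (n+1)^(n+1) / (n!)^2` -/
def MahlerUpTo (n : ℕ) (t : ℝ) : Prop := ∀ K : Set (E n), IsConvexBody K →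
  ENNReal.ofReal (t * simplexVal n) ≤ volumeProduct K

end Vale.Agent.P248.H432
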