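import Vale.Agent.P248.H432.Defs

/-! P248: joins and products in terms of affine and linear maps. -/

open MeasureTheory

namespace Vale.Agent.P248.H432

/-- `M` is a join of `K` and `L`: the convex hull of affine copies of `K` and `L` lying in
complementary skew affine subspaces (a simplex is the join of any two opposite faces). -/
def IsJoin {m n N : ℕ} (K : Set (E m)) (L : Set (E n)) (M : Set (E N)) : Prop :=
  m + n + 1 = N ∧ ∃ (f : E m →ᵃ[ℝ] E N) (g : E n →ᵃ[ℝ] E N),
    affineSpan ℝ (Set.range f ∪ Set.range g) = ⊤ ∧ M = convexHull ℝ (f '' K ∪ g '' L)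

/-- `M` is a product of `K` and `L` (up to an affine isomorphism) -/
def IsProduct {m n N : ℕ} (K : Set (E m)) (L : Set (E n)) (M : Set (E N)) : Prop :=
  m + n = N ∧ ∃ (p : E N) (f : E m →ₗ[ℝ] E N) (g : E n →ₗ[ℝ] E N),
    LinearMap.range f ⊔ LinearMap.range g = ⊤ ∧
    M = Set.image2 (fun x y => p + f x + g y) K L

end Vale.Agent.P248.H432
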