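import Vale.Agent.P248.H432.Reindex
import Mathlib.Probability.Distributions.Beta
import Mathlib.Analysis.Convex.Join

/-! P248: the join of two bodies, in coordinates. -/

set_option linter.unusedSectionVars false

open MeasureTheory Set
open scoped ENNReal Topology Pointwise

namespace Vale.Agent.P248.H432

section split

variable {θ : Type*} [Fintype θ]

theorem lintegral_unit_sum {F : (Unit ⊕ θ → ℝ) → ℝ≥0∞} (hF : Measurable F) :
    ∫⁻ w, F w = ∫⁻ σ : ℝ, ∫⁻ w' : θ → ℝ, F (Sum.elim (fun _ => σ) w') := by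
  rw [lintegral_sum_split hF]
  have h1 : Measurable fun p : (Unit → ℝ) × (θ → ℝ) => F (Sum.elim p.1 p.2) :=
    hF.comp measurable_sumElim
  exact lintegral_unit (F := fun t => ∫⁻ w' : θ → ℝ, F (Sum.elim t w')) h1.lintegral_prod_right'

theorem measurable_elim_const {F : (Unit ⊕ θ → ℝ) → ℝ≥0∞} (hF : Measurable F) :
    Measurable fun p : ℝ × (θ → ℝ) => F (Sum.elim (fun _ => p.1) p.2) := by
  refine hF.comp (measurable_pi_lambda _ fun i => ?_)
  cases i <;> simp <;> fun_prop

theorem lintegral_unit_sum' {F : (Unit ⊕ θ → ℝ) → ℝ≥0∞} (hF : Measurable F) :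
    ∫⁻ w, F w = ∫⁻ w' : θ → ℝ, ∫⁻ σ : ℝ, F (Sum.elim (fun _ => σ) w') := by
  rw [lintegral_unit_sum hF]
  exact lintegral_lintegral_swap (f := fun (σ : ℝ) (w' : θ → ℝ) => F (Sum.elim (fun _ => σ) w'))
    (measurable_elim_const hF).aemeasurable

end split

/-- the one-dimensional integral -/
theorem lintegral_hinge {s : ℝ} (h0 : 0 < s) (h1 : s < 1) :
    ∫⁻ τ : ℝ, ENNReal.ofReal (Real.exp (-(max τ 0 - s * τ))) =
      ENNReal.ofReal (1 / (s * (1 - s))) := by
  have hs : 0 < 1 - s := by linarith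
  have e1 := lintegral_unit (F := fun w => ENNReal.ofReal (Real.exp (-(max (w ()) 0 - s * w ()))))
    (by fun_prop)
  rw [← e1, laplace_formula (ι := Unit) (g := fun w => max (w ()) 0 - s * w ()) (by fun_prop)
    (fun w => ?_) (fun r hr w => ?_)]
  · have e2 : {x : Unit → ℝ | max (x ()) 0 - s * x () ≤ 1} =
        Set.pi univ (fun _ : Unit => Icc (-(1 / s)) (1 / (1 - s))) := by
      ext x
      rw [mem_pi]
      constructor
      · rintro h ⟨⟩ -
        have h : max (x ()) 0 - s * x () ≤ 1 := h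
        have h2 : x () - s * x () ≤ 1 := le_trans (by gcongr; exact le_max_left _ _) h
        have h3 : 0 - s * x () ≤ 1 := le_trans (by gcongr; exact le_max_right _ _) h
        constructor
        · rw [neg_le, le_div_iff₀ h0]
          linarith
        · rw [le_div_iff₀ hs]
          linarith
      · intro h
        obtain ⟨h2, h3⟩ := h () (mem_univ _)
        rw [neg_le, le_div_iff₀ h0] at h2
        rw [le_div_iff₀ hs] at h3
        show max (x ()) 0 - s * x () ≤ 1
        rcases le_total (x ()) 0 with h | h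
        · rw [max_eq_right h]; linarith
        · rw [max_eq_left h]; linarith
    rw [e2, volume_pi, Measure.pi_pi, Real.volume_Icc]
    simp only [Fintype.card_unit, Nat.factorial_one, Nat.cast_one, one_mul, Finset.univ_unique,
      Finset.prod_const, Finset.card_singleton, pow_one]
    congr 1
    field_simp
    ring
  · rcases le_total (w ()) 0 with h | h
    · simp only [max_eq_right h]
      nlinarith
    · simp only [max_eq_left h]
      nlinarith
  · simp only [Pi.smul_apply, smul_eq_mul]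
    have : max (r * w ()) 0 = r * max (w ()) 0 := by
      rw [mul_max_of_nonneg _ _ hr.le, mul_zero]
    rw [this]
    ring

theorem lintegral_beta (m n : ℕ) :
    ∫⁻ s in Ioo (0 : ℝ) 1, ENNReal.ofReal (s ^ m * (1 - s) ^ n) =
      ENNReal.ofReal ((m.factorial : ℝ) * n.factorial / (m + n + 1).factorial) := by
  have h := ProbabilityTheory.lintegral_betaPDF_eq_one (α := (m : ℝ) + 1) (β := (n : ℝ) + 1)
    (by positivity) (by positivity)
  rw [ProbabilityTheory.lintegral_betaPDF] at h
  have hb : ProbabilityTheory.beta ((m : ℝ) + 1) ((n : ℝ) + 1) =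
      (m.factorial : ℝ) * n.factorial / (m + n + 1).factorial := by
    unfold ProbabilityTheory.beta
    rw [Real.Gamma_nat_eq_factorial, Real.Gamma_nat_eq_factorial]
    have e : (m : ℝ) + 1 + (n + 1) = ((m + n + 1 : ℕ) : ℝ) + 1 := by push_cast; ring
    rw [e, Real.Gamma_nat_eq_factorial]
  have hpos : 0 < ProbabilityTheory.beta ((m : ℝ) + 1) ((n : ℝ) + 1) :=
    ProbabilityTheory.beta_pos (by positivity) (by positivity)
  rw [← hb]
  have e : ∀ s ∈ Ioo (0 : ℝ) 1, ENNReal.ofReal (1 / ProbabilityTheory.beta ((m : ℝ) + 1) ((n : ℝ) + 1)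
      * s ^ ((m : ℝ) + 1 - 1) * (1 - s) ^ ((n : ℝ) + 1 - 1)) =
      ENNReal.ofReal (1 / ProbabilityTheory.beta ((m : ℝ) + 1) ((n : ℝ) + 1)) *
        ENNReal.ofReal (s ^ m * (1 - s) ^ n) := by
    intro s hs
    rw [← ENNReal.ofReal_mul (by positivity)]
    simp only [add_sub_cancel_right, Real.rpow_natCast]
    congr 1
    ring
  rw [setLIntegral_congr_fun measurableSet_Ioo e, lintegral_const_mul _ (by fun_prop)] at h
  have h2 : ENNReal.ofReal (ProbabilityTheory.beta ((m : ℝ) + 1) ((n : ℝ) + 1)) *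
      ENNReal.ofReal (1 / ProbabilityTheory.beta ((m : ℝ) + 1) ((n : ℝ) + 1)) = 1 := by
    rw [← ENNReal.ofReal_mul hpos.le, mul_one_div_cancel hpos.ne', ENNReal.ofReal_one]
  calc _ = 1 * ∫⁻ s in Ioo (0 : ℝ) 1, ENNReal.ofReal (s ^ m * (1 - s) ^ n) := (one_mul _).symm
    _ = _ := by rw [← h2, mul_assoc, h, mul_one]

end Vale.Agent.P248.H432
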