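import Vale.Agent.P248.H432.JoinSet

/-! P248: the volume product of a join, in coordinates. -/

set_option linter.unusedSectionVars false

open MeasureTheory Set
open scoped ENNReal Topology Pointwise

namespace Vale.Agent.P248.H432

variable {ι κ : Type*} [Fintype ι] [Fintype κ] [DecidableEq ι] [DecidableEq κ]

/-- the scaled exponential functional -/
theorem EF_scale {K : Set (ι → ℝ)} (hK : IsCompact K) {a : ι → ℝ} (ha : a ∈ K) {s : ℝ}
    (h0 : 0 < s) :
    ∫⁻ u, ENNReal.ofReal (Real.exp (-(s * hs K a u))) =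
      ENNReal.ofReal ((s ^ Fintype.card ι)⁻¹) * EF K a := by
  have hn : K.Nonempty := ⟨a, ha⟩
  have hc := hs_continuous hK hn a
  rw [laplace_formula (g := fun u => s * hs K a u) (by fun_prop)
    (fun u => mul_nonneg h0.le (hs_nonneg hK ha u))
    (fun r hr u => by rw [hs_smul hK hn a u hr.le]; ring), EF_eq hK ha, polarP_eq hK hn]
  have e : {x | s * hs K a x ≤ 1} = s⁻¹ • {x | hs K a x ≤ 1} := by
    ext x
    rw [mem_smul_set_iff_inv_smul_mem₀ (inv_ne_zero h0.ne'), inv_inv]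
    show s * hs K a x ≤ 1 ↔ hs K a (s • x) ≤ 1
    rw [hs_smul hK hn a x h0.le]
  rw [e, Measure.addHaar_smul, Module.finrank_fintype_fun_eq_card,
    abs_of_pos (pow_pos (inv_pos.2 h0) _), inv_pow]
  ring

theorem sum_pt (s : ℝ) (a : ι → ℝ) (b : κ → ℝ) (s' : ℝ) (x : ι → ℝ) (y : κ → ℝ)
    (σ : ℝ) (u : ι → ℝ) (v : κ → ℝ) :
    ∑ i, ((jp s' x y : Unit ⊕ (ι ⊕ κ) → ℝ) i - (jp s a b : Unit ⊕ (ι ⊕ κ) → ℝ) i) *
      (pt σ u v : Unit ⊕ (ι ⊕ κ) → ℝ) i =
    (s' - s) * (σ + ∑ i, a i * u i - ∑ j, b j * v j) + s' * ∑ i, (x i - a i) * u i +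
      (1 - s') * ∑ j, (y j - b j) * v j := by
  rw [Fintype.sum_sum_type, Fintype.sum_sum_type]
  simp only [jp, pt, Sum.elim_inl, Sum.elim_inr, Pi.smul_apply, smul_eq_mul,
    Finset.univ_unique, Finset.sum_singleton]
  have e1 : ∑ i, (s' * x i - s * a i) * u i =
      s' * ∑ i, (x i - a i) * u i + (s' - s) * ∑ i, a i * u i := by
    rw [Finset.mul_sum, Finset.mul_sum, ← Finset.sum_add_distrib]
    exact Finset.sum_congr rfl fun i _ => by ring
  have e2 : ∑ j, ((1 - s') * y j - (1 - s) * b j) * v j =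
      (1 - s') * ∑ j, (y j - b j) * v j - (s' - s) * ∑ j, b j * v j := by
    rw [Finset.mul_sum, Finset.mul_sum, ← Finset.sum_sub_distrib]
    exact Finset.sum_congr rfl fun i _ => by ring
  rw [e1, e2]
  ring

theorem hs_cjoin {K : Set (ι → ℝ)} {L : Set (κ → ℝ)} (hK : IsCompact K) (hL : IsCompact L)
    (hKn : K.Nonempty) (hLn : L.Nonempty) (s : ℝ) (a : ι → ℝ) (b : κ → ℝ)
    (σ : ℝ) (u : ι → ℝ) (v : κ → ℝ) :
    hs (cjoin K L) (jp s a b) (pt σ u v) =
      max (σ + (hs K a u + ∑ i, a i * u i - hs L b v - ∑ j, b j * v j)) 0 -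
        s * (σ + (hs K a u + ∑ i, a i * u i - hs L b v - ∑ j, b j * v j)) +
        (s * hs K a u + (1 - s) * hs L b v) := by
  set A := ∑ i, a i * u i with hA
  set B := ∑ j, b j * v j with hB
  set p := hs K a u with hp
  set q := hs L b v with hq
  have hn : (cjoin K L).Nonempty := by
    obtain ⟨x, hx⟩ := hKn
    obtain ⟨y, hy⟩ := hLn
    exact ⟨_, jp_mem zero_le_one le_rfl hx hy⟩
  apply le_antisymm
  · refine hs_le hn ?_
    rintro _ ⟨s', hs', x, hx, y, hy, rfl⟩
    rw [sum_pt]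
    have h1 : ∑ i, (x i - a i) * u i ≤ p := le_hs hK a u hx
    have h2 : ∑ j, (y j - b j) * v j ≤ q := le_hs hL b v hy
    have h3 : s' * ∑ i, (x i - a i) * u i ≤ s' * p := mul_le_mul_of_nonneg_left h1 hs'.1
    have h4 : (1 - s') * ∑ j, (y j - b j) * v j ≤ (1 - s') * q :=
      mul_le_mul_of_nonneg_left h2 (by linarith [hs'.2])
    have h5 : s' * (σ + (p + A - q - B)) ≤ max (σ + (p + A - q - B)) 0 := by
      rcases le_total (σ + (p + A - q - B)) 0 with h | h
      · rw [max_eq_right h]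
        exact mul_nonpos_of_nonneg_of_nonpos hs'.1 h
      · rw [max_eq_left h]
        exact mul_le_of_le_one_left h hs'.2
    rw [← hA, ← hB]
    nlinarith [h3, h4, h5]
  · obtain ⟨x, hx, hx2⟩ := hK.exists_isMaxOn hKn (f := fun x => ∑ i, (x i - a i) * u i)
      (Continuous.continuousOn (by fun_prop))
    obtain ⟨y, hy, hy2⟩ := hL.exists_isMaxOn hLn (f := fun y => ∑ i, (y i - b i) * v i)
      (Continuous.continuousOn (by fun_prop))
    have h1 : p ≤ ∑ i, (x i - a i) * u i := hs_le hKn fun x' hx' => hx2 hx'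
    have h2 : q ≤ ∑ i, (y i - b i) * v i := hs_le hLn fun x' hx' => hy2 hx'
    have h3 := le_hs (isCompact_cjoin hK hL) (jp s a b) (pt σ u v)
      (jp_mem zero_le_one le_rfl hx hy)
    have h4 := le_hs (isCompact_cjoin hK hL) (jp s a b) (pt σ u v)
      (jp_mem le_rfl zero_le_one hx hy)
    rw [sum_pt] at h3 h4
    rw [← hA, ← hB] at h3 h4
    rcases le_total (σ + (p + A - q - B)) 0 with h | h
    · rw [max_eq_right h]
      nlinarith [h3, h4]
    · rw [max_eq_left h]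
      nlinarith [h3, h4]

theorem EF_cjoin {K : Set (ι → ℝ)} {L : Set (κ → ℝ)} (hK : IsCompact K) (hL : IsCompact L)
    {s : ℝ} (h0 : 0 < s) (h1 : s < 1) {a : ι → ℝ} {b : κ → ℝ} (ha : a ∈ K) (hb : b ∈ L) :
    EF (cjoin K L) (jp s a b) =
      ENNReal.ofReal (1 / (s ^ (Fintype.card ι + 1) * (1 - s) ^ (Fintype.card κ + 1))) *
        (EF K a * EF L b) := by
  have hs' : 0 < 1 - s := by linarith
  have hKn : K.Nonempty := ⟨a, ha⟩
  have hLn : L.Nonempty := ⟨b, hb⟩
  have hn : (cjoin K L).Nonempty := ⟨_, jp_mem zero_le_one le_rfl ha hb⟩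
  have hc := hs_continuous (isCompact_cjoin hK hL) hn (jp s a b)
  have hcK := hs_continuous hK hKn a
  have hcL := hs_continuous hL hLn b
  unfold EF
  rw [lintegral_unit_sum' (by fun_prop)]
  have e1 : ∀ w' : ι ⊕ κ → ℝ, ∫⁻ σ : ℝ,
      ENNReal.ofReal (Real.exp (-(hs (cjoin K L) (jp s a b) (Sum.elim (fun _ => σ) w')))) =
      (fun w'' : ι ⊕ κ → ℝ => ENNReal.ofReal (1 / (s * (1 - s))) *
        (ENNReal.ofReal (Real.exp (-(s * hs K a (fun i => w'' (Sum.inl i))))) *
        ENNReal.ofReal (Real.exp (-((1 - s) * hs L b (fun j => w'' (Sum.inr j))))))) w' := by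
    intro w'
    obtain ⟨u, v, rfl⟩ := exists_elim w'
    set c := hs K a u + ∑ i, a i * u i - hs L b v - ∑ j, b j * v j with hcdef
    have e2 : ∀ σ : ℝ, ENNReal.ofReal (Real.exp (-(hs (cjoin K L) (jp s a b)
        (Sum.elim (fun _ => σ) (Sum.elim u v))))) =
        (fun τ : ℝ => ENNReal.ofReal (Real.exp (-(max τ 0 - s * τ)))) (σ + c) *
          (ENNReal.ofReal (Real.exp (-(s * hs K a u))) *
            ENNReal.ofReal (Real.exp (-((1 - s) * hs L b v)))) := by
      intro σ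
      have h := hs_cjoin hK hL hKn hLn s a b σ u v
      unfold pt at h
      rw [h]
      simp only
      rw [← ENNReal.ofReal_mul (Real.exp_pos _).le, ← ENNReal.ofReal_mul (Real.exp_pos _).le,
        ← Real.exp_add, ← Real.exp_add]
      congr 2
      ring
    simp_rw [e2]
    rw [lintegral_mul_const _ (by fun_prop),
      lintegral_add_right_eq_self (fun τ : ℝ => ENNReal.ofReal (Real.exp (-(max τ 0 - s * τ)))) c,
      lintegral_hinge h0 h1]
    rfl
  simp_rw [e1]
  rw [lintegral_sum_split (by fun_prop)]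
  have e3 : ∀ (u : ι → ℝ) (v : κ → ℝ), ENNReal.ofReal (1 / (s * (1 - s))) *
        (ENNReal.ofReal (Real.exp (-(s * hs K a (fun i => (Sum.elim u v : ι ⊕ κ → ℝ) (Sum.inl i))))) *
        ENNReal.ofReal (Real.exp (-((1 - s) *
          hs L b (fun j => (Sum.elim u v : ι ⊕ κ → ℝ) (Sum.inr j)))))) =
      ENNReal.ofReal (1 / (s * (1 - s))) * ENNReal.ofReal (Real.exp (-(s * hs K a u))) *
        ENNReal.ofReal (Real.exp (-((1 - s) * hs L b v))) := by
    intro u v
    rw [mul_assoc]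
    rfl
  simp_rw [e3]
  have e4 : ∀ u : ι → ℝ, ∫⁻ v : κ → ℝ, ENNReal.ofReal (1 / (s * (1 - s))) *
      ENNReal.ofReal (Real.exp (-(s * hs K a u))) *
        ENNReal.ofReal (Real.exp (-((1 - s) * hs L b v))) =
      ENNReal.ofReal (1 / (s * (1 - s))) * ENNReal.ofReal (Real.exp (-(s * hs K a u))) *
        (ENNReal.ofReal (((1 - s) ^ Fintype.card κ)⁻¹) * EF L b) := by
    intro u
    rw [lintegral_const_mul _ (by fun_prop), EF_scale hL hb hs']
  simp_rw [e4]
  rw [lintegral_mul_const _ (by fun_prop), lintegral_const_mul _ (by fun_prop),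
    EF_scale hK ha h0]
  change ENNReal.ofReal (1 / (s * (1 - s))) * (ENNReal.ofReal ((s ^ Fintype.card ι)⁻¹) * EF K a) *
    (ENNReal.ofReal (((1 - s) ^ Fintype.card κ)⁻¹) * EF L b) = _ * (EF K a * EF L b)
  have e5 : ENNReal.ofReal (1 / (s ^ (Fintype.card ι + 1) * (1 - s) ^ (Fintype.card κ + 1))) =
      ENNReal.ofReal (1 / (s * (1 - s))) * ENNReal.ofReal ((s ^ Fintype.card ι)⁻¹) *
        ENNReal.ofReal (((1 - s) ^ Fintype.card κ)⁻¹) := by
    rw [← ENNReal.ofReal_mul (by positivity), ← ENNReal.ofReal_mul (by positivity)]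
    congr 1
    rw [pow_succ, pow_succ]
    field_simp
  rw [e5]
  ring

end Vale.Agent.P248.H432
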