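import Vale.Agent.P248.H432.Join

/-! P248: the join of two bodies, in coordinates: topology and volume. -/

set_option linter.unusedSectionVars false

open MeasureTheory Set
open scoped ENNReal Topology Pointwise

namespace Vale.Agent.P248.H432

variable {ι κ : Type*} [Fintype ι] [Fintype κ] [DecidableEq ι] [DecidableEq κ]

/-- a point with given first coordinate -/
def pt (s : ℝ) (u : ι → ℝ) (v : κ → ℝ) : Unit ⊕ (ι ⊕ κ) → ℝ :=
  Sum.elim (fun _ => s) (Sum.elim u v)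

/-- a point of the join -/
def jp (s : ℝ) (a : ι → ℝ) (b : κ → ℝ) : Unit ⊕ (ι ⊕ κ) → ℝ := pt s (s • a) ((1 - s) • b)

/-- the join of two sets, in coordinates -/
def cjoin (K : Set (ι → ℝ)) (L : Set (κ → ℝ)) : Set (Unit ⊕ (ι ⊕ κ) → ℝ) :=
  {w | ∃ s ∈ Icc (0 : ℝ) 1, ∃ x ∈ K, ∃ y ∈ L, w = jp s x y}

theorem exists_pt (w : Unit ⊕ (ι ⊕ κ) → ℝ) : ∃ s u v, w = pt s u v :=
  ⟨w (Sum.inl ()), fun i => w (Sum.inr (Sum.inl i)), fun j => w (Sum.inr (Sum.inr j)), by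
    ext i; rcases i with ⟨⟩ | i | j <;> rfl⟩

theorem pt_inj {s s' : ℝ} {u u' : ι → ℝ} {v v' : κ → ℝ} (h : pt s u v = pt s' u' v') :
    s = s' ∧ u = u' ∧ v = v' :=
  ⟨congrFun h (Sum.inl ()), funext fun i => congrFun h (Sum.inr (Sum.inl i)),
    funext fun j => congrFun h (Sum.inr (Sum.inr j))⟩

theorem continuous_pt :
    Continuous fun p : ℝ × (ι → ℝ) × (κ → ℝ) => (pt p.1 p.2.1 p.2.2 : Unit ⊕ (ι ⊕ κ) → ℝ) := by
  refine continuous_pi fun i => ?_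
  rcases i with ⟨⟩ | i | j <;> simp [pt] <;> fun_prop

theorem isCompact_cjoin {K : Set (ι → ℝ)} {L : Set (κ → ℝ)} (hK : IsCompact K)
    (hL : IsCompact L) : IsCompact (cjoin K L) := by
  have e : cjoin K L = (fun p : ℝ × (ι → ℝ) × (κ → ℝ) => jp p.1 p.2.1 p.2.2) ''
      (Icc (0 : ℝ) 1 ×ˢ K ×ˢ L) := by
    ext w
    constructor
    · rintro ⟨s, hs, x, hx, y, hy, rfl⟩
      exact ⟨(s, x, y), ⟨hs, hx, hy⟩, rfl⟩
    · rintro ⟨⟨s, x, y⟩, ⟨hs, hx, hy⟩, rfl⟩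
      exact ⟨s, hs, x, hx, y, hy, rfl⟩
  rw [e]
  refine (isCompact_Icc.prod (hK.prod hL)).image ?_
  exact continuous_pt.comp (f := fun p : ℝ × (ι → ℝ) × (κ → ℝ) =>
    (p.1, p.1 • p.2.1, (1 - p.1) • p.2.2)) (by fun_prop)

theorem mem_cjoin {K : Set (ι → ℝ)} {L : Set (κ → ℝ)} {s : ℝ} (h0 : 0 < s) (h1 : s < 1)
    {u : ι → ℝ} {v : κ → ℝ} :
    pt s u v ∈ cjoin K L ↔ s⁻¹ • u ∈ K ∧ (1 - s)⁻¹ • v ∈ L := by
  have hs : 0 < 1 - s := by linarith
  constructor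
  · rintro ⟨s', -, x, hx, y, hy, h⟩
    obtain ⟨rfl, rfl, rfl⟩ := pt_inj h
    rw [inv_smul_smul₀ h0.ne', inv_smul_smul₀ hs.ne']
    exact ⟨hx, hy⟩
  · rintro ⟨hx, hy⟩
    refine ⟨s, ⟨h0.le, h1.le⟩, _, hx, _, hy, ?_⟩
    unfold jp
    rw [smul_inv_smul₀ h0.ne', smul_inv_smul₀ hs.ne']

theorem jp_mem {K : Set (ι → ℝ)} {L : Set (κ → ℝ)} {s : ℝ} (h0 : 0 ≤ s) (h1 : s ≤ 1)
    {x : ι → ℝ} {y : κ → ℝ} (hx : x ∈ K) (hy : y ∈ L) : jp s x y ∈ cjoin K L :=
  ⟨s, ⟨h0, h1⟩, x, hx, y, hy, rfl⟩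

/-- interior of the join -/
theorem interior_cjoin (K : Set (ι → ℝ)) (L : Set (κ → ℝ)) :
    interior (cjoin K L) =
      {w | ∃ s ∈ Ioo (0 : ℝ) 1, ∃ x ∈ interior K, ∃ y ∈ interior L, w = jp s x y} := by
  apply Subset.antisymm
  · intro w hw
    obtain ⟨s, u, v, rfl⟩ := exists_pt w
    -- continuous perturbations stay in the join
    have key : ∀ F : ℝ → (Unit ⊕ (ι ⊕ κ) → ℝ), ContinuousAt F 0 → F 0 = pt s u v →
        ∀ᶠ t in 𝓝 (0 : ℝ), F t ∈ cjoin K L := by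
      intro F hF h0
      have h1 : cjoin K L ∈ 𝓝 (F 0) := by
        rw [h0]; exact mem_interior_iff_mem_nhds.1 hw
      exact hF h1
    have hs : s ∈ Ioo (0 : ℝ) 1 := by
      have h1 := key (fun t => pt (s + t) u v) (by
        refine Continuous.continuousAt ?_
        exact continuous_pt.comp (f := fun t : ℝ => (s + t, u, v)) (by fun_prop)) (by simp)
      have h2 := (h1.and ((continuous_neg (G := ℝ)).tendsto' 0 0 neg_zero |>.eventually h1))
      obtain ⟨ε, hε, h3⟩ := Metric.eventually_nhds_iff.1 h2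
      have h4 := h3 (y := ε / 2) (by
        rw [dist_zero_right, Real.norm_eq_abs, abs_of_pos (by positivity)]; linarith)
      obtain ⟨⟨s1, hs1, _, _, _, _, e1⟩, ⟨s2, hs2, _, _, _, _, e2⟩⟩ := h4
      have e1' := (pt_inj e1).1
      have e2' := (pt_inj e2).1
      constructor
      · have := hs2.1; linarith
      · have := hs1.2; linarith
    have hs' : (0 : ℝ) < 1 - s := by linarith [hs.2]
    refine ⟨s, hs, s⁻¹ • u, ?_, (1 - s)⁻¹ • v, ?_, ?_⟩
    · rw [mem_interior_iff_mem_nhds]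
      have h1 : cjoin K L ∈ 𝓝 (pt s u v) := mem_interior_iff_mem_nhds.1 hw
      have hc : ContinuousAt (fun x : ι → ℝ => (pt s (s • x) v : Unit ⊕ (ι ⊕ κ) → ℝ))
          (s⁻¹ • u) := by
        refine Continuous.continuousAt ?_
        exact continuous_pt.comp (f := fun x : ι → ℝ => (s, s • x, v)) (by fun_prop)
      have h2 : cjoin K L ∈ 𝓝 ((fun x : ι → ℝ => (pt s (s • x) v : Unit ⊕ (ι ⊕ κ) → ℝ))
          (s⁻¹ • u)) := by
        simp only [smul_inv_smul₀ hs.1.ne']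
        exact h1
      filter_upwards [hc h2] with x hx
      have h3 := (mem_cjoin hs.1 hs.2).1 hx
      rw [inv_smul_smul₀ hs.1.ne'] at h3
      exact h3.1
    · rw [mem_interior_iff_mem_nhds]
      have h1 : cjoin K L ∈ 𝓝 (pt s u v) := mem_interior_iff_mem_nhds.1 hw
      have hc : ContinuousAt (fun x : κ → ℝ => (pt s u ((1 - s) • x) : Unit ⊕ (ι ⊕ κ) → ℝ))
          ((1 - s)⁻¹ • v) := by
        refine Continuous.continuousAt ?_
        exact continuous_pt.comp (f := fun x : κ → ℝ => (s, u, (1 - s) • x)) (by fun_prop)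
      have h2 : cjoin K L ∈ 𝓝 ((fun x : κ → ℝ => (pt s u ((1 - s) • x) : Unit ⊕ (ι ⊕ κ) → ℝ))
          ((1 - s)⁻¹ • v)) := by
        simp only [smul_inv_smul₀ hs'.ne']
        exact h1
      filter_upwards [hc h2] with x hx
      have h3 := (mem_cjoin hs.1 hs.2).1 hx
      rw [inv_smul_smul₀ hs'.ne'] at h3
      exact h3.2
    · unfold jp
      rw [smul_inv_smul₀ hs.1.ne', smul_inv_smul₀ hs'.ne']
  · rintro _ ⟨s, hs, x, hx, y, hy, rfl⟩
    have hs' : (0 : ℝ) < 1 - s := by linarith [hs.2]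
    rw [mem_interior_iff_mem_nhds]
    -- the coordinates are continuous
    have c1 : Continuous fun w : Unit ⊕ (ι ⊕ κ) → ℝ => w (Sum.inl ()) := by fun_prop
    have c2 : Continuous fun w : Unit ⊕ (ι ⊕ κ) → ℝ => fun i : ι => w (Sum.inr (Sum.inl i)) := by
      fun_prop
    have c3 : Continuous fun w : Unit ⊕ (ι ⊕ κ) → ℝ => fun i : κ => w (Sum.inr (Sum.inr i)) := by
      fun_prop
    have h0 : ∀ᶠ w : Unit ⊕ (ι ⊕ κ) → ℝ in 𝓝 (jp s x y), w (Sum.inl ()) ∈ Ioo (0 : ℝ) 1 :=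
      c1.continuousAt (isOpen_Ioo.mem_nhds hs)
    have h1 : ∀ᶠ w : Unit ⊕ (ι ⊕ κ) → ℝ in 𝓝 (jp s x y),
        (w (Sum.inl ()))⁻¹ • (fun i : ι => w (Sum.inr (Sum.inl i))) ∈ K := by
      have hc : ContinuousAt (fun w : Unit ⊕ (ι ⊕ κ) → ℝ =>
          (w (Sum.inl ()))⁻¹ • (fun i : ι => w (Sum.inr (Sum.inl i)))) (jp s x y) :=
        (c1.continuousAt.inv₀ hs.1.ne').smul c2.continuousAt
      have e : ((jp s x y : Unit ⊕ (ι ⊕ κ) → ℝ) (Sum.inl ()))⁻¹ •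
          (fun i : ι => (jp s x y : Unit ⊕ (ι ⊕ κ) → ℝ) (Sum.inr (Sum.inl i))) = x :=
        inv_smul_smul₀ hs.1.ne' x
      have g : K ∈ 𝓝 x := mem_interior_iff_mem_nhds.1 hx
      rw [← e] at g
      exact hc g
    have h2 : ∀ᶠ w : Unit ⊕ (ι ⊕ κ) → ℝ in 𝓝 (jp s x y),
        (1 - w (Sum.inl ()))⁻¹ • (fun i : κ => w (Sum.inr (Sum.inr i))) ∈ L := by
      have hc : ContinuousAt (fun w : Unit ⊕ (ι ⊕ κ) → ℝ =>
          (1 - w (Sum.inl ()))⁻¹ • (fun i : κ => w (Sum.inr (Sum.inr i)))) (jp s x y) :=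
        ((continuous_const.sub c1).continuousAt.inv₀ hs'.ne').smul c3.continuousAt
      have e : (1 - (jp s x y : Unit ⊕ (ι ⊕ κ) → ℝ) (Sum.inl ()))⁻¹ •
          (fun i : κ => (jp s x y : Unit ⊕ (ι ⊕ κ) → ℝ) (Sum.inr (Sum.inr i))) = y :=
        inv_smul_smul₀ hs'.ne' y
      have g : L ∈ 𝓝 y := mem_interior_iff_mem_nhds.1 hy
      rw [← e] at g
      exact hc g
    filter_upwards [h0, h1, h2] with w g0 g1 g2
    obtain ⟨s', u, v, rfl⟩ := exists_pt w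
    exact (mem_cjoin g0.1 g0.2).2 ⟨g1, g2⟩

/-- volume of the join -/
theorem volume_cjoin {K : Set (ι → ℝ)} {L : Set (κ → ℝ)} (hK : IsCompact K) (hL : IsCompact L) :
    volume (cjoin K L) = ENNReal.ofReal (((Fintype.card ι).factorial : ℝ) *
      (Fintype.card κ).factorial / (Fintype.card ι + Fintype.card κ + 1).factorial) *
      (volume K * volume L) := by
  set m := Fintype.card ι with hm
  set n := Fintype.card κ with hn
  have hmeas : MeasurableSet (cjoin K L) := (isCompact_cjoin hK hL).measurableSet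
  rw [← lintegral_indicator_one hmeas,
    lintegral_unit_sum (measurable_one.indicator hmeas)]
  have e1 : ∀ s : ℝ, ∫⁻ w' : ι ⊕ κ → ℝ, (cjoin K L).indicator (1 : (Unit ⊕ (ι ⊕ κ) → ℝ) → ℝ≥0∞)
      (Sum.elim (fun _ => s) w') = volume {w' : ι ⊕ κ → ℝ | Sum.elim (fun _ => s) w' ∈ cjoin K L} := by
    intro s
    have hc : Continuous fun w' : ι ⊕ κ → ℝ => (Sum.elim (fun _ => s) w' : Unit ⊕ (ι ⊕ κ) → ℝ) := by
      refine continuous_pi fun i => ?_
      cases i <;> simp <;> fun_prop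
    have hms : MeasurableSet {w' : ι ⊕ κ → ℝ | Sum.elim (fun _ => s) w' ∈ cjoin K L} :=
      hc.measurable hmeas
    rw [← lintegral_indicator_one hms]
    rfl
  simp_rw [e1]
  have e2 : ∀ s ∈ Ioo (0 : ℝ) 1, volume {w' : ι ⊕ κ → ℝ | Sum.elim (fun _ => s) w' ∈ cjoin K L} =
      ENNReal.ofReal (s ^ m * (1 - s) ^ n) * (volume K * volume L) := by
    intro s hs
    have hs' : (0 : ℝ) < 1 - s := by linarith [hs.2]
    have e3 : {w' : ι ⊕ κ → ℝ | Sum.elim (fun _ => s) w' ∈ cjoin K L} =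
        cprod (s • K) ((1 - s) • L) := by
      ext w'
      obtain ⟨u, v, rfl⟩ := exists_elim w'
      rw [mem_cprod, mem_smul_set_iff_inv_smul_mem₀ hs.1.ne',
        mem_smul_set_iff_inv_smul_mem₀ hs'.ne']
      exact mem_cjoin hs.1 hs.2
    rw [e3, volume_cprod (hK.smul s).measurableSet (hL.smul (1 - s)).measurableSet,
      Measure.addHaar_smul, Measure.addHaar_smul, Module.finrank_fintype_fun_eq_card,
      Module.finrank_fintype_fun_eq_card, abs_of_pos (pow_pos hs.1 _), abs_of_pos (pow_pos hs' _),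
      ENNReal.ofReal_mul (pow_nonneg hs.1.le _)]
    ring
  have e4 : ∀ s : ℝ, s ∉ Icc (0 : ℝ) 1 →
      volume {w' : ι ⊕ κ → ℝ | Sum.elim (fun _ => s) w' ∈ cjoin K L} = 0 := by
    intro s hs
    have : {w' : ι ⊕ κ → ℝ | Sum.elim (fun _ => s) w' ∈ cjoin K L} = ∅ := by
      ext w'
      simp only [mem_empty_iff_false, iff_false]
      rintro ⟨s', hs', x, -, y, -, h⟩
      exact hs (by rw [show s = s' from congrFun h (Sum.inl ())]; exact hs')
    rw [this, measure_empty]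
  have e5 : ∫⁻ s : ℝ, volume {w' : ι ⊕ κ → ℝ | Sum.elim (fun _ => s) w' ∈ cjoin K L} =
      ∫⁻ s in Ioo (0 : ℝ) 1, volume {w' : ι ⊕ κ → ℝ | Sum.elim (fun _ => s) w' ∈ cjoin K L} := by
    rw [← lintegral_indicator measurableSet_Ioo]
    refine lintegral_congr_ae ?_
    have h0 : ∀ᵐ t : ℝ, t ≠ 0 := by simp [ae_iff]
    have h1 : ∀ᵐ t : ℝ, t ≠ 1 := by simp [ae_iff]
    filter_upwards [h0, h1] with t g0 g1
    by_cases ht : t ∈ Ioo (0 : ℝ) 1
    · rw [indicator_of_mem ht]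
    · rw [indicator_of_notMem ht, e4]
      intro h
      exact ht ⟨lt_of_le_of_ne h.1 (Ne.symm g0), lt_of_le_of_ne h.2 g1⟩
  rw [e5, setLIntegral_congr_fun measurableSet_Ioo e2, lintegral_mul_const _ (by fun_prop),
    lintegral_beta]

end Vale.Agent.P248.H432
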