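import Vale.Agent.P248.H432.JoinEF
import Vale.Agent.P248.H432.DefsA

/-! P248: the volume product of a join, in coordinates. -/

set_option linter.unusedSectionVars false

open MeasureTheory Set
open scoped ENNReal Topology Pointwise

namespace Vale.Agent.P248.H432

/-- the value at a simplex -/
noncomputable def sv (n : ℕ) : ℝ := simplexVal n

theorem sv_pos (n : ℕ) : 0 < sv n := by
  unfold sv simplexVal
  positivity

/-- the constant of the join -/
noncomputable def jc (m n : ℕ) : ℝ := sv (m + n + 1) / (sv m * sv n)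

theorem jc_pos (m n : ℕ) : 0 < jc m n := div_pos (sv_pos _) (mul_pos (sv_pos _) (sv_pos _))

/-- the maximum of `s ^ p * (1 - s) ^ q` -/
theorem pow_mul_pow_le {p q : ℕ} (hp : 0 < p) (hq : 0 < q) {s : ℝ} (h0 : 0 < s) (h1 : s < 1) :
    s ^ p * (1 - s) ^ q ≤ (p : ℝ) ^ p * (q : ℝ) ^ q / ((p : ℝ) + q) ^ (p + q) := by
  have hs' : 0 < 1 - s := by linarith
  have hp' : (0 : ℝ) < p := by exact_mod_cast hp
  have hq' : (0 : ℝ) < q := by exact_mod_cast hq
  have hpq : (0 : ℝ) < (p : ℝ) + q := by positivity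
  have h := Real.geom_mean_le_arith_mean2_weighted (w₁ := p / ((p : ℝ) + q))
    (w₂ := q / ((p : ℝ) + q)) (p₁ := s / p) (p₂ := (1 - s) / q) (by positivity) (by positivity)
    (by positivity) (by positivity) (by field_simp)
  have e1 : (p : ℝ) / (p + q) * (s / p) + q / (p + q) * ((1 - s) / q) = 1 / (p + q) := by
    field_simp
    ring
  rw [e1] at h
  have h2 := pow_le_pow_left₀ (by positivity) h (p + q)
  have e2 : ((s / p) ^ ((p : ℝ) / (p + q)) * ((1 - s) / q) ^ ((q : ℝ) / (p + q))) ^ (p + q) =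
      (s / p) ^ p * ((1 - s) / q) ^ q := by
    rw [mul_pow, ← Real.rpow_natCast, ← Real.rpow_natCast, ← Real.rpow_mul (by positivity),
      ← Real.rpow_mul (by positivity)]
    have e3 : (p : ℝ) / (p + q) * ((p + q : ℕ) : ℝ) = p := by push_cast; field_simp
    have e4 : (q : ℝ) / (p + q) * ((p + q : ℕ) : ℝ) = q := by push_cast; field_simp
    rw [e3, e4, Real.rpow_natCast, Real.rpow_natCast]
  rw [e2, div_pow, div_pow, div_pow, one_pow, div_mul_div_comm, div_le_div_iff₀ (by positivity)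
    (by positivity), one_mul] at h2
  rw [le_div_iff₀ (by positivity)]
  linarith

variable {ι κ : Type*} [Fintype ι] [Fintype κ] [DecidableEq ι] [DecidableEq κ]

theorem ofReal_fact (n : ℕ) : ((n.factorial : ℕ) : ℝ≥0∞) = ENNReal.ofReal (n.factorial : ℝ) := by
  rw [ENNReal.ofReal_natCast]

theorem term_cjoin {K : Set (ι → ℝ)} {L : Set (κ → ℝ)} (hK : CB K) (hL : CB L)
    {s : ℝ} (h0 : 0 < s) (h1 : s < 1)
    {a : ι → ℝ} {b : κ → ℝ} (ha : a ∈ interior K) (hb : b ∈ interior L) :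
    volume (cjoin K L) * volume (polarP (cjoin K L) (jp s a b)) =
    ENNReal.ofReal ((((Fintype.card ι).factorial : ℝ) * (Fintype.card κ).factorial /
      (Fintype.card ι + Fintype.card κ + 1).factorial) ^ 2 /
        (s ^ (Fintype.card ι + 1) * (1 - s) ^ (Fintype.card κ + 1))) *
      ((volume K * volume (polarP K a)) * (volume L * volume (polarP L b))) := by
  set m := Fintype.card ι with hm
  set n := Fintype.card κ with hn
  have hs' : 0 < 1 - s := by linarith
  have ha' := interior_subset ha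
  have hb' := interior_subset hb
  have h := EF_cjoin hK.cpt hL.cpt h0 h1 ha' hb'
  rw [EF_eq (isCompact_cjoin hK.cpt hL.cpt) (jp_mem h0.le h1.le ha' hb'),
    EF_eq hK.cpt ha', EF_eq hL.cpt hb'] at h
  have hcard : Fintype.card (Unit ⊕ (ι ⊕ κ)) = m + n + 1 := by
    rw [Fintype.card_sum, Fintype.card_sum, Fintype.card_unit]
    ring
  rw [hcard, ← hm, ← hn, ofReal_fact, ofReal_fact, ofReal_fact] at h
  have hN : (0 : ℝ) < ((m + n + 1).factorial : ℝ) := by positivity
  have e1 : volume (polarP (cjoin K L) (jp s a b)) =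
      ENNReal.ofReal (1 / ((m + n + 1).factorial : ℝ)) *
        (ENNReal.ofReal (1 / (s ^ (m + 1) * (1 - s) ^ (n + 1))) *
          (ENNReal.ofReal (m.factorial : ℝ) * volume (polarP K a) *
            (ENNReal.ofReal (n.factorial : ℝ) * volume (polarP L b)))) := by
    rw [← h, ← mul_assoc, ← ENNReal.ofReal_mul (by positivity), one_div_mul_cancel hN.ne',
      ENNReal.ofReal_one, one_mul]
  rw [volume_cjoin hK.cpt hL.cpt, e1, ← hm, ← hn]
  have e2 : ENNReal.ofReal (((m.factorial : ℝ) * n.factorial /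
      (m + n + 1).factorial) ^ 2 / (s ^ (m + 1) * (1 - s) ^ (n + 1))) =
      ENNReal.ofReal ((m.factorial : ℝ) * n.factorial / (m + n + 1).factorial) *
      ENNReal.ofReal (1 / ((m + n + 1).factorial : ℝ)) *
      ENNReal.ofReal (1 / (s ^ (m + 1) * (1 - s) ^ (n + 1))) *
      ENNReal.ofReal (m.factorial : ℝ) * ENNReal.ofReal (n.factorial : ℝ) := by
    rw [← ENNReal.ofReal_mul (by positivity), ← ENNReal.ofReal_mul (by positivity),
      ← ENNReal.ofReal_mul (by positivity), ← ENNReal.ofReal_mul (by positivity)]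
    congr 1
    field_simp
  rw [e2]
  ring

theorem CB.cjoin {K : Set (ι → ℝ)} {L : Set (κ → ℝ)} (hK : CB K) (hL : CB L)
    (hc : Convex ℝ (cjoin K L)) : CB (H432.cjoin K L) where
  cpt := isCompact_cjoin hK.cpt hL.cpt
  cvx := hc
  ne := by
    rw [interior_cjoin]
    obtain ⟨a, ha⟩ := hK.ne
    obtain ⟨b, hb⟩ := hL.ne
    exact ⟨_, 1 / 2, ⟨by norm_num, by norm_num⟩, a, ha, b, hb, rfl⟩

theorem jc_eq (m n : ℕ) : jc m n = ((m.factorial : ℝ) * n.factorial /
    (m + n + 1).factorial) ^ 2 / ((((m + 1 : ℕ) : ℝ) ^ (m + 1) * ((n + 1 : ℕ) : ℝ) ^ (n + 1)) /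
      (((m + 1 : ℕ) : ℝ) + ((n + 1 : ℕ) : ℝ)) ^ (m + 1 + (n + 1))) := by
  unfold jc sv simplexVal
  have e : (((m + n + 1 : ℕ) : ℝ) + 1) = ((m + 1 : ℕ) : ℝ) + ((n + 1 : ℕ) : ℝ) := by
    push_cast; ring
  have e2 : m + n + 1 + 1 = m + 1 + (n + 1) := by ring
  rw [e, e2]
  push_cast
  field_simp

/-- **The volume product of a join.** -/
theorem vp_cjoin {K : Set (ι → ℝ)} {L : Set (κ → ℝ)} (hK : CB K) (hL : CB L) :
    vp (cjoin K L) = ENNReal.ofReal (jc (Fintype.card ι) (Fintype.card κ)) * (vp K * vp L) := by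
  set m := Fintype.card ι with hm
  set n := Fintype.card κ with hn
  have hc0 : ENNReal.ofReal (jc m n) ≠ 0 := by
    rw [Ne, ENNReal.ofReal_eq_zero, not_le]
    exact jc_pos m n
  have hct : ENNReal.ofReal (jc m n) ≠ ∞ := ENNReal.ofReal_ne_top
  have hc1 : (0 : ℝ) ≤ ((m.factorial : ℝ) * n.factorial / (m + n + 1).factorial) ^ 2 := by
    positivity
  apply le_antisymm
  · set s : ℝ := ((m + 1 : ℕ) : ℝ) / (((m + 1 : ℕ) : ℝ) + ((n + 1 : ℕ) : ℝ)) with hsdef
    have hD : (0 : ℝ) < ((m + 1 : ℕ) : ℝ) + ((n + 1 : ℕ) : ℝ) := by positivity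
    have h0 : 0 < s := by positivity
    have h1' : 1 - s = ((n + 1 : ℕ) : ℝ) / (((m + 1 : ℕ) : ℝ) + ((n + 1 : ℕ) : ℝ)) := by
      rw [hsdef]
      field_simp
      ring
    have h1 : s < 1 := by
      have : 0 < 1 - s := by rw [h1']; positivity
      linarith
    have hval : s ^ (m + 1) * (1 - s) ^ (n + 1) =
        (((m + 1 : ℕ) : ℝ) ^ (m + 1) * ((n + 1 : ℕ) : ℝ) ^ (n + 1)) /
          (((m + 1 : ℕ) : ℝ) + ((n + 1 : ℕ) : ℝ)) ^ (m + 1 + (n + 1)) := by
      rw [h1', hsdef, div_pow, div_pow, div_mul_div_comm, ← pow_add]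
    rw [mul_comm (ENNReal.ofReal _) (vp K * vp L), ← ENNReal.div_le_iff hc0 hct]
    refine le_iInf_mul_iInf hK.ne hL.ne (fun a ha => hK.term_ne ha)
      (fun b hb => (hL.term_ne hb).2) fun a ha b hb => ?_
    rw [ENNReal.div_le_iff hc0 hct, mul_comm (_ * _ : ℝ≥0∞) (ENNReal.ofReal _), jc_eq, ← hval,
      ← term_cjoin hK hL h0 h1 ha hb]
    refine iInf₂_le _ ?_
    rw [interior_cjoin]
    exact ⟨s, ⟨h0, h1⟩, a, ha, b, hb, rfl⟩
  · refine le_iInf₂ fun w hw => ?_
    rw [interior_cjoin] at hw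
    obtain ⟨s, ⟨h0, h1⟩, a, ha, b, hb, rfl⟩ := hw
    rw [term_cjoin hK hL h0 h1 ha hb]
    have hs' : 0 < 1 - s := by linarith
    refine mul_le_mul' ?_ (mul_le_mul' (iInf₂_le _ ha) (iInf₂_le _ hb))
    apply ENNReal.ofReal_le_ofReal
    rw [jc_eq]
    exact div_le_div_of_nonneg_left hc1 (by positivity)
      (pow_mul_pow_le (Nat.succ_pos m) (Nat.succ_pos n) h0 h1)

end Vale.Agent.P248.H432
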