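import Vale.Agent.P248.H432.Prod

/-! P248: the Laplace formula with a weight; the polar of a body with centroid at the origin. -/

set_option linter.unusedSectionVars false

open MeasureTheory Set
open scoped ENNReal Topology Pointwise

namespace Vale.Agent.P248.H432

variable {ι : Type*} [Fintype ι] [DecidableEq ι]

theorem lintegral_scale {G : (ι → ℝ) → ℝ≥0∞} (hG : Measurable G) {t : ℝ} (ht : 0 < t) :
    ∫⁻ x, G x = ENNReal.ofReal (t ^ Fintype.card ι) * ∫⁻ x, G (t • x) := by
  have h1 : ∫⁻ x, G (t • x) = ∫⁻ x, G x ∂(Measure.map (fun x : ι → ℝ => t • x) volume) := by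
    rw [lintegral_map hG (measurable_const_smul t)]
  have h2 := Measure.map_addHaar_smul (volume : Measure (ι → ℝ)) ht.ne'
  rw [h1, h2, lintegral_smul_measure, smul_eq_mul, ← mul_assoc, Module.finrank_fintype_fun_eq_card,
    ← ENNReal.ofReal_mul (by positivity), abs_of_pos (inv_pos.2 (pow_pos ht _)),
    mul_inv_cancel₀ (pow_pos ht _).ne', ENNReal.ofReal_one, one_mul]

/-- Laplace formula with a weight homogeneous of degree one -/
theorem laplace_weight {g : (ι → ℝ) → ℝ} (hgm : Measurable g) (hg0 : ∀ x, 0 ≤ g x)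
    (hgs : ∀ r : ℝ, 0 < r → ∀ x, g (r • x) = r * g x)
    {ψ : (ι → ℝ) → ℝ≥0∞} (hψ : Measurable ψ)
    (hψs : ∀ r : ℝ, 0 < r → ∀ x, ψ (r • x) = ENNReal.ofReal r * ψ x) :
    ∫⁻ x, ENNReal.ofReal (Real.exp (-(g x))) * ψ x =
      (Fintype.card ι + 1).factorial * ∫⁻ x in {x | g x ≤ 1}, ψ x := by
  set n := Fintype.card ι with hn
  have h1 : ∀ x, ENNReal.ofReal (Real.exp (-(g x))) * ψ x =
      ∫⁻ t, {p : (ι → ℝ) × ℝ | g p.1 ≤ p.2}.indicator
        (fun p => ENNReal.ofReal (Real.exp (-p.2)) * ψ p.1) (x, t) := by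
    intro x
    rw [← lintegral_exp_Ici, ← lintegral_indicator measurableSet_Ici,
      ← lintegral_mul_const _ (Measurable.indicator (by fun_prop) measurableSet_Ici)]
    refine lintegral_congr fun t => ?_
    by_cases h : g x ≤ t
    · simp only [mem_Ici, h, indicator_of_mem, mem_ofPred_eq]
    · simp only [mem_Ici, h, not_false_eq_true, indicator_of_notMem, mem_ofPred_eq, zero_mul]
  have hmeas : Measurable ({p : (ι → ℝ) × ℝ | g p.1 ≤ p.2}.indicator
      (fun p => ENNReal.ofReal (Real.exp (-p.2)) * ψ p.1)) := by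
    refine Measurable.indicator (by fun_prop) ?_
    exact measurableSet_le (hgm.comp measurable_fst) measurable_snd
  simp_rw [h1]
  rw [lintegral_lintegral_swap (f := fun (x : ι → ℝ) (t : ℝ) =>
    {p : (ι → ℝ) × ℝ | g p.1 ≤ p.2}.indicator
        (fun p => ENNReal.ofReal (Real.exp (-p.2)) * ψ p.1) (x, t)) hmeas.aemeasurable]
  have hms : ∀ t : ℝ, MeasurableSet {x | g x ≤ t} := fun t => measurableSet_le hgm measurable_const
  have h2 : ∀ t : ℝ, ∫⁻ x, {p : (ι → ℝ) × ℝ | g p.1 ≤ p.2}.indicator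
        (fun p => ENNReal.ofReal (Real.exp (-p.2)) * ψ p.1) (x, t) =
      ENNReal.ofReal (Real.exp (-t)) * ∫⁻ x in {x | g x ≤ t}, ψ x := by
    intro t
    have : (fun x => {p : (ι → ℝ) × ℝ | g p.1 ≤ p.2}.indicator
        (fun p => ENNReal.ofReal (Real.exp (-p.2)) * ψ p.1) (x, t)) =
        {x | g x ≤ t}.indicator (fun x => ENNReal.ofReal (Real.exp (-t)) * ψ x) := by
      ext x
      by_cases h : g x ≤ t <;> simp [h]
    rw [this, lintegral_indicator (hms t), lintegral_const_mul _ hψ]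
  simp_rw [h2]
  have h3 : ∀ t : ℝ, 0 < t → ∫⁻ x in {x | g x ≤ t}, ψ x =
      ENNReal.ofReal (t ^ (n + 1)) * ∫⁻ x in {x | g x ≤ 1}, ψ x := by
    intro t ht
    rw [← lintegral_indicator (hms t), lintegral_scale (hψ.indicator (hms t)) ht,
      ← lintegral_indicator (hms 1)]
    have e : ∀ x, {x | g x ≤ t}.indicator ψ (t • x) =
        ENNReal.ofReal t * {x | g x ≤ 1}.indicator ψ x := by
      intro x
      by_cases h : g x ≤ 1
      · rw [indicator_of_mem (show x ∈ {x | g x ≤ 1} from h), indicator_of_mem, hψs t ht]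
        show g (t • x) ≤ t
        rw [hgs t ht]
        nlinarith
      · rw [indicator_of_notMem (show x ∉ {x | g x ≤ 1} from h), indicator_of_notMem, mul_zero]
        show ¬ g (t • x) ≤ t
        rw [hgs t ht]
        intro h'
        exact h (le_of_mul_le_mul_left (by linarith) ht)
    simp_rw [e]
    rw [lintegral_const_mul _ (hψ.indicator (hms 1)), ← mul_assoc,
      ← ENNReal.ofReal_mul (by positivity), ← pow_succ]
  have h4 : ∀ t : ℝ, t < 0 → ∫⁻ x in {x | g x ≤ t}, ψ x = 0 := by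
    intro t ht
    have : {x | g x ≤ t} = ∅ := by
      ext x
      simp only [mem_ofPred_eq, mem_empty_iff_false, iff_false, not_le]
      exact lt_of_lt_of_le ht (hg0 x)
    rw [this]; simp
  have h5 : ∫⁻ t, ENNReal.ofReal (Real.exp (-t)) * ∫⁻ x in {x | g x ≤ t}, ψ x =
      ∫⁻ t in Ioi (0 : ℝ), ENNReal.ofReal (Real.exp (-t)) * ∫⁻ x in {x | g x ≤ t}, ψ x := by
    rw [← lintegral_indicator measurableSet_Ioi]
    refine lintegral_congr_ae ?_
    have h0 : ∀ᵐ t : ℝ, t ≠ 0 := by
      simp [ae_iff]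
    filter_upwards [h0] with t ht
    rcases lt_or_gt_of_ne ht with h | h
    · rw [h4 t h, indicator_of_notMem (by simpa only [mem_Ioi, not_lt] using h.le), mul_zero]
    · rw [indicator_of_mem (by simpa only [mem_Ioi] using h)]
  rw [h5, setLIntegral_congr_fun measurableSet_Ioi (g := fun t =>
    ENNReal.ofReal (Real.exp (-t) * t ^ (n + 1)) * ∫⁻ x in {x | g x ≤ 1}, ψ x)]
  · rw [lintegral_mul_const _ (by fun_prop), lintegral_gamma]
  · intro t ht
    simp only
    rw [h3 t ht, ← mul_assoc, ← ENNReal.ofReal_mul (by positivity)]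

/-- The bipolar theorem in coordinates. -/
theorem bipolar {K : Set (ι → ℝ)} (hK : IsClosed K) (hc : Convex ℝ K) (h0 : (0 : ι → ℝ) ∈ K) :
    polarP (polarP K 0) 0 = K := by
  apply Subset.antisymm
  · intro x hx
    by_contra hxK
    obtain ⟨f, u, hf, hu⟩ := geometric_hahn_banach_closed_point hc hK hxK
    have hu0 : 0 < u := by
      have := hf 0 h0
      rwa [map_zero] at this
    have hfe : ∀ z : ι → ℝ, f z = ∑ i, z i * f (Pi.single i 1) := by
      intro z
      conv_lhs => rw [← Finset.univ_sum_single z]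
      rw [map_sum]
      refine Finset.sum_congr rfl fun i _ => ?_
      have : (Pi.single i (z i) : ι → ℝ) = z i • Pi.single i (1 : ℝ) := by
        rw [← Pi.single_smul, smul_eq_mul, mul_one]
      rw [this, map_smul, smul_eq_mul]
    have hy : (fun i => u⁻¹ * f (Pi.single i 1)) ∈ polarP K 0 := by
      intro a ha
      have h1 := (hf a ha).le
      rw [hfe] at h1
      have e : ∑ i, (a i - (0 : ι → ℝ) i) * (u⁻¹ * f (Pi.single i 1)) =
          u⁻¹ * ∑ i, a i * f (Pi.single i 1) := by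
        rw [Finset.mul_sum]
        exact Finset.sum_congr rfl fun i _ => by rw [Pi.zero_apply]; ring
      rw [e, inv_mul_le_iff₀ hu0, mul_one]
      exact h1
    have h2 := hx _ hy
    rw [hfe] at hu
    have e : ∑ i, (u⁻¹ * f (Pi.single i 1) - (0 : ι → ℝ) i) * x i =
        u⁻¹ * ∑ i, x i * f (Pi.single i 1) := by
      rw [Finset.mul_sum]
      exact Finset.sum_congr rfl fun i _ => by rw [Pi.zero_apply]; ring
    rw [e, inv_mul_le_iff₀ hu0, mul_one] at h2
    linarith
  · intro x hx y hy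
    have h1 := hy x hx
    refine le_trans (le_of_eq ?_) h1
    exact Finset.sum_congr rfl fun i _ => by rw [Pi.zero_apply]; ring

theorem CB.polar {K : Set (ι → ℝ)} (hK : CB K) {z : ι → ℝ} (hz : z ∈ interior K) :
    CB (polarP K z) where
  cpt := Metric.isCompact_of_isClosed_isBounded (polarP_isClosed K z) (polarP_isBounded hz)
  cvx := polarP_convex K z
  ne := ⟨0, mem_interior_iff_mem_nhds.2 (polarP_mem_nhds hK.cpt.isBounded z)⟩

/-- If the centroid of `K` is the origin, then the origin is the Santaló point of the polar. -/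
theorem polar_santalo {K : Set (ι → ℝ)} (hK : CB K) (h0 : (0 : ι → ℝ) ∈ interior K)
    (hg : ∀ w : ι → ℝ, ∫⁻ x in K, ENNReal.ofReal (∑ i, w i * x i) =
      ∫⁻ x in K, ENNReal.ofReal (-∑ i, w i * x i))
    {w : ι → ℝ} (hw : w ∈ polarP K 0) : volume K ≤ volume (polarP (polarP K 0) w) := by
  have hL := hK.polar h0
  have hLn : (polarP K 0).Nonempty := ⟨w, hw⟩
  have h0L : (0 : ι → ℝ) ∈ polarP K 0 := interior_subset
    (mem_interior_iff_mem_nhds.2 (polarP_mem_nhds hK.cpt.isBounded 0))
  have hbi := bipolar hK.cpt.isClosed hK.cvx (interior_subset h0)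
  have hgc := hs_continuous hL.cpt hLn 0
  have hKe : {x | hs (polarP K 0) 0 x ≤ 1} = K := by
    rw [← polarP_eq hL.cpt hLn, hbi]
  have e0 := EF_eq hL.cpt h0L
  rw [hbi] at e0
  have e1 := EF_eq hL.cpt hw
  suffices h : EF (polarP K 0) 0 ≤ EF (polarP K 0) w by
    rw [e0, e1] at h
    exact (ENNReal.mul_le_mul_iff_right (by exact_mod_cast (Nat.factorial_pos _).ne')
      (ENNReal.natCast_ne_top _)).1 h
  set φ : (ι → ℝ) → ℝ := fun x => ∑ i, w i * x i with hφ
  have hφc : Continuous φ := by rw [hφ]; fun_prop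
  have hφs : ∀ r : ℝ, ∀ x, φ (r • x) = r * φ x := by
    intro r x
    rw [hφ]
    simp only [Pi.smul_apply, smul_eq_mul]
    rw [Finset.mul_sum]
    exact Finset.sum_congr rfl fun i _ => by ring
  have p1 := laplace_weight hgc.measurable (hs_nonneg hL.cpt h0L)
    (fun r hr x => hs_smul hL.cpt hLn 0 x hr.le) (ψ := fun x => ENNReal.ofReal (φ x))
    (by fun_prop) (fun r hr x => by rw [hφs, ENNReal.ofReal_mul hr.le])
  have p2 := laplace_weight hgc.measurable (hs_nonneg hL.cpt h0L)
    (fun r hr x => hs_smul hL.cpt hLn 0 x hr.le) (ψ := fun x => ENNReal.ofReal (-φ x))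
    (by fun_prop) (fun r hr x => by
      rw [hφs, show -(r * φ x) = r * -φ x by ring, ENNReal.ofReal_mul hr.le])
  rw [hKe] at p1 p2
  have p3 : ∫⁻ x, ENNReal.ofReal (Real.exp (-(hs (polarP K 0) 0 x))) * ENNReal.ofReal (φ x) =
      ∫⁻ x, ENNReal.ofReal (Real.exp (-(hs (polarP K 0) 0 x))) * ENNReal.ofReal (-φ x) := by
    rw [p1, p2, hg w]
  have hfin : ∫⁻ x, ENNReal.ofReal (Real.exp (-(hs (polarP K 0) 0 x))) *
      ENNReal.ofReal (-φ x) ≠ ∞ := by
    rw [p2]
    refine ENNReal.mul_ne_top (ENNReal.natCast_ne_top _) ?_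
    obtain ⟨C, hC⟩ := (hK.cpt.image hφc.neg).isBounded.bddAbove
    refine ne_top_of_le_ne_top (ENNReal.mul_ne_top (ENNReal.ofReal_ne_top (r := C))
      hK.vol_ne_top) ?_
    rw [← setLIntegral_const]
    refine setLIntegral_mono measurable_const fun x hx => ?_
    exact ENNReal.ofReal_le_ofReal (hC ⟨x, hx, rfl⟩)
  have p4 : EF (polarP K 0) 0 +
      ∫⁻ x, ENNReal.ofReal (Real.exp (-(hs (polarP K 0) 0 x))) * ENNReal.ofReal (φ x) ≤
      EF (polarP K 0) w +
      ∫⁻ x, ENNReal.ofReal (Real.exp (-(hs (polarP K 0) 0 x))) * ENNReal.ofReal (-φ x) := by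
    unfold EF
    rw [← lintegral_add_left (by fun_prop), ← lintegral_add_left
      (by have := hs_continuous hL.cpt hLn w; fun_prop)]
    refine lintegral_mono fun x => ?_
    have e2 : hs (polarP K 0) w x = hs (polarP K 0) 0 x - φ x := by
      rw [hs_shift hL.cpt hLn w 0 x]
      have : ∑ i, ((0 : ι → ℝ) i - w i) * x i = -φ x := by
        rw [hφ]
        simp only [Pi.zero_apply, zero_sub, neg_mul, Finset.sum_neg_distrib]
      rw [this]
      ring
    set E := Real.exp (-(hs (polarP K 0) 0 x)) with hE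
    have hE0 : 0 < E := Real.exp_pos _
    have e3 : Real.exp (-(hs (polarP K 0) w x)) = E * Real.exp (φ x) := by
      rw [e2, hE, ← Real.exp_add]
      congr 1
      ring
    simp only
    rw [e3, ← ENNReal.ofReal_mul hE0.le, ← ENNReal.ofReal_mul hE0.le]
    have h5 := Real.add_one_le_exp (φ x)
    rcases le_total 0 (φ x) with h6 | h6
    · have e4 : E * -φ x ≤ 0 := by nlinarith
      rw [ENNReal.ofReal_of_nonpos e4, add_zero, ← ENNReal.ofReal_add hE0.le (by positivity)]
      exact ENNReal.ofReal_le_ofReal (by nlinarith)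
    · have e4 : E * φ x ≤ 0 := by nlinarith
      rw [ENNReal.ofReal_of_nonpos e4, add_zero, ← ENNReal.ofReal_add (by positivity)
        (by nlinarith)]
      exact ENNReal.ofReal_le_ofReal (by nlinarith)
  rw [p3] at p4
  exact (ENNReal.add_le_add_iff_right hfin).1 p4

/-- the volume product does not decrease under polarity at the centroid -/
theorem vp_polar {K : Set (ι → ℝ)} (hK : CB K) (h0 : (0 : ι → ℝ) ∈ interior K)
    (hg : ∀ w : ι → ℝ, ∫⁻ x in K, ENNReal.ofReal (∑ i, w i * x i) =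
      ∫⁻ x in K, ENNReal.ofReal (-∑ i, w i * x i)) :
    vp (polarP K 0) = volume K * volume (polarP K 0) := by
  apply le_antisymm
  · refine (iInf₂_le 0 (mem_interior_iff_mem_nhds.2
      (polarP_mem_nhds hK.cpt.isBounded 0))).trans ?_
    rw [bipolar hK.cpt.isClosed hK.cvx (interior_subset h0), mul_comm]
  · refine le_iInf₂ fun w hw => ?_
    rw [mul_comm]
    exact mul_le_mul' le_rfl (polar_santalo hK h0 hg (interior_subset hw))

end Vale.Agent.P248.H432
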