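import Vale.Agent.P248.H432.Transfer

/-! P248: the laws for the volume product of joins and products. -/

set_option linter.unusedSectionVars false

open MeasureTheory Set
open scoped ENNReal Topology Pointwise

namespace Vale.Agent.P248.H432

theorem simplexVal_pos (n : ℕ) : 0 < simplexVal n := sv_pos n

theorem ofReal_sv_ne_zero (n : ℕ) : ENNReal.ofReal (simplexVal n) ≠ 0 := by
  rw [Ne, ENNReal.ofReal_eq_zero, not_le]
  exact simplexVal_pos n

theorem volumeProduct_ne_top {n : ℕ} {K : Set (E n)} (hK : IsConvexBody K) :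
    volumeProduct K ≠ ∞ := by
  rw [volumeProduct_eq_vp K 0 (sb n)]
  exact (CB_frame hK 0 (sb n)).vp_ne_top

theorem mahlerRatio_ne_top {n : ℕ} {K : Set (E n)} (hK : IsConvexBody K) :
    mahlerRatio K ≠ ∞ :=
  ENNReal.div_ne_top (volumeProduct_ne_top hK) (ofReal_sv_ne_zero n)

theorem volumeProduct_eq_ratio {n : ℕ} (K : Set (E n)) :
    volumeProduct K = mahlerRatio K * ENNReal.ofReal (simplexVal n) :=
  (ENNReal.div_mul_cancel (ofReal_sv_ne_zero n) ENNReal.ofReal_ne_top).symm

theorem one_le_ratio_iff {n : ℕ} {K : Set (E n)} :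
    1 ≤ mahlerRatio K ↔ ENNReal.ofReal (simplexVal n) ≤ volumeProduct K := by
  unfold mahlerRatio
  rw [ENNReal.le_div_iff_mul_le (Or.inl (ofReal_sv_ne_zero n)) (Or.inl ENNReal.ofReal_ne_top),
    one_mul]

theorem ratio_eq_one_iff {n : ℕ} {K : Set (E n)} :
    mahlerRatio K = 1 ↔ volumeProduct K = ENNReal.ofReal (simplexVal n) := by
  unfold mahlerRatio
  rw [ENNReal.div_eq_one_iff (ofReal_sv_ne_zero n) ENNReal.ofReal_ne_top]

section join

variable {m n N : ℕ} {K : Set (E m)} {L : Set (E n)} {M : Set (E N)}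

theorem IsJoin.body (hK : IsConvexBody K) (hL : IsConvexBody L) (h : IsJoin K L M) :
    IsConvexBody M := by
  obtain ⟨hN, f, g, ht, rfl⟩ := h
  have e := preimage_join hK hL f g ht hN
  have hc : Convex ℝ (cjoin (frame 0 (sb m) ⁻¹' K) (frame 0 (sb n) ⁻¹' L)) := by
    have h1 := frame_preimage_convex (g 0) ((jbas f g ht hN).reindex (jix hN))
      (convex_convexHull ℝ (f '' K ∪ g '' L))
    rw [e] at h1
    intro x hx y hy s t hs ht hst
    obtain ⟨x', rfl⟩ := (rh (jix hN)).surjective x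
    obtain ⟨y', rfl⟩ := (rh (jix hN)).surjective y
    exact h1 hx hy hs ht hst
  have h2 : CB (cjoin (frame 0 (sb m) ⁻¹' K) (frame 0 (sb n) ⁻¹' L)) :=
    (CB_frame hK 0 (sb m)).cjoin (CB_frame hL 0 (sb n)) hc
  refine body_of_CB (p := g 0) (b := (jbas f g ht hN).reindex (jix hN)) ?_
  rw [e]
  exact h2.rh (jix hN)

/-- **The volume product of a join.** -/
theorem IsJoin.volumeProduct_eq (hK : IsConvexBody K) (hL : IsConvexBody L)
    (h : IsJoin K L M) :
    volumeProduct M = ENNReal.ofReal (jc m n) * (volumeProduct K * volumeProduct L) := by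
  obtain ⟨hN, f, g, ht, rfl⟩ := h
  rw [volumeProduct_eq_vp _ (g 0) ((jbas f g ht hN).reindex (jix hN)),
    preimage_join hK hL f g ht hN, vp_rh, vp_cjoin (CB_frame hK 0 (sb m)) (CB_frame hL 0 (sb n)),
    volumeProduct_eq_vp K 0 (sb m), volumeProduct_eq_vp L 0 (sb n), Fintype.card_fin,
    Fintype.card_fin]

/-- The Mahler ratio is multiplicative under joins. -/
theorem IsJoin.ratio_eq (hK : IsConvexBody K) (hL : IsConvexBody L) (h : IsJoin K L M) :
    mahlerRatio M = mahlerRatio K * mahlerRatio L := by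
  have hN : m + n + 1 = N := h.1
  have h1 := h.volumeProduct_eq hK hL
  rw [volumeProduct_eq_ratio K, volumeProduct_eq_ratio L] at h1
  unfold mahlerRatio at *
  rw [h1]
  have e : ENNReal.ofReal (jc m n) * (ENNReal.ofReal (simplexVal m) *
      ENNReal.ofReal (simplexVal n)) = ENNReal.ofReal (simplexVal N) := by
    rw [← ENNReal.ofReal_mul (simplexVal_pos m).le, ← ENNReal.ofReal_mul (jc_pos m n).le]
    congr 1
    unfold jc sv
    rw [hN, div_mul_cancel₀]
    exact mul_ne_zero (simplexVal_pos m).ne' (simplexVal_pos n).ne'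
  rw [← e, ENNReal.div_eq_inv_mul]
  rw [e]
  have h3 : ENNReal.ofReal (jc m n) *
      (volumeProduct K / ENNReal.ofReal (simplexVal m) * ENNReal.ofReal (simplexVal m) *
      (volumeProduct L / ENNReal.ofReal (simplexVal n) * ENNReal.ofReal (simplexVal n))) =
      ENNReal.ofReal (simplexVal N) * (volumeProduct K / ENNReal.ofReal (simplexVal m) *
        (volumeProduct L / ENNReal.ofReal (simplexVal n))) := by
    rw [← e]; ring
  rw [h3, ← mul_assoc, ENNReal.inv_mul_cancel (ofReal_sv_ne_zero N) ENNReal.ofReal_ne_top,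
    one_mul]

end join

section prod

variable {m n N : ℕ} {K : Set (E m)} {L : Set (E n)} {M : Set (E N)}

/-- the family adapted to a product -/
noncomputable def pfam (f : E m →ₗ[ℝ] E N) (g : E n →ₗ[ℝ] E N) : Fin m ⊕ Fin n → E N :=
  Sum.elim (fun i => f (sb m i)) (fun j => g (sb n j))

theorem top_le_span_pfam {f : E m →ₗ[ℝ] E N} {g : E n →ₗ[ℝ] E N}
    (h : LinearMap.range f ⊔ LinearMap.range g = ⊤) :
    ⊤ ≤ Submodule.span ℝ (range (pfam f g)) := by
  rw [← h]
  refine sup_le ?_ ?_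
  · rintro _ ⟨x, rfl⟩
    rw [← (sb m).sum_repr x, map_sum]
    refine Submodule.sum_mem _ fun i _ => ?_
    rw [map_smul]
    exact Submodule.smul_mem _ _ (Submodule.subset_span ⟨Sum.inl i, rfl⟩)
  · rintro _ ⟨x, rfl⟩
    rw [← (sb n).sum_repr x, map_sum]
    refine Submodule.sum_mem _ fun i _ => ?_
    rw [map_smul]
    exact Submodule.smul_mem _ _ (Submodule.subset_span ⟨Sum.inr i, rfl⟩)

/-- the basis adapted to a product -/
noncomputable def pbas (f : E m →ₗ[ℝ] E N) (g : E n →ₗ[ℝ] E N)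
    (h : LinearMap.range f ⊔ LinearMap.range g = ⊤) (hN : m + n = N) :
    Module.Basis (Fin m ⊕ Fin n) ℝ (E N) :=
  basisOfTopLeSpanOfCardEqFinrank (pfam f g) (top_le_span_pfam h) (by
    rw [finrank_euclideanSpace, Fintype.card_fin, Fintype.card_sum, Fintype.card_fin,
      Fintype.card_fin]
    omega)

/-- index bijection -/
noncomputable def pix (hN : m + n = N) : Fin m ⊕ Fin n ≃ Fin N :=
  Fintype.equivOfCardEq (by
    rw [Fintype.card_fin, Fintype.card_sum, Fintype.card_fin, Fintype.card_fin]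
    omega)

theorem frame_prod (p : E N) (f : E m →ₗ[ℝ] E N) (g : E n →ₗ[ℝ] E N)
    (h : LinearMap.range f ⊔ LinearMap.range g = ⊤) (hN : m + n = N) (w : Fin N → ℝ)
    {x : Fin m → ℝ} {y : Fin n → ℝ} (hw : rh (pix hN) w = Sum.elim x y) :
    frame p ((pbas f g h hN).reindex (pix hN)) w =
      p + f (frame 0 (sb m) x) + g (frame 0 (sb n) y) := by
  have e1 : ((pbas f g h hN).reindex (pix hN)).equivFun.symm w =
      ∑ i, (rh (pix hN) w) i • pfam f g i := by
    rw [Module.Basis.equivFun_symm_apply, ← (pix hN).sum_comp]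
    refine Finset.sum_congr rfl fun i _ => ?_
    rw [Module.Basis.reindex_apply, Equiv.symm_apply_apply]
    unfold pbas
    rw [coe_basisOfTopLeSpanOfCardEqFinrank]
    rfl
  have ex : frame 0 (sb m) x = ∑ i, x i • sb m i := by
    unfold frame
    rw [zero_add, Module.Basis.equivFun_symm_apply]
  have ey : frame 0 (sb n) y = ∑ i, y i • sb n i := by
    unfold frame
    rw [zero_add, Module.Basis.equivFun_symm_apply]
  have ef : f (frame 0 (sb m) x) = ∑ i, x i • f (sb m i) := by
    rw [ex, map_sum]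
    simp_rw [map_smul]
  have eg : g (frame 0 (sb n) y) = ∑ i, y i • g (sb n i) := by
    rw [ey, map_sum]
    simp_rw [map_smul]
  unfold frame at *
  rw [e1, hw, ef, eg, Fintype.sum_sum_type]
  simp only [pfam, Sum.elim_inl, Sum.elim_inr]
  abel

theorem preimage_prod (K : Set (E m)) (L : Set (E n)) (p : E N)
    (f : E m →ₗ[ℝ] E N) (g : E n →ₗ[ℝ] E N)
    (h : LinearMap.range f ⊔ LinearMap.range g = ⊤) (hN : m + n = N) :
    frame p ((pbas f g h hN).reindex (pix hN)) ⁻¹' (image2 (fun x y => p + f x + g y) K L) =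
      rh (pix hN) ⁻¹' (cprod (frame 0 (sb m) ⁻¹' K) (frame 0 (sb n) ⁻¹' L)) := by
  obtain ⟨hF, hFe⟩ := frame_homeo p ((pbas f g h hN).reindex (pix hN))
  obtain ⟨hm, hme⟩ := frame_homeo (0 : E m) (sb m)
  obtain ⟨hn, hne⟩ := frame_homeo (0 : E n) (sb n)
  ext w
  constructor
  · rintro ⟨x, hx, y, hy, e⟩
    obtain ⟨x', rfl⟩ := hm.surjective x
    obtain ⟨y', rfl⟩ := hn.surjective y
    rw [hme] at hx e
    rw [hne] at hy e
    obtain ⟨w', hw'⟩ := (rh (pix hN)).surjective (Sum.elim x' y')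
    have e2 := (frame_prod p f g h hN w' hw').trans e
    rw [← hFe, ← hFe] at e2
    rw [← hF.injective e2, mem_preimage, hw']
    exact ⟨hx, hy⟩
  · intro hw
    obtain ⟨x, y, hxy⟩ := exists_elim (rh (pix hN) w)
    rw [mem_preimage, hxy] at hw
    exact ⟨_, hw.1, _, hw.2, (frame_prod p f g h hN w hxy).symm⟩

theorem IsProduct.body (hK : IsConvexBody K) (hL : IsConvexBody L) (h : IsProduct K L M) :
    IsConvexBody M := by
  obtain ⟨hN, p, f, g, ht, rfl⟩ := h
  refine body_of_CB (p := p) (b := (pbas f g ht hN).reindex (pix hN)) ?_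
  rw [preimage_prod]
  exact ((CB_frame hK 0 (sb m)).cprod (CB_frame hL 0 (sb n))).rh (pix hN)

/-- **The volume product of a product.** -/
theorem IsProduct.volumeProduct_eq (hK : IsConvexBody K) (hL : IsConvexBody L)
    (h : IsProduct K L M) :
    volumeProduct M = ENNReal.ofReal ((m.factorial : ℝ) * n.factorial / (m + n).factorial) *
      (volumeProduct K * volumeProduct L) := by
  obtain ⟨hN, p, f, g, ht, rfl⟩ := h
  have h1 := vp_cprod (CB_frame hK 0 (sb m)) (CB_frame hL 0 (sb n))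
  rw [volumeProduct_eq_vp _ p ((pbas f g ht hN).reindex (pix hN)),
    preimage_prod, vp_rh, volumeProduct_eq_vp K 0 (sb m), volumeProduct_eq_vp L 0 (sb n)]
  rw [Fintype.card_fin, Fintype.card_fin, ofReal_fact, ofReal_fact, ofReal_fact] at h1
  have hf : (0 : ℝ) < ((m + n).factorial : ℝ) := by positivity
  have e : ENNReal.ofReal ((m.factorial : ℝ) * n.factorial / (m + n).factorial) =
      ENNReal.ofReal (1 / ((m + n).factorial : ℝ)) *
        (ENNReal.ofReal (m.factorial : ℝ) * ENNReal.ofReal (n.factorial : ℝ)) := by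
    rw [← ENNReal.ofReal_mul (by positivity), ← ENNReal.ofReal_mul (by positivity)]
    congr 1
    ring
  rw [e, mul_assoc, ← h1, ← mul_assoc, ← ENNReal.ofReal_mul (by positivity),
    one_div_mul_cancel hf.ne', ENNReal.ofReal_one, one_mul]

end prod

end Vale.Agent.P248.H432
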