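import Vale.Agent.P248.H432.Prod

/-! P248: the gluing lemma and the fibre-sum theorem with two constants. -/

set_option linter.unusedSectionVars false

open MeasureTheory Set
open scoped ENNReal Topology Pointwise

namespace Vale.Agent.P248.H432

variable {m : ℕ} {K K1 K2 : Set (Fin (m + 1) → ℝ)} {z : Fin (m + 1) → ℝ} {i : Fin (m + 1)}

/-- the weighted harmonic mean -/
noncomputable def wh (v1 v2 c1 c2 : ℝ) : ℝ := (v1 + v2) / (v1 / c1 + v2 / c2)

theorem key_div {c v : ℝ} {X : ℝ≥0∞} (hv : 0 < v)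
    (h : ENNReal.ofReal c ≤ ENNReal.ofReal v * X) : ENNReal.ofReal (c / v) ≤ X := by
  rw [ENNReal.ofReal_div_of_pos hv]
  exact ENNReal.div_le_of_le_mul' h

/-- Gluing lemma with two constants. -/
theorem glue2 (hK : IsCompact K) (hP : Proj0 K i) (hz : z ∈ interior K) {c1 c2 : ℝ}
    (hc1 : 0 < c1) (hc2 : 0 < c2)
    (hv1 : 0 < volume (half K i 1)) (hv2 : 0 < volume (half K i (-1)))
    (h1 : ∀ ζ, 0 < ζ → ENNReal.ofReal c1 ≤
      volume (half K i 1) * EF (half K i 1) (Function.update z i ζ))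
    (h2 : ∀ ζ, 0 < ζ → ENNReal.ofReal c2 ≤
      volume (half K i (-1)) * EF (half K i (-1)) (Function.update z i (-ζ))) :
    ENNReal.ofReal (wh (volume (half K i 1)).toReal (volume (half K i (-1))).toReal c1 c2) ≤
      volume K * EF K z := by
  have ht1 : volume (half K i 1) < ∞ := (half_compact hK i 1).measure_lt_top
  have ht2 : volume (half K i (-1)) < ∞ := (half_compact hK i (-1)).measure_lt_top
  set v1 := (volume (half K i 1)).toReal with hv1'
  set v2 := (volume (half K i (-1))).toReal with hv2'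
  have hv1p : 0 < v1 := ENNReal.toReal_pos hv1.ne' ht1.ne
  have hv2p : 0 < v2 := ENNReal.toReal_pos hv2.ne' ht2.ne
  have e1 : volume (half K i 1) = ENNReal.ofReal v1 := (ENNReal.ofReal_toReal ht1.ne).symm
  have e2 : volume (half K i (-1)) = ENNReal.ofReal v2 := (ENNReal.ofReal_toReal ht2.ne).symm
  have h1' : ∀ ζ, 0 < ζ → ENNReal.ofReal (c1 / v1) ≤
      lap (fun s => (fib K (Function.update z i 0) i (1 * s)).toReal) ζ +
        ENNReal.ofReal ((fib K (Function.update z i 0) i (1 * 0)).toReal / ζ) := by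
    intro ζ hζ
    rw [← EF_half_pos hK hP hz hζ]
    exact key_div hv1p (e1 ▸ h1 ζ hζ)
  have h2' : ∀ ζ, 0 < ζ → ENNReal.ofReal (c2 / v2) ≤
      lap (fun s => (fib K (Function.update z i 0) i (-1 * s)).toReal) ζ +
        ENNReal.ofReal ((fib K (Function.update z i 0) i (-1 * 0)).toReal / ζ) := by
    intro ζ hζ
    rw [← EF_half_neg hK hP hz hζ]
    exact key_div hv2p (e2 ▸ h2 ζ hζ)
  have h3 := lap_glue (fib_side hK hP hz (Or.inl rfl)) (fib_side hK hP hz (Or.inr rfl))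
    (by simp) (by positivity : 0 < c1 / v1) (by positivity : 0 < c2 / v2) h1' h2' (z i)
  rw [← EF_lap hK hP hz] at h3
  rw [volume_half hK i, e1, e2, ← ENNReal.ofReal_add hv1p.le hv2p.le]
  calc ENNReal.ofReal (wh v1 v2 c1 c2) = ENNReal.ofReal (v1 + v2) *
        ENNReal.ofReal (c1 / v1 * (c2 / v2) / (c1 / v1 + c2 / v2)) := by
        rw [← ENNReal.ofReal_mul (by positivity)]
        congr 1
        unfold wh
        field_simp
        ring
    _ ≤ _ := by gcongr

/-- Fibre-sum theorem with two constants. -/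
theorem fiber_sum2 (hK : IsCompact K)
    (hK1 : IsCompact K1) (hc1 : Convex ℝ K1) (hi1 : (interior K1).Nonempty)
    (hK2 : IsCompact K2) (hc2 : Convex ℝ K2) (hi2 : (interior K2).Nonempty)
    (h : ∀ x, x ∈ K ↔ ∃ r : ℝ, x + r • (Pi.single i 1 : Fin (m + 1) → ℝ) ∈ K1 ∧
      x - r • (Pi.single i 1 : Fin (m + 1) → ℝ) ∈ K2)
    (hp1 : ∀ x ∈ K1, ∃ r : ℝ, x + r • (Pi.single i 1 : Fin (m + 1) → ℝ) ∈ K2)
    (hp2 : ∀ x ∈ K2, ∃ r : ℝ, x + r • (Pi.single i 1 : Fin (m + 1) → ℝ) ∈ K1)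
    {C1 C2 : ℝ} (hC1 : 0 < C1) (hC2 : 0 < C2)
    (h1 : ∀ z, ENNReal.ofReal C1 ≤ volume K1 * EF K1 z)
    (h2 : ∀ z, ENNReal.ofReal C2 ≤ volume K2 * EF K2 z)
    (hz : z ∈ interior K) :
    ENNReal.ofReal (wh (volume K1).toReal (volume K2).toReal C1 C2) ≤ volume K * EF K z := by
  have hn : K.Nonempty := ⟨_, interior_subset hz⟩
  have hvol := volume_fiber_sum i hK hK1 hK2 (fun x r hr1 hr2 => (h x).2 ⟨r, hr1, hr2⟩) hp1 hp2
  obtain ⟨c1, hc1'⟩ := exists_center (i := i) hc1 hi1 (fun x hx => by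
    obtain ⟨r, hr, -⟩ := (h x).1 hx
    exact ⟨r, hr⟩) hz
  obtain ⟨c2, hc2'⟩ := exists_center (i := i) hc2 hi2 (fun x hx => by
    obtain ⟨r, -, hr⟩ := (h x).1 hx
    exact ⟨-r, by simpa only [neg_smul, sub_eq_add_neg] using hr⟩) hz
  set z0 := Function.update z i 0 with hz0
  have hz00 : z0 i = 0 := by simp [hz0]
  have hup : ∀ t, Function.update z0 i t = Function.update z i t := by
    intro t; simp [hz0]
  have hcc : Function.update z0 i (z i) ∈ interior K := by
    rw [hup]; simpa using hz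
  rw [← hup] at hc1' hc2'
  have hvpos : ∀ {L : Set (Fin (m + 1) → ℝ)}, (interior L).Nonempty → 0 < volume L := by
    intro L hL
    exact lt_of_lt_of_le (isOpen_interior.measure_pos volume hL) (measure_mono interior_subset)
  have hv1 := hvpos hi1
  have hv2 := hvpos hi2
  have ht1 : volume K1 < ∞ := hK1.measure_lt_top
  have ht2 : volume K2 < ∞ := hK2.measure_lt_top
  set v1 := (volume K1).toReal with hv1'
  set v2 := (volume K2).toReal with hv2'
  have hv1p : 0 < v1 := ENNReal.toReal_pos hv1.ne' ht1.ne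
  have hv2p : 0 < v2 := ENNReal.toReal_pos hv2.ne' ht2.ne
  have e1 : volume K1 = ENNReal.ofReal v1 := (ENNReal.ofReal_toReal ht1.ne).symm
  have e2 : volume K2 = ENNReal.ofReal v2 := (ENNReal.ofReal_toReal ht2.ne).symm
  have k1 : ∀ t, ENNReal.ofReal (C1 / v1) ≤
      lap (sd K1 z0 i 1) t + lap (sd K1 z0 i (-1)) (-t) := by
    intro t
    rw [← EF_sides hK1 hz00 hc1']
    exact key_div hv1p (e1 ▸ h1 _)
  have k2 : ∀ t, ENNReal.ofReal (C2 / v2) ≤
      lap (sd K2 z0 i 1) t + lap (sd K2 z0 i (-1)) (-t) := by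
    intro t
    rw [← EF_sides hK2 hz00 hc2']
    exact key_div hv2p (e2 ▸ h2 _)
  have hmain := cross (X1 := lap (sd K1 z0 i 1)) (X2 := lap (sd K2 z0 i 1))
    (Y1 := fun t => lap (sd K1 z0 i (-1)) (-t)) (Y2 := fun t => lap (sd K2 z0 i (-1)) (-t))
    (XK := lap (sd K z0 i 1) (z i)) (YK := lap (sd K z0 i (-1)) (-(z i))) (a := z i)
    (by positivity : 0 < C1 / v1) (by positivity : 0 < C2 / v2)
    (lap_sd_continuous hK1 hc1 hz00 hc1') (lap_sd_continuous hK2 hc2 hz00 hc2')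
    (lap_sd_top hK1 hc1 hz00 hc1') (lap_sd_top hK2 hc2 hz00 hc2') k1 k2
    (fun a1 a2 y1 y2 ha hy1 hy2 g1 g2 => by
      have := lap_sd_ball hK hn hK1 hK2 (fun x hx => (h x).1 hx) hz00 hcc hc1' hc2' (ε := 1) ha hy1
        hy2 (by simpa only [one_mul] using g1) (by simpa only [one_mul] using g2)
      simpa only [ge_iff_le, one_mul] using this)
    (fun a1 a2 y1 y2 ha hy1 hy2 g1 g2 => by
      have := lap_sd_ball hK hn hK1 hK2 (fun x hx => (h x).1 hx) hz00 hcc hc1' hc2' (ε := -1) ha hy1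
        hy2 (by simpa only [neg_mul, one_mul] using g1) (by simpa only [neg_mul, one_mul] using g2)
      simpa only [ge_iff_le, neg_mul, one_mul] using this)
  rw [← EF_sides hK hz00 hcc, hup] at hmain
  simp only [Function.update_eq_self] at hmain
  have hvK : ENNReal.ofReal ((v1 + v2) / 2) ≤ volume K := by
    rw [ENNReal.ofReal_div_of_pos (by norm_num), ENNReal.ofReal_add hv1p.le hv2p.le, ← e1, ← e2]
    refine ENNReal.div_le_of_le_mul' ?_
    simpa only [ENNReal.ofReal_ofNat] using hvol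
  calc ENNReal.ofReal (wh v1 v2 C1 C2) = ENNReal.ofReal ((v1 + v2) / 2) *
        ENNReal.ofReal (2 * (C1 / v1) * (C2 / v2) / (C1 / v1 + C2 / v2)) := by
        rw [← ENNReal.ofReal_mul (by positivity)]
        congr 1
        unfold wh
        field_simp
        ring
    _ ≤ _ := by gcongr

/-- bounds for the weighted harmonic mean -/
theorem min_le_wh {v1 v2 c1 c2 : ℝ} (hv1 : 0 < v1) (hv2 : 0 < v2) (hc1 : 0 < c1) (hc2 : 0 < c2) :
    min c1 c2 ≤ wh v1 v2 c1 c2 := by
  unfold wh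
  have hm : 0 < min c1 c2 := lt_min hc1 hc2
  rw [le_div_iff₀ (by positivity), mul_add]
  have h1 : min c1 c2 * (v1 / c1) ≤ v1 := by
    calc min c1 c2 * (v1 / c1) ≤ c1 * (v1 / c1) :=
          mul_le_mul_of_nonneg_right (min_le_left _ _) (by positivity)
      _ = v1 := by field_simp
  have h2 : min c1 c2 * (v2 / c2) ≤ v2 := by
    calc min c1 c2 * (v2 / c2) ≤ c2 * (v2 / c2) :=
          mul_le_mul_of_nonneg_right (min_le_right _ _) (by positivity)
      _ = v2 := by field_simp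
  linarith

theorem min_lt_wh {v1 v2 c1 c2 : ℝ} (hv1 : 0 < v1) (hv2 : 0 < v2) (hc1 : 0 < c1) (hc2 : 0 < c2)
    (hne : c1 ≠ c2) : min c1 c2 < wh v1 v2 c1 c2 := by
  unfold wh
  have hm : 0 < min c1 c2 := lt_min hc1 hc2
  rw [lt_div_iff₀ (by positivity), mul_add]
  have a1 : c1 * (v1 / c1) = v1 := by field_simp
  have a2 : c2 * (v2 / c2) = v2 := by field_simp
  have b1 : 0 < v1 / c1 := by positivity
  have b2 : 0 < v2 / c2 := by positivity
  rcases lt_or_gt_of_ne hne with h | h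
  · rw [min_eq_left h.le]
    nlinarith
  · rw [min_eq_right h.le]
    nlinarith

end Vale.Agent.P248.H432
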