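import Vale.Agent.P248.H432.Gen

/-! P248: the tensor power trick for joins. -/

set_option linter.unusedSectionVars false

open MeasureTheory Set Filter
open scoped ENNReal Topology Pointwise

namespace Vale.Agent.P248.H432

theorem join_power {d : ℕ} {K : Set (E d)} (hK : IsConvexBody K) (k : ℕ) :
    ∃ M : Set (E (k * (d + 1) + d)), IsConvexBody M ∧ mahlerRatio M = mahlerRatio K ^ (k + 1) := by
  induction k with
  | zero =>
    rw [Nat.zero_mul, Nat.zero_add, Nat.zero_add]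
    exact ⟨K, hK, by rw [pow_one]⟩
  | succ k ih =>
    obtain ⟨M, hM, hMr⟩ := ih
    obtain ⟨M', hM'⟩ := exists_join M K
    have e : (k + 1) * (d + 1) + d = k * (d + 1) + d + d + 1 := by ring
    rw [e]
    refine ⟨M', hM'.body hM hK, ?_⟩
    rw [hM'.ratio_eq hM hK, hMr, ← pow_succ]

theorem join_points {d : ℕ} {K : Set (E d)} (hK : IsConvexBody K) (j : ℕ) :
    ∃ M : Set (E (d + j)), IsConvexBody M ∧ mahlerRatio M = mahlerRatio K := by
  induction j with
  | zero => exact ⟨K, hK, rfl⟩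
  | succ j ih =>
    obtain ⟨M, hM, hMr⟩ := ih
    obtain ⟨M', hM'⟩ := exists_join M (univ : Set (E 0))
    have hb := isSimplex_point.isConvexBody
    refine ⟨M', hM'.body hM hb, ?_⟩
    rw [hM'.ratio_eq hM hb, hMr, ratio_simplex isSimplex_point, mul_one]

/-- **Tensor power trick.** If for every `ε > 0` the inequality of the general Mahler conjecture
holds up to the factor `e^(-ε n)` in infinitely many dimensions `n`, then it holds exactly in all
dimensions. -/
theorem tensor (h : ∀ ε : ℝ, 0 < ε → ∃ᶠ n : ℕ in atTop, ∀ K : Set (E n), IsConvexBody K →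
    ENNReal.ofReal (Real.exp (-(ε * n)) * simplexVal n) ≤ volumeProduct K)
    {d : ℕ} {K : Set (E d)} (hK : IsConvexBody K) :
    ENNReal.ofReal (simplexVal d) ≤ volumeProduct K := by
  rw [← one_le_ratio_iff]
  by_contra hlt
  rw [not_le] at hlt
  have hrt := mahlerRatio_ne_top hK
  set r : ℝ := (mahlerRatio K).toReal with hr
  have hr0 : 0 ≤ r := ENNReal.toReal_nonneg
  have hr1 : r < 1 := by
    rw [hr, ← ENNReal.toReal_one]
    exact (ENNReal.toReal_lt_toReal hrt ENNReal.one_ne_top).2 hlt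
  have hrr : mahlerRatio K = ENNReal.ofReal r := (ENNReal.ofReal_toReal hrt).symm
  obtain ⟨ε, hε, hεr⟩ : ∃ ε : ℝ, 0 < ε ∧ r < Real.exp (-(ε * (2 * ((d : ℝ) + 1)))) := by
    have h1 : Tendsto (fun ε : ℝ => Real.exp (-(ε * (2 * ((d : ℝ) + 1))))) (𝓝[>] 0) (𝓝 1) := by
      have h2 : Tendsto (fun ε : ℝ => Real.exp (-(ε * (2 * ((d : ℝ) + 1))))) (𝓝 0)
          (𝓝 (Real.exp (-(0 * (2 * ((d : ℝ) + 1)))))) :=
        (by fun_prop : Continuous fun ε : ℝ => Real.exp (-(ε * (2 * ((d : ℝ) + 1))))).tendsto 0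
      rw [zero_mul, neg_zero, Real.exp_zero] at h2
      exact h2.mono_left nhdsWithin_le_nhds
    have h3 := (h1.eventually (lt_mem_nhds hr1)).and self_mem_nhdsWithin
    obtain ⟨ε, h4, h5⟩ := h3.exists
    exact ⟨ε, h5, h4⟩
  obtain ⟨N, hN⟩ := ((h ε hε).and_eventually (eventually_ge_atTop d)).exists
  obtain ⟨hN1, hN2⟩ := hN
  set k := (N - d) / (d + 1) with hk
  set j := (N - d) % (d + 1) with hj
  have hkj : (d + 1) * k + j = N - d := Nat.div_add_mod _ _
  have hjd : j < d + 1 := Nat.mod_lt _ (Nat.succ_pos d)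
  have hNe : N = k * (d + 1) + d + j := by
    have h1 : (d + 1) * k = k * (d + 1) := Nat.mul_comm _ _
    omega
  obtain ⟨M, hM, hMr⟩ := join_power hK k
  obtain ⟨M', hM', hMr'⟩ := join_points hM j
  rw [hMr] at hMr'
  have h1 : ∀ M : Set (E (k * (d + 1) + d + j)), IsConvexBody M →
      ENNReal.ofReal (Real.exp (-(ε * ((k * (d + 1) + d + j : ℕ) : ℝ))) *
        simplexVal (k * (d + 1) + d + j)) ≤ volumeProduct M := by
    rw [← hNe]
    exact hN1
  have h2 := h1 M' hM'
  rw [volumeProduct_eq_ratio, hMr', hrr, ← ENNReal.ofReal_pow hr0,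
    ← ENNReal.ofReal_mul (pow_nonneg hr0 _), ENNReal.ofReal_le_ofReal_iff
      (mul_nonneg (pow_nonneg hr0 _) (simplexVal_pos _).le)] at h2
  have h3 := le_of_mul_le_mul_right h2 (simplexVal_pos _)
  have h4 : Real.exp (-(ε * (2 * ((d : ℝ) + 1)))) ^ (k + 1) ≤
      Real.exp (-(ε * ((k * (d + 1) + d + j : ℕ) : ℝ))) := by
    rw [← Real.exp_nat_mul, Real.exp_le_exp]
    have h5 : ((k * (d + 1) + d + j : ℕ) : ℝ) ≤ ((k : ℝ) + 1) * (2 * ((d : ℝ) + 1)) := by
      have h6 : k * (d + 1) + d + j ≤ (k + 1) * (2 * (d + 1)) := by nlinarith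
      have h7 : ((k * (d + 1) + d + j : ℕ) : ℝ) ≤ (((k + 1) * (2 * (d + 1)) : ℕ) : ℝ) := by
        exact_mod_cast h6
      refine h7.trans (le_of_eq ?_)
      push_cast
      ring
    have h8 := mul_le_mul_of_nonneg_left h5 hε.le
    push_cast at h8 ⊢
    linarith
  have h5 := pow_lt_pow_left₀ hεr hr0 (Nat.succ_ne_zero k)
  exact absurd (h4.trans h3) (not_le.2 h5)

/-- equivalence form -/
theorem tensor_iff :
    (∀ (n : ℕ) (K : Set (E n)), IsConvexBody K →
      ENNReal.ofReal (simplexVal n) ≤ volumeProduct K) ↔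
    ∀ ε : ℝ, 0 < ε → ∃ᶠ n : ℕ in atTop, ∀ K : Set (E n), IsConvexBody K →
      ENNReal.ofReal (Real.exp (-(ε * n)) * simplexVal n) ≤ volumeProduct K := by
  refine ⟨fun h ε hε => Eventually.frequently (Eventually.of_forall fun n K hK => ?_),
    fun h n K hK => tensor h hK⟩
  refine le_trans (ENNReal.ofReal_le_ofReal ?_) (h n K hK)
  refine mul_le_of_le_one_left (simplexVal_pos n).le ?_
  rw [Real.exp_le_one_iff, neg_nonpos]
  positivity

end Vale.Agent.P248.H432
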