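import Mathlib.Analysis.Convex.Integral
import Mathlib.MeasureTheory.Function.L2Space
import Vale.Agent.P248.H432.Laplace
import Vale.Agent.P248.H432.Tensor

/-! P248: polarity at the centroid. -/

set_option linter.unusedSectionVars false

open MeasureTheory Set Filter
open scoped ENNReal Topology Pointwise

namespace Vale.Agent.P248.H432

variable {n : ℕ}

theorem centroid_mem {K : Set (E n)} (hK : IsConvexBody K) : (⨍ x in K, x) ∈ interior K := by
  have : IsFiniteMeasure ((volume : Measure (E n)).restrict K) :=
    ⟨by rw [Measure.restrict_apply_univ]; exact hK.1.measure_lt_top⟩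
  obtain ⟨c, hc⟩ := hK.2.2
  obtain ⟨r, hr, hb⟩ := Metric.isOpen_iff.1 isOpen_interior c hc
  have hb2 : Metric.closedBall c (r / 2) ⊆ interior K :=
    (Metric.closedBall_subset_ball (by linarith)).trans hb
  have hint : Integrable (fun x : E n => x) (volume.restrict K) :=
    (continuous_id.continuousOn (s := K)).integrableOn_compact hK.1
  have h0 : (volume.restrict K) (Metric.closedBall c (r / 2)) ≠ 0 := by
    rw [Measure.restrict_apply Metric.isClosed_closedBall.measurableSet,
      inter_eq_left.2 (hb2.trans interior_subset)]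
    exact (Metric.measure_closedBall_pos volume c (by linarith)).ne'
  refine Convex.average_mem_interior_of_set hK.2.1 (t := Metric.closedBall c (r / 2)) h0 ?_
    hint ?_
  · exact ae_restrict_mem hK.1.measurableSet
  · refine hb2 (Convex.set_average_mem (convex_closedBall c (r / 2))
      Metric.isClosed_closedBall h0 (measure_ne_top _ _) ?_ hint.integrableOn)
    exact ae_restrict_mem Metric.isClosed_closedBall.measurableSet

theorem sb_apply (i : Fin n) : sb n i = EuclideanSpace.single i (1 : ℝ) := by
  unfold sb
  rw [OrthonormalBasis.coe_toBasis, EuclideanSpace.basisFun_apply]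

theorem frame_sb (p : E n) (u : Fin n → ℝ) : frame p (sb n) u = p + WithLp.toLp 2 u := by
  unfold frame
  rw [Module.Basis.equivFun_symm_apply]
  congr 1
  ext i
  simp only [WithLp.ofLp_sum, WithLp.ofLp_smul, Finset.sum_apply, Pi.smul_apply, smul_eq_mul,
    sb_apply]
  rw [Finset.sum_eq_single i]
  · simp
  · intro j _ hj
    simp [hj.symm]
  · simp

theorem coframe_frame (u : Fin n → ℝ) : coframe (sb n) (frame 0 (sb n) u) = u := by
  ext i
  unfold coframe
  rw [frame_sb, zero_add, sb_apply]
  simp [PiLp.inner_apply]

theorem preimage_polarAt (K : Set (E n)) (g : E n) :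
    frame 0 (sb n) ⁻¹' (polarAt K g) = polarP (frame g (sb n) ⁻¹' K) 0 := by
  have h1 : frame g (sb n) 0 = g := by
    rw [frame_sb]
    simp
  have h2 := polarAt_frame g (sb n) K 0
  rw [h1] at h2
  rw [h2]
  ext u
  rw [mem_preimage, mem_preimage, coframe_frame]

theorem mp_frame (g : E n) : MeasurePreserving (frame g (sb n)) volume volume := by
  have h1 := (EuclideanSpace.volume_preserving_symm_measurableEquiv_toLp (Fin n)).symm
  have h2 := measurePreserving_add_left (volume : Measure (E n)) g
  have h3 := h2.comp h1
  have e : frame g (sb n) = (fun x => g + x) ∘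
      (MeasurableEquiv.toLp 2 (Fin n → ℝ)).symm.symm := by
    funext u
    rw [frame_sb]
    rfl
  rw [e]
  exact h3

theorem centroid_balance {K : Set (E n)} (hK : IsConvexBody K) (w : Fin n → ℝ) :
    ∫⁻ u in frame (⨍ x in K, x) (sb n) ⁻¹' K, ENNReal.ofReal (∑ i, w i * u i) =
      ∫⁻ u in frame (⨍ x in K, x) (sb n) ⁻¹' K, ENNReal.ofReal (-∑ i, w i * u i) := by
  have : IsFiniteMeasure ((volume : Measure (E n)).restrict K) :=
    ⟨by rw [Measure.restrict_apply_univ]; exact hK.1.measure_lt_top⟩
  set g : E n := ⨍ x in K, x with hg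
  have hint : Integrable (fun x : E n => x) (volume.restrict K) :=
    (continuous_id.continuousOn (s := K)).integrableOn_compact hK.1
  set φ : E n → ℝ := fun x => inner ℝ (WithLp.toLp 2 w) (x - g) with hφ
  have hφc : Continuous φ := by rw [hφ]; fun_prop
  have hφi : Integrable φ (volume.restrict K) :=
    (hφc.continuousOn (s := K)).integrableOn_compact hK.1
  have h0 : ∫ x in K, φ x = 0 := by
    have h1 : ∫ x in K, (x - g) = 0 := integral_sub_average (volume.restrict K) (fun x => x)
    have h2 := integral_inner (𝕜 := ℝ) (μ := volume.restrict K)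
      (hint.sub (integrable_const g)) (WithLp.toLp 2 w : E n)
    rw [hφ]
    simp only [Pi.sub_apply] at h2
    rw [h2, h1, inner_zero_right]
  rw [integral_eq_lintegral_pos_part_sub_lintegral_neg_part hφi, sub_eq_zero] at h0
  replace h0 := (ENNReal.toReal_eq_toReal_iff' hφi.lintegral_lt_top.ne
    hφi.neg.lintegral_lt_top.ne).1 h0
  simp only [Pi.neg_apply] at h0
  have he : ∀ u, φ (frame g (sb n) u) = ∑ i, w i * u i := by
    intro u
    rw [hφ]
    simp only
    rw [frame_sb, add_sub_cancel_left, PiLp.inner_apply]
    refine Finset.sum_congr rfl fun i _ => ?_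
    simp [mul_comm]
  have hme : MeasurableEmbedding (frame g (sb n)) := by
    obtain ⟨h, hh⟩ := frame_homeo g (sb n)
    have : frame g (sb n) = h := funext fun u => (hh u).symm
    rw [this]
    exact h.measurableEmbedding
  have h3 := (mp_frame g).setLIntegral_comp_preimage_emb hme (fun x => ENNReal.ofReal (φ x)) K
  have h4 := (mp_frame g).setLIntegral_comp_preimage_emb hme (fun x => ENNReal.ofReal (-φ x)) K
  simp only [he] at h3 h4
  rw [h3, h4, h0]

theorem frame_preimage_zero {K : Set (E n)} {g : E n} (hg : g ∈ interior K) :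
    (0 : Fin n → ℝ) ∈ interior (frame g (sb n) ⁻¹' K) := by
  rw [frame_preimage_interior, mem_preimage, frame_sb]
  simpa using hg

theorem polarAt_body {K : Set (E n)} (hK : IsConvexBody K) {g : E n} (hg : g ∈ interior K) :
    IsConvexBody (polarAt K g) := by
  refine body_of_CB (p := 0) (b := sb n) ?_
  rw [preimage_polarAt]
  exact (CB_frame hK g (sb n)).polar (frame_preimage_zero hg)

/-- **Polarity at the centroid**: the volume product does not decrease. -/
theorem volumeProduct_polar {K : Set (E n)} (hK : IsConvexBody K) :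
    volumeProduct (polarAt K (⨍ x in K, x)) = volume K * volume (polarAt K (⨍ x in K, x)) := by
  have hg := centroid_mem hK
  rw [volumeProduct_eq_vp _ 0 (sb n), preimage_polarAt,
    vp_polar (CB_frame hK _ (sb n)) (frame_preimage_zero hg) (centroid_balance hK)]
  have h1 := volume_mul_frame (⨍ x in K, x) (sb n) K 0
  have h2 : frame (⨍ x in K, x) (sb n) 0 = ⨍ x in K, x := by
    rw [frame_sb]
    simp
  rw [h2] at h1
  exact h1.symm

theorem volumeProduct_le_polar {K : Set (E n)} (hK : IsConvexBody K) :
    volumeProduct K ≤ volumeProduct (polarAt K (⨍ x in K, x)) := by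
  rw [volumeProduct_polar hK]
  exact iInf₂_le _ (centroid_mem hK)

theorem ratio_le_polar {K : Set (E n)} (hK : IsConvexBody K) :
    mahlerRatio K ≤ mahlerRatio (polarAt K (⨍ x in K, x)) :=
  ENNReal.div_le_div_right (volumeProduct_le_polar hK) _

/-- the polar of a simplex at an interior point is a simplex -/
theorem polarAt_simplex {K : Set (E n)} (hK : IsSimplex K) {z : E n} (hz : z ∈ interior K) :
    IsSimplex (polarAt K z) := by
  obtain ⟨v, hv, rfl⟩ := hK
  have htop := span_eq_top_of_independent hv (by rw [Fintype.card_fin])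
  let b : AffineBasis (Fin (n + 1)) ℝ (E n) := ⟨v, hv, htop⟩
  have hbv : ∀ i, b i = v i := fun i => rfl
  set lam : Fin (n + 1) → ℝ := fun i => b.coord i z with hlam
  have hpos : ∀ i, 0 < lam i := by
    have h1 := b.interior_convexHull
    have h2 : z ∈ interior (convexHull ℝ (range b)) := hz
    rw [h1] at h2
    exact h2
  have hsum : ∑ i, lam i = 1 := b.sum_coord_apply_eq_one z
  have hlin : ∀ x : E n, ∑ i, b.coord i x • v i = x := fun x => b.linear_combination_coord_eq_self x
  let T : E n →ₗ[ℝ] (Fin (n + 1) → ℝ) :=
    LinearMap.pi fun i => lam i • (innerₗ (E n) (v i - z))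
  have hT : ∀ y i, T y i = lam i * inner ℝ (v i - z) y := fun y i => rfl
  have hTsum : ∀ y, ∑ i, T y i = 0 := by
    intro y
    have h1 : ∑ i, T y i = inner ℝ (∑ i, lam i • (v i - z)) y := by
      rw [sum_inner]
      exact Finset.sum_congr rfl fun i _ => by rw [hT, inner_smul_left]; rfl
    rw [h1]
    simp_rw [smul_sub]
    rw [Finset.sum_sub_distrib, ← Finset.sum_smul, hsum, one_smul, hlin z, sub_self,
      inner_zero_left]
  have hinj : Function.Injective T := by
    rw [← LinearMap.ker_eq_bot, LinearMap.ker_eq_bot']
    intro y hy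
    have h1 : ∀ i, inner ℝ (v i - z) y = 0 := by
      intro i
      have h2 := congrFun hy i
      rw [hT] at h2
      exact (mul_eq_zero.1 h2).resolve_left (hpos i).ne'
    have h3 : ∑ i, b.coord i (y + z) • (v i - z) = y := by
      simp_rw [smul_sub]
      rw [Finset.sum_sub_distrib, ← Finset.sum_smul, b.sum_coord_apply_eq_one, one_smul,
        hlin (y + z), add_sub_cancel_right]
    have h4 : inner ℝ y y = 0 := by
      nth_rewrite 1 [← h3]
      rw [sum_inner]
      exact Finset.sum_eq_zero fun i _ => by rw [inner_smul_left, h1 i, mul_zero]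
    exact inner_self_eq_zero.1 h4
  let S : (Fin (n + 1) → ℝ) →ₗ[ℝ] ℝ := ∑ i, LinearMap.proj i
  have hS : ∀ c, S c = ∑ i, c i := fun c => by
    simp only [S, LinearMap.sum_apply, LinearMap.proj_apply]
  have hrange : LinearMap.range T = LinearMap.ker S := by
    refine Submodule.eq_of_le_of_finrank_eq ?_ ?_
    · rintro _ ⟨y, rfl⟩
      rw [LinearMap.mem_ker, hS, hTsum]
    · have h1 := LinearMap.finrank_range_of_inj hinj
      have h2 := LinearMap.finrank_range_add_finrank_ker S
      have h3 : LinearMap.range S = ⊤ := by
        rw [LinearMap.range_eq_top]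
        intro r
        refine ⟨Pi.single 0 r, ?_⟩
        rw [hS]
        simp
      rw [h3, finrank_top, Module.finrank_self, Module.finrank_fintype_fun_eq_card,
        Fintype.card_fin] at h2
      rw [h1, finrank_euclideanSpace, Fintype.card_fin]
      omega
  have hex : ∀ j : Fin (n + 1), ∃ p : E n, T p = fun i => lam i - if i = j then 1 else 0 := by
    intro j
    have h1 : (fun i => lam i - if i = j then (1 : ℝ) else 0) ∈ LinearMap.ker S := by
      rw [LinearMap.mem_ker, hS, Finset.sum_sub_distrib, hsum]
      simp
    rw [← hrange] at h1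
    exact h1
  choose p hp using hex
  have hcomb : ∀ c : Fin (n + 1) → ℝ, T (∑ j, c j • p j) = fun i => (∑ j, c j) * lam i - c i := by
    intro c
    ext i
    rw [map_sum]
    simp only [map_smul, Finset.sum_apply, Pi.smul_apply, smul_eq_mul, hp]
    simp_rw [mul_sub]
    rw [Finset.sum_sub_distrib, ← Finset.sum_mul]
    simp
  have hmem : ∀ y, y ∈ polarAt (convexHull ℝ (range v)) z ↔ ∀ i, T y i ≤ lam i := by
    intro y
    have h1 : ∀ i, T y i ≤ lam i ↔ inner ℝ y (v i - z) ≤ 1 := by
      intro i
      rw [hT, real_inner_comm]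
      constructor
      · intro h
        have h2 : lam i * inner ℝ y (v i - z) ≤ lam i * 1 := by rw [mul_one]; exact h
        exact le_of_mul_le_mul_left h2 (hpos i)
      · intro h
        have h2 := mul_le_mul_of_nonneg_left h (hpos i).le
        rwa [mul_one] at h2
    simp_rw [h1]
    constructor
    · intro h i
      exact h _ (subset_convexHull ℝ _ ⟨i, rfl⟩)
    · intro h x hx
      have hc : Convex ℝ {x : E n | inner ℝ y (x - z) ≤ 1} := by
        intro a ha b hb s t hs ht hst
        have h2 : inner ℝ y (s • a + t • b - z) = s * inner ℝ y (a - z) + t * inner ℝ y (b - z) := by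
          have e : s • a + t • b - z = s • (a - z) + t • (b - z) := by
            rw [smul_sub, smul_sub]
            have : z = s • z + t • z := by rw [← add_smul, hst, one_smul]
            nth_rewrite 1 [this]
            abel
          rw [e, inner_add_right, inner_smul_right, inner_smul_right]
        show inner ℝ y (s • a + t • b - z) ≤ 1
        rw [h2]
        have h3 : inner ℝ y (a - z) ≤ 1 := ha
        have h4 : inner ℝ y (b - z) ≤ 1 := hb
        nlinarith
      exact convexHull_min (by rintro _ ⟨i, rfl⟩; exact h i) hc hx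
  refine ⟨p, ?_, ?_⟩
  · rw [affineIndependent_iff]
    intro s w hw0 hws
    have e1 : ∑ j, (if j ∈ s then w j else 0) • p j = 0 := by
      rw [← hws]
      simp_rw [ite_smul, zero_smul]
      rw [Finset.sum_ite_mem, Finset.univ_inter]
    have e2 : ∑ j, (if j ∈ s then w j else 0) = 0 := by
      rw [Finset.sum_ite_mem, Finset.univ_inter, hw0]
    have h1 := hcomb fun j => if j ∈ s then w j else 0
    rw [e1, map_zero, e2] at h1
    intro i hi
    have h2 := congrFun h1 i
    simp only [Pi.zero_apply, zero_mul, zero_sub, if_pos hi] at h2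
    linarith
  · apply Subset.antisymm
    · intro y hy
      rw [hmem] at hy
      have h1 : ∑ j, (lam j - T y j) = 1 := by
        rw [Finset.sum_sub_distrib, hsum, hTsum, sub_zero]
      have h2 : y = ∑ j, (lam j - T y j) • p j := by
        apply hinj
        rw [hcomb, h1]
        ext i
        ring
      rw [h2]
      exact mem_hull_fintype.2 ⟨fun j => lam j - T y j, fun j => sub_nonneg.2 (hy j), h1, rfl⟩
    · have hc : Convex ℝ (polarAt (convexHull ℝ (range v)) z) := by
        intro a ha b hb s t hs ht hst x hx
        have h3 := ha x hx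
        have h4 := hb x hx
        rw [inner_add_left, inner_smul_left, inner_smul_left]
        simp only [conj_trivial]
        nlinarith
      refine convexHull_min ?_ hc
      rintro _ ⟨j, rfl⟩
      rw [hmem]
      intro i
      rw [hp]
      simp only
      split_ifs <;> linarith

end Vale.Agent.P248.H432
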