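import Vale.Agent.P248.H432.VP

/-! P248: the volume product of a product. -/

set_option linter.unusedSectionVars false

open MeasureTheory Set
open scoped ENNReal Topology

namespace Vale.Agent.P248.H432

theorem le_iInf_mul_iInf {α β : Type*} {S : Set α} {T : Set β} {A : α → ℝ≥0∞} {B : β → ℝ≥0∞}
    (hS : S.Nonempty) (hT : T.Nonempty) (hA : ∀ a ∈ S, A a ≠ 0 ∧ A a ≠ ∞)
    (hB : ∀ b ∈ T, B b ≠ ∞) {I : ℝ≥0∞} (h : ∀ a ∈ S, ∀ b ∈ T, I ≤ A a * B b) :
    I ≤ (⨅ a ∈ S, A a) * ⨅ b ∈ T, B b := by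
  have h1 : ∀ a ∈ S, I ≤ A a * ⨅ b ∈ T, B b := by
    intro a ha
    obtain ⟨h0, h1⟩ := hA a ha
    have h2 : I / A a ≤ ⨅ b ∈ T, B b := le_iInf₂ fun b hb => by
      rw [ENNReal.div_le_iff' h0 h1]
      exact h a ha b hb
    rwa [ENNReal.div_le_iff' h0 h1] at h2
  set iB := ⨅ b ∈ T, B b with hiB
  by_cases h0 : iB = 0
  · obtain ⟨a, ha⟩ := hS
    have h2 := h1 a ha
    rw [h0, mul_zero] at h2
    rw [le_zero_iff.1 h2]
    exact bot_le
  · have h2 : iB ≠ ∞ := by
      obtain ⟨b, hb⟩ := hT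
      exact ne_top_of_le_ne_top (hB b hb) (iInf₂_le b hb)
    have h3 : I / iB ≤ ⨅ a ∈ S, A a := le_iInf₂ fun a ha => by
      rw [ENNReal.div_le_iff h0 h2]
      exact h1 a ha
    rwa [ENNReal.div_le_iff h0 h2] at h3

section vp

variable {ι κ : Type*} [Fintype ι] [Fintype κ] [DecidableEq ι] [DecidableEq κ]

/-- convex body in coordinates -/
structure CB (K : Set (ι → ℝ)) : Prop where
  cpt : IsCompact K
  cvx : Convex ℝ K
  ne : (interior K).Nonempty

theorem CB.vol_ne_zero {K : Set (ι → ℝ)} (h : CB K) : volume K ≠ 0 := by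
  have h1 := isOpen_interior.measure_pos volume h.ne
  exact (h1.trans_le (measure_mono interior_subset)).ne'

theorem CB.vol_ne_top {K : Set (ι → ℝ)} (h : CB K) : volume K ≠ ∞ :=
  h.cpt.measure_lt_top.ne

theorem polar_ne_zero {K : Set (ι → ℝ)} (h : IsCompact K) (a : ι → ℝ) :
    volume (polarP K a) ≠ 0 :=
  (Measure.measure_pos_of_mem_nhds volume (polarP_mem_nhds h.isBounded a)).ne'

theorem polar_ne_top {K : Set (ι → ℝ)} {a : ι → ℝ} (ha : a ∈ interior K) :
    volume (polarP K a) ≠ ∞ :=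
  (polarP_isBounded ha).measure_lt_top.ne

theorem CB.term_ne {K : Set (ι → ℝ)} (h : CB K) {a : ι → ℝ} (ha : a ∈ interior K) :
    volume K * volume (polarP K a) ≠ 0 ∧ volume K * volume (polarP K a) ≠ ∞ :=
  ⟨mul_ne_zero h.vol_ne_zero (polar_ne_zero h.cpt a),
    ENNReal.mul_ne_top h.vol_ne_top (polar_ne_top ha)⟩

theorem CB.vp_ne_top {K : Set (ι → ℝ)} (h : CB K) : vp K ≠ ∞ := by
  obtain ⟨a, ha⟩ := h.ne
  exact ne_top_of_le_ne_top (h.term_ne ha).2 (iInf₂_le a ha)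

theorem CB.cprod {K : Set (ι → ℝ)} {L : Set (κ → ℝ)} (hK : CB K) (hL : CB L) :
    CB (cprod K L) where
  cpt := isCompact_cprod hK.cpt hL.cpt
  cvx := convex_cprod hK.cvx hL.cvx
  ne := by
    rw [interior_cprod]
    obtain ⟨a, ha⟩ := hK.ne
    obtain ⟨b, hb⟩ := hL.ne
    exact ⟨Sum.elim a b, ha, hb⟩

theorem term_cprod {K : Set (ι → ℝ)} {L : Set (κ → ℝ)} (hK : CB K) (hL : CB L)
    {a : ι → ℝ} {b : κ → ℝ} (ha : a ∈ interior K) (hb : b ∈ interior L) :
    ((Fintype.card ι + Fintype.card κ).factorial : ℝ≥0∞) *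
      (volume (H432.cprod K L) * volume (polarP (H432.cprod K L) (Sum.elim a b))) =
    ((Fintype.card ι).factorial * (Fintype.card κ).factorial : ℝ≥0∞) *
      ((volume K * volume (polarP K a)) * (volume L * volume (polarP L b))) := by
  have h1 := EF_cprod hK.cpt hL.cpt a b ⟨a, interior_subset ha⟩ ⟨b, interior_subset hb⟩
  rw [EF_eq (isCompact_cprod hK.cpt hL.cpt)
    (show (Sum.elim a b : ι ⊕ κ → ℝ) ∈ H432.cprod K L from
      ⟨interior_subset ha, interior_subset hb⟩),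
    EF_eq hK.cpt (interior_subset ha), EF_eq hL.cpt (interior_subset hb), Fintype.card_sum] at h1
  rw [volume_cprod hK.cpt.measurableSet hL.cpt.measurableSet]
  calc _ = volume K * volume L * (((Fintype.card ι + Fintype.card κ).factorial : ℝ≥0∞) *
        volume (polarP (H432.cprod K L) (Sum.elim a b))) := by ring
    _ = _ := by rw [h1]; ring

theorem vp_cprod {K : Set (ι → ℝ)} {L : Set (κ → ℝ)} (hK : CB K) (hL : CB L) :
    ((Fintype.card ι + Fintype.card κ).factorial : ℝ≥0∞) * vp (cprod K L) =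
    ((Fintype.card ι).factorial * (Fintype.card κ).factorial : ℝ≥0∞) * (vp K * vp L) := by
  have hN0 : ((Fintype.card ι + Fintype.card κ).factorial : ℝ≥0∞) ≠ 0 := by
    exact_mod_cast (Nat.factorial_pos _).ne'
  have hNt : ((Fintype.card ι + Fintype.card κ).factorial : ℝ≥0∞) ≠ ∞ :=
    ENNReal.natCast_ne_top _
  have hc0 : ((Fintype.card ι).factorial * (Fintype.card κ).factorial : ℝ≥0∞) ≠ 0 :=
    mul_ne_zero (by exact_mod_cast (Nat.factorial_pos _).ne')
      (by exact_mod_cast (Nat.factorial_pos _).ne')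
  have hct : ((Fintype.card ι).factorial * (Fintype.card κ).factorial : ℝ≥0∞) ≠ ∞ :=
    ENNReal.mul_ne_top (ENNReal.natCast_ne_top _) (ENNReal.natCast_ne_top _)
  apply le_antisymm
  · rw [mul_comm (_ * _ : ℝ≥0∞) (vp K * vp L), ← ENNReal.div_le_iff hc0 hct]
    refine le_iInf_mul_iInf hK.ne hL.ne (fun a ha => hK.term_ne ha)
      (fun b hb => (hL.term_ne hb).2) fun a ha b hb => ?_
    rw [ENNReal.div_le_iff hc0 hct, mul_comm (_ * _ : ℝ≥0∞) (_ * _ : ℝ≥0∞),
      ← term_cprod hK hL ha hb]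
    refine mul_le_mul' le_rfl (iInf₂_le _ ?_)
    rw [interior_cprod]
    exact ⟨ha, hb⟩
  · rw [mul_comm ((Fintype.card ι + Fintype.card κ).factorial : ℝ≥0∞),
      ← ENNReal.div_le_iff hN0 hNt]
    refine le_iInf₂ fun w hw => ?_
    obtain ⟨a, b, rfl⟩ := exists_elim w
    rw [interior_cprod] at hw
    have ha : a ∈ interior K := hw.1
    have hb : b ∈ interior L := hw.2
    rw [ENNReal.div_le_iff hN0 hNt, mul_comm (_ * _ : ℝ≥0∞) (Nat.factorial _ : ℝ≥0∞),
      term_cprod hK hL ha hb]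
    exact mul_le_mul' le_rfl (mul_le_mul' (iInf₂_le _ ha) (iInf₂_le _ hb))

end vp

end Vale.Agent.P248.H432
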