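import Vale.Agent.P254.H242.Num

/-!
P248: a numerical inequality for bodies which are invariant under a large block of rotations.
-/

open Set

namespace Vale.Agent.P248.H432

open Vale.Agent.P254.H242

/-- the volume ratio of the simplex -/
noncomputable def SS (n : ℕ) : ℝ := 4 ^ n * (n.factorial : ℝ) / ((n : ℝ) + 1) ^ (n + 1)

theorem SS_pos (n : ℕ) : 0 < SS n := by
  unfold SS
  positivity

theorem SS_succ (n : ℕ) : SS (n + 1) ≤ 4 * Real.exp (-1) * SS n := by
  have h0 : (0 : ℝ) < (n : ℝ) + 1 := by positivity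
  have h1 : (0 : ℝ) < (n : ℝ) + 2 := by positivity
  have h2 : ((n : ℝ) + 1) / (n + 2) ≤ Real.exp (-(1 / ((n : ℝ) + 2))) := by
    have h3 := Real.add_one_le_exp (-(1 / ((n : ℝ) + 2)))
    refine le_trans (le_of_eq ?_) h3
    field_simp
    ring
  have h3 : (((n : ℝ) + 1) / (n + 2)) ^ (n + 2) ≤ Real.exp (-1) := by
    have h4 := pow_le_pow_left₀ (by positivity) h2 (n + 2)
    refine h4.trans (le_of_eq ?_)
    rw [← Real.exp_nat_mul]
    congr 1
    push_cast
    field_simp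
  have h4 : SS (n + 1) = 4 * (((n : ℝ) + 1) / (n + 2)) ^ (n + 2) * SS n := by
    unfold SS
    rw [Nat.factorial_succ, div_pow]
    push_cast
    have e1 : (n : ℝ) + 1 + 1 = n + 2 := by ring
    rw [e1]
    field_simp
    ring
  rw [h4]
  have := SS_pos n
  nlinarith [mul_le_mul_of_nonneg_right h3 this.le]

/-- the function of the lemma -/
noncomputable def ff (n p : ℕ) : ℝ := Real.exp (7 / 20 * ((n : ℝ) + 1)) * RR p * SS n

theorem ff_pos (n p : ℕ) : 0 < ff n p := by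
  have h1 := RR_pos p
  have h2 := SS_pos n
  unfold ff
  positivity

theorem ff_succ (n p : ℕ) : ff (n + 1) p ≤ 4 * Real.exp (-(13 / 20)) * ff n p := by
  have h1 := SS_succ n
  have h2 := RR_pos p
  have e1 : Real.exp (7 / 20 * (((n + 1 : ℕ) : ℝ) + 1)) =
      Real.exp (7 / 20 * ((n : ℝ) + 1)) * Real.exp (7 / 20) := by
    rw [← Real.exp_add]
    congr 1
    push_cast
    ring
  have e2 : Real.exp (-(13 / 20)) = Real.exp (7 / 20) * Real.exp (-1) := by
    rw [← Real.exp_add]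
    norm_num
  unfold ff
  rw [e1, e2]
  calc Real.exp (7 / 20 * ((n : ℝ) + 1)) * Real.exp (7 / 20) * RR p * SS (n + 1)
      ≤ Real.exp (7 / 20 * ((n : ℝ) + 1)) * Real.exp (7 / 20) * RR p *
        (4 * Real.exp (-1) * SS n) := mul_le_mul_of_nonneg_left h1 (by positivity)
    _ = 4 * (Real.exp (7 / 20) * Real.exp (-1)) *
        (Real.exp (7 / 20 * ((n : ℝ) + 1)) * RR p * SS n) := by ring

theorem ff_two {n p : ℕ} (hp : 40 ≤ p) :
    ff (n + 2) (p + 2) ≤ Real.exp (7482 / 10000) * (4 / Real.pi ^ 2) * ff n p := by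
  have hp' : (40 : ℝ) ≤ p := by exact_mod_cast hp
  set y : ℝ := 1 / ((p : ℝ) + 2) with hy
  have h0 : 0 ≤ y := by rw [hy]; positivity
  have h1 : y ≤ 1 / 42 := by
    rw [hy]
    exact one_div_le_one_div_of_le (by norm_num) (by linarith)
  have h2 := step2 (by omega : 2 ≤ p) hy
  have hpi : 0 < 4 * Real.pi ^ 2 := by have := Real.pi_pos; positivity
  have h3 : Real.exp (2 + 2 * y + y ^ 2 + y ^ 3) ≤ Real.exp (2 + 482 / 10000) := by
    refine Real.exp_le_exp.2 ?_
    have h4 : y ^ 2 ≤ (1 / 42) ^ 2 := pow_le_pow_left₀ h0 h1 2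
    have h5 : y ^ 3 ≤ (1 / 42) ^ 3 := pow_le_pow_left₀ h0 h1 3
    norm_num at h4 h5 ⊢
    linarith
  have h4 := h2.trans h3
  have h5 : SS (n + 2) ≤ 16 * Real.exp (-2) * SS n := by
    have h6 := SS_succ n
    have h7 := SS_succ (n + 1)
    have h8 : Real.exp (-2) = Real.exp (-1) * Real.exp (-1) := by
      rw [← Real.exp_add]; norm_num
    have h9 : 0 < 4 * Real.exp (-1) := by positivity
    rw [h8]
    calc SS (n + 2) ≤ 4 * Real.exp (-1) * SS (n + 1) := h7
      _ ≤ 4 * Real.exp (-1) * (4 * Real.exp (-1) * SS n) := mul_le_mul_of_nonneg_left h6 h9.le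
      _ = _ := by ring
  have h6 := RR_pos p
  have h7 := SS_pos n
  have e1 : Real.exp (7 / 20 * (((n + 2 : ℕ) : ℝ) + 1)) =
      Real.exp (7 / 20 * ((n : ℝ) + 1)) * Real.exp (7 / 10) := by
    rw [← Real.exp_add]
    congr 1
    push_cast
    ring
  have e2 : Real.exp (7482 / 10000) =
      Real.exp (7 / 10) * Real.exp (2 + 482 / 10000) * Real.exp (-2) := by
    rw [← Real.exp_add, ← Real.exp_add]
    norm_num
  unfold ff
  rw [e1, e2, RR_succ2]
  have h8 : (((p : ℝ) + 3) / (p + 1)) ^ (p + 3) / (4 * Real.pi ^ 2) ≤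
      Real.exp (2 + 482 / 10000) / (4 * Real.pi ^ 2) :=
    div_le_div_of_nonneg_right h4 hpi.le
  have h9 : (((p : ℝ) + 3) / (p + 1)) ^ (p + 3) / (4 * Real.pi ^ 2) * SS (n + 2) ≤
      Real.exp (2 + 482 / 10000) / (4 * Real.pi ^ 2) * (16 * Real.exp (-2) * SS n) :=
    mul_le_mul h8 h5 (SS_pos _).le (by positivity)
  calc Real.exp (7 / 20 * ((n : ℝ) + 1)) * Real.exp (7 / 10) *
        (RR p * ((((p : ℝ) + 3) / (p + 1)) ^ (p + 3) / (4 * Real.pi ^ 2))) * SS (n + 2)
      = Real.exp (7 / 20 * ((n : ℝ) + 1)) * Real.exp (7 / 10) * RR p *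
        ((((p : ℝ) + 3) / (p + 1)) ^ (p + 3) / (4 * Real.pi ^ 2) * SS (n + 2)) := by ring
    _ ≤ Real.exp (7 / 20 * ((n : ℝ) + 1)) * Real.exp (7 / 10) * RR p *
        (Real.exp (2 + 482 / 10000) / (4 * Real.pi ^ 2) * (16 * Real.exp (-2) * SS n)) :=
        mul_le_mul_of_nonneg_left h9 (by positivity)
    _ = _ := by
      field_simp
      ring

/-- the diagonal -/
theorem ff_diag (p : ℕ) : ff p p =
    Real.exp (7 / 20 * ((p : ℝ) + 1)) * (4 ^ p / ((p.factorial : ℝ) * kap p ^ 2)) := by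
  have h1 := kap_pos p
  have h2 : ((p.factorial : ℕ) : ℝ) ≠ 0 := by positivity
  have h3 : (p : ℝ) + 1 ≠ 0 := by positivity
  unfold ff SS RR
  field_simp

theorem ff_diag_two (p : ℕ) : ff (p + 2) (p + 2) =
    Real.exp (7 / 10) * (4 * ((p : ℝ) + 2) / ((p + 1) * Real.pi ^ 2)) * ff p p := by
  have h1 := (kap_pos p).ne'
  have h2 : ((p.factorial : ℕ) : ℝ) ≠ 0 := by positivity
  have h3 : (p : ℝ) + 1 ≠ 0 := by positivity
  have h4 : (p : ℝ) + 2 ≠ 0 := by positivity
  have hpi := Real.pi_pos.ne'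
  rw [ff_diag, ff_diag, kap_succ2, Nat.factorial_succ, Nat.factorial_succ]
  have e1 : Real.exp (7 / 20 * (((p + 2 : ℕ) : ℝ) + 1)) =
      Real.exp (7 / 10) * Real.exp (7 / 20 * ((p : ℝ) + 1)) := by
    rw [← Real.exp_add]
    congr 1
    push_cast
    ring
  rw [e1]
  push_cast
  have e2 : (p : ℝ) + 1 + 1 = p + 2 := by ring
  rw [e2]
  field_simp
  ring

theorem exp_07 : Real.exp (7 / 10) ≤ 2.0138 :=
  exp_small (by norm_num) (by norm_num) (by norm_num)

theorem ff_diag_step {p : ℕ} (hp : 40 ≤ p) (h : ff p p < 1) : ff (p + 2) (p + 2) < 1 := by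
  have hp' : (40 : ℝ) ≤ p := by exact_mod_cast hp
  rw [ff_diag_two]
  have h1 := exp_07
  have h2 := pi_sq_ge
  have h3 := ff_pos p p
  have h4 : Real.exp (7 / 10) * (4 * ((p : ℝ) + 2) / ((p + 1) * Real.pi ^ 2)) ≤ 1 := by
    rw [← mul_div_assoc, div_le_one (by positivity)]
    have h5 : Real.exp (7 / 10) * (4 * ((p : ℝ) + 2)) ≤ 2.0138 * (4 * ((p : ℝ) + 2)) :=
      mul_le_mul_of_nonneg_right h1 (by positivity)
    have h6 : ((p : ℝ) + 1) * 9.86958 ≤ ((p : ℝ) + 1) * Real.pi ^ 2 :=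
      mul_le_mul_of_nonneg_left h2 (by positivity)
    norm_num at h5 h6 ⊢
    linarith
  calc _ ≤ 1 * ff p p := mul_le_mul_of_nonneg_right h4 h3.le
    _ < 1 := by rw [one_mul]; exact h


theorem fac_le (a b : ℝ) (ha : 0 ≤ a) (hb : 0 < b) :
    Real.exp (7 / 10) * (4 * a / (b * Real.pi ^ 2)) ≤ 81618 / 100000 * (a / b) := by
  have h1 := exp_07
  have h2 := pi_sq_ge
  have e : Real.exp (7 / 10) * (4 * a / (b * Real.pi ^ 2)) =
      (Real.exp (7 / 10) * 4 / Real.pi ^ 2) * (a / b) := by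
    field_simp
  rw [e]
  refine mul_le_mul_of_nonneg_right ?_ (by positivity)
  rw [div_le_iff₀ (by positivity)]
  norm_num at h1 h2 ⊢
  linarith

theorem ff_even (k : ℕ) : ff (2 * k) (2 * k) ≤
    142 / 100 * ∏ j ∈ Finset.range k, (81618 / 100000 * ((2 * (j : ℝ) + 2) / (2 * j + 1))) := by
  induction k with
  | zero =>
    rw [Nat.mul_zero, ff_diag, kap_zero]
    have : Real.exp (7 / 20) ≤ 142 / 100 := exp_small (by norm_num) (by norm_num) (by norm_num)
    simpa using this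
  | succ k ih =>
    have e : 2 * (k + 1) = 2 * k + 2 := by ring
    rw [e, ff_diag_two, Finset.prod_range_succ]
    have h1 := fac_le (((2 * k : ℕ) : ℝ) + 2) (((2 * k : ℕ) : ℝ) + 1) (by positivity) (by positivity)
    have h2 := ff_pos (2 * k) (2 * k)
    push_cast at h1 ⊢
    calc _ ≤ 81618 / 100000 * ((2 * (k : ℝ) + 2) / (2 * k + 1)) *
          (142 / 100 * ∏ j ∈ Finset.range k, (81618 / 100000 * ((2 * (j : ℝ) + 2) / (2 * j + 1)))) :=
          mul_le_mul h1 ih h2.le (by positivity)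
      _ = _ := by ring

theorem ff_odd (k : ℕ) : ff (2 * k + 1) (2 * k + 1) ≤
    20138 / 10000 * ∏ j ∈ Finset.range k, (81618 / 100000 * ((2 * (j : ℝ) + 3) / (2 * j + 2))) := by
  induction k with
  | zero =>
    rw [Nat.mul_zero, Nat.zero_add, ff_diag, kap_one]
    have := exp_07
    norm_num at this ⊢
    exact this
  | succ k ih =>
    have e : 2 * (k + 1) + 1 = 2 * k + 1 + 2 := by ring
    rw [e, ff_diag_two, Finset.prod_range_succ]
    have h1 := fac_le (((2 * k + 1 : ℕ) : ℝ) + 2) (((2 * k + 1 : ℕ) : ℝ) + 1) (by positivity)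
      (by positivity)
    have h2 := ff_pos (2 * k + 1) (2 * k + 1)
    have e1 : ((2 * k + 1 : ℕ) : ℝ) + 2 = 2 * (k : ℝ) + 3 := by push_cast; ring
    have e2 : ((2 * k + 1 : ℕ) : ℝ) + 1 = 2 * (k : ℝ) + 2 := by push_cast; ring
    rw [e1, e2] at h1 ⊢
    calc _ ≤ 81618 / 100000 * ((2 * (k : ℝ) + 3) / (2 * k + 2)) *
          (20138 / 10000 * ∏ j ∈ Finset.range k, (81618 / 100000 * ((2 * (j : ℝ) + 3) / (2 * j + 2)))) :=
          mul_le_mul h1 ih h2.le (by positivity)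
      _ = _ := by ring

theorem ff_40 : ff 40 40 < 1 := by
  have h := ff_even 20
  refine h.trans_lt ?_
  simp only [Finset.prod_range_succ, Finset.prod_range_zero]
  norm_num

theorem ff_41 : ff 41 41 < 1 := by
  have h := ff_odd 20
  refine h.trans_lt ?_
  simp only [Finset.prod_range_succ, Finset.prod_range_zero]
  norm_num

theorem ff_diag_lt {p : ℕ} (hp : 40 ≤ p) : ff p p < 1 := by
  have key : ∀ p : ℕ, 40 ≤ p → ff p p < 1 ∧ ff (p + 1) (p + 1) < 1 := by
    intro p hp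
    induction p, hp using Nat.le_induction with
    | base => exact ⟨ff_40, ff_41⟩
    | succ p hp ih => exact ⟨ih.2, ff_diag_step hp ih.1⟩
  exact (key p hp).1

/-- ten more dimensions, all of them in the block, and one more outside of the block -/
theorem ff_ten {n p : ℕ} (hp : 40 ≤ p) : ff (n + 11) (p + 10) ≤ ff n p := by
  have h1 := ff_succ (n + 10) (p + 10)
  have h2 := ff_two (n := n) (p := p) hp
  have h3 := ff_two (n := n + 2) (p := p + 2) (by omega)
  have h4 := ff_two (n := n + 4) (p := p + 4) (by omega)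
  have h5 := ff_two (n := n + 6) (p := p + 6) (by omega)
  have h6 := ff_two (n := n + 8) (p := p + 8) (by omega)
  have e3 : ff (n + 2 + 2) (p + 2 + 2) = ff (n + 4) (p + 4) := rfl
  have e4 : ff (n + 4 + 2) (p + 4 + 2) = ff (n + 6) (p + 6) := rfl
  have e5 : ff (n + 6 + 2) (p + 6 + 2) = ff (n + 8) (p + 8) := rfl
  have e6 : ff (n + 8 + 2) (p + 8 + 2) = ff (n + 10) (p + 10) := rfl
  have e1 : ff (n + 10 + 1) (p + 10) = ff (n + 11) (p + 10) := rfl
  rw [e3] at h3
  rw [e4] at h4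
  rw [e5] at h5
  rw [e6] at h6
  rw [e1] at h1
  have hpi := Real.pi_pos
  set c : ℝ := Real.exp (7482 / 10000) * (4 / Real.pi ^ 2) with hc
  have hc0 : 0 < c := by positivity
  set d : ℝ := 4 * Real.exp (-(13 / 20)) with hd
  have hd0 : 0 < d := by positivity
  have h7 : ff (n + 11) (p + 10) ≤ d * c ^ 5 * ff n p := by
    calc ff (n + 11) (p + 10) ≤ d * ff (n + 10) (p + 10) := h1
      _ ≤ d * (c * ff (n + 8) (p + 8)) := mul_le_mul_of_nonneg_left h6 hd0.le
      _ ≤ d * (c * (c * ff (n + 6) (p + 6))) :=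
        mul_le_mul_of_nonneg_left (mul_le_mul_of_nonneg_left h5 hc0.le) hd0.le
      _ ≤ d * (c * (c * (c * ff (n + 4) (p + 4)))) :=
        mul_le_mul_of_nonneg_left (mul_le_mul_of_nonneg_left
          (mul_le_mul_of_nonneg_left h4 hc0.le) hc0.le) hd0.le
      _ ≤ d * (c * (c * (c * (c * ff (n + 2) (p + 2))))) :=
        mul_le_mul_of_nonneg_left (mul_le_mul_of_nonneg_left (mul_le_mul_of_nonneg_left
          (mul_le_mul_of_nonneg_left h3 hc0.le) hc0.le) hc0.le) hd0.le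
      _ ≤ d * (c * (c * (c * (c * (c * ff n p))))) :=
        mul_le_mul_of_nonneg_left (mul_le_mul_of_nonneg_left (mul_le_mul_of_nonneg_left
          (mul_le_mul_of_nonneg_left (mul_le_mul_of_nonneg_left h2 hc0.le) hc0.le) hc0.le)
          hc0.le) hd0.le
      _ = _ := by ring
  have h8 : d * c ^ 5 ≤ 1 := by
    have e : d * c ^ 5 = 4 ^ 6 * (Real.exp 3 * Real.exp (91 / 1000)) / (Real.pi ^ 2) ^ 5 := by
      have e7 : Real.exp 3 * Real.exp (91 / 1000) =
          Real.exp (-(13 / 20)) * Real.exp (7482 / 10000) ^ 5 := by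
        rw [← Real.exp_nat_mul, ← Real.exp_add, ← Real.exp_add]
        norm_num
      rw [e7, hc, hd]
      field_simp
    rw [e, div_le_one (by positivity)]
    have h9 := exp3_le
    have h10 : Real.exp (91 / 1000) ≤ 1.0954 := exp_small (by norm_num) (by norm_num) (by norm_num)
    have h11 := pi_sq_ge
    have h12 : Real.exp 3 * Real.exp (91 / 1000) ≤ 20.08554 * 1.0954 :=
      mul_le_mul h9 h10 (Real.exp_pos _).le (by norm_num)
    have h13 : (9.86958 : ℝ) ^ 5 ≤ (Real.pi ^ 2) ^ 5 := pow_le_pow_left₀ (by norm_num) h11 5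
    norm_num at h12 h13 ⊢
    linarith
  calc ff (n + 11) (p + 10) ≤ d * c ^ 5 * ff n p := h7
    _ ≤ 1 * ff n p := mul_le_mul_of_nonneg_right h8 (ff_pos n p).le
    _ = ff n p := one_mul _

theorem ff_lt (q : ℕ) : ∀ p : ℕ, 10 * q + 40 ≤ p → ff (p + q) p < 1 := by
  induction q with
  | zero =>
    intro p hp
    exact ff_diag_lt (by omega)
  | succ q ih =>
    intro p hp
    obtain ⟨r, rfl⟩ : ∃ r, p = r + 10 := ⟨p - 10, by omega⟩
    have h1 := ih r (by omega)
    have h2 := ff_ten (n := r + q) (p := r) (by omega)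
    have e : r + 10 + (q + 1) = r + q + 11 := by ring
    rw [e]
    exact h2.trans_lt h1

theorem q1_num {n p : ℕ} (hpn : p ≤ n) (h : 10 * n + 40 ≤ 11 * p) :
    Real.exp (7 / 20 * ((n : ℝ) + 1)) * RR p *
      (4 ^ n * (n.factorial : ℝ) / ((n : ℝ) + 1) ^ (n + 1)) < 1 := by
  obtain ⟨q, rfl⟩ : ∃ q, n = p + q := ⟨n - p, by omega⟩
  exact ff_lt q p (by omega)

end Vale.Agent.P248.H432
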