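import Vale.Agent.P248.H432.RotLaw
import Vale.Agent.P248.H432.Q1Num

/-! P248: the symmetric Mahler inequality for bodies with a big block of rotations. -/

set_option linter.unusedSectionVars false

open MeasureTheory Set Filter
open scoped ENNReal Topology

namespace Vale.Agent.P248.H432

open Vale.Agent.P254.H242 (RR RR_pos)

theorem q1_rot {n : ℕ} {K : Set (E n)} (hK : IsConvexBody K) {T : Fin 1 → Finset (Fin n)}
    (hT : IsRotInv T K) (hb : 10 * n + 40 ≤ 11 * (T 0).card) :
    ENNReal.ofReal (4 ^ n / (n.factorial : ℝ)) < volumeProduct K := by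
  have hpn : (T 0).card ≤ n := by
    have := Finset.card_le_univ (T 0)
    rwa [Fintype.card_fin] at this
  have h1 := rot_lower hK (fun i j hij => absurd (Subsingleton.elim i j) hij) hT
  rw [Fin.prod_univ_one] at h1
  have hRR := RR_pos (T 0).card
  have ht := mahlerRatio_ne_top hK
  have hsv := simplexVal_pos n
  rw [← ENNReal.ofReal_toReal ht, ← ENNReal.ofReal_mul hRR.le,
    ENNReal.ofReal_le_ofReal_iff (mul_nonneg hRR.le ENNReal.toReal_nonneg)] at h1
  rw [volumeProduct_eq_ratio, ← ENNReal.ofReal_toReal ht, ← ENNReal.ofReal_mul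
    ENNReal.toReal_nonneg]
  set r := (mahlerRatio K).toReal with hr
  have hr0 : 0 ≤ r := ENNReal.toReal_nonneg
  have h2 := q1_num hpn hb
  have hcube : 4 ^ n / (n.factorial : ℝ) =
      (4 ^ n * (n.factorial : ℝ) / ((n : ℝ) + 1) ^ (n + 1)) * simplexVal n := by
    unfold simplexVal
    field_simp
  have hc0 : 0 < 4 ^ n * (n.factorial : ℝ) / ((n : ℝ) + 1) ^ (n + 1) := by positivity
  have h3 : 4 ^ n * (n.factorial : ℝ) / ((n : ℝ) + 1) ^ (n + 1) < r := by
    by_contra hlt
    rw [not_lt] at hlt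
    have h4 : 1 ≤ Real.exp (7 / 20 * ((n : ℝ) + 1)) * RR (T 0).card * r := by
      have h5 := mul_le_mul_of_nonneg_left h1 (Real.exp_pos (7 / 20 * ((n : ℝ) + 1))).le
      rw [← Real.exp_add, add_neg_cancel, Real.exp_zero] at h5
      linarith
    have h5 := mul_le_mul_of_nonneg_left hlt
      (mul_pos (Real.exp_pos (7 / 20 * ((n : ℝ) + 1))) hRR).le
    linarith
  have hr1 : 0 < r := hc0.trans h3
  rw [ENNReal.ofReal_lt_ofReal_iff (mul_pos hr1 hsv), hcube]
  exact mul_lt_mul_of_pos_right h3 hsv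

/-- for origin-symmetric bodies the volume product is `|K| |K°|` -/
theorem le_symm_product {n : ℕ} {K : Set (E n)} (hK : IsConvexBody K) (hs : ∀ x ∈ K, -x ∈ K) :
    volumeProduct K ≤ volume K * volume (polarAt K 0) := by
  refine iInf₂_le 0 ?_
  obtain ⟨x, hx⟩ := hK.2.2
  have h1 : -x ∈ interior K := by
    have hneg : K = (Homeomorph.neg (E n)) ⁻¹' K := by
      ext y
      exact ⟨fun h => hs y h, fun h => by
        have := hs _ h
        simpa using this⟩
    rw [hneg, ← (Homeomorph.neg (E n)).preimage_interior]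
    simpa using hx
  have h2 := hK.2.1.interior hx h1 (by norm_num : (0 : ℝ) ≤ 1 / 2)
    (by norm_num : (0 : ℝ) ≤ 1 / 2) (by norm_num)
  have e : (1 / 2 : ℝ) • x + (1 / 2 : ℝ) • -x = 0 := by
    rw [smul_neg, add_neg_cancel]
  rwa [e] at h2

end Vale.Agent.P248.H432
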