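import Vale.Agent.P248.H432.Prod

/-! P248: the volume product and reindexing of the coordinates. -/

set_option linter.unusedSectionVars false

open MeasureTheory Set
open scoped ENNReal Topology

namespace Vale.Agent.P248.H432

variable {ι κ : Type*} [Fintype ι] [Fintype κ] [DecidableEq ι] [DecidableEq κ]

/-- reindexing -/
def rh (σ : ι ≃ κ) : (κ → ℝ) ≃ₜ (ι → ℝ) where
  toFun w i := w (σ i)
  invFun u k := u (σ.symm k)
  left_inv w := by funext k; simp
  right_inv u := by funext i; simp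
  continuous_toFun := by fun_prop
  continuous_invFun := by fun_prop

theorem rh_mp (σ : ι ≃ κ) : MeasurePreserving (rh σ) volume volume := by
  have h := (volume_measurePreserving_piCongrLeft (fun _ : κ => ℝ) σ).symm
  have e : (⇑(MeasurableEquiv.piCongrLeft (fun _ : κ => ℝ) σ).symm : (κ → ℝ) → (ι → ℝ)) =
      rh σ := by
    funext w i
    rfl
  rwa [e] at h

theorem volume_rh (σ : ι ≃ κ) (S : Set (ι → ℝ)) : volume (rh σ ⁻¹' S) = volume S :=
  (rh_mp σ).measure_preimage_emb (rh σ).measurableEmbedding S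

theorem polarP_rh (σ : ι ≃ κ) (S : Set (ι → ℝ)) (w : κ → ℝ) :
    polarP (rh σ ⁻¹' S) w = rh σ ⁻¹' (polarP S (rh σ w)) := by
  have key : ∀ x y : κ → ℝ, ∑ k, (x k - w k) * y k =
      ∑ i, (rh σ x i - rh σ w i) * rh σ y i := by
    intro x y
    exact (σ.sum_comp (fun k => (x k - w k) * y k)).symm
  ext y
  constructor
  · intro hy x hx
    obtain ⟨x', rfl⟩ := (rh σ).surjective x
    rw [← key]
    exact hy x' hx
  · intro hy x hx
    rw [key]
    exact hy _ hx

theorem vp_rh (σ : ι ≃ κ) (S : Set (ι → ℝ)) : vp (rh σ ⁻¹' S) = vp S := by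
  unfold vp
  rw [← (rh σ).preimage_interior]
  apply le_antisymm
  · refine le_iInf₂ fun u hu => ?_
    obtain ⟨w, rfl⟩ := (rh σ).surjective u
    refine (iInf₂_le w hu).trans ?_
    rw [volume_rh, polarP_rh, volume_rh]
  · refine le_iInf₂ fun w hw => ?_
    refine (iInf₂_le (rh σ w) hw).trans ?_
    rw [volume_rh, polarP_rh, volume_rh]

theorem CB.rh {S : Set (ι → ℝ)} (h : CB S) (σ : ι ≃ κ) : CB (H432.rh σ ⁻¹' S) where
  cpt := (H432.rh σ).isCompact_preimage.2 h.cpt
  cvx := by
    intro x hx y hy s t hs ht hst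
    exact h.cvx hx hy hs ht hst
  ne := by
    rw [← (H432.rh σ).preimage_interior]
    obtain ⟨u, hu⟩ := h.ne
    obtain ⟨w, rfl⟩ := (H432.rh σ).surjective u
    exact ⟨w, hu⟩

end Vale.Agent.P248.H432
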