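import Vale.Agent.P248.H432.MixLaw
import Vale.Agent.P248.H432.Tensor
import Vale.Agent.P254.H242.Blk
import Vale.Agent.P254.H242.Num

/-! P248: bodies invariant under rotations in blocks of coordinates: exchange of the fibres
(the set-up of helper242 for P254, with the volume product instead of the covariance). -/

set_option linter.unusedSectionVars false

open MeasureTheory Set Filter
open scoped ENNReal Topology

namespace Vale.Agent.P248.H432

open Vale.Agent.P254.US (IsG ball)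
open Vale.Agent.P254.H242 (yp xp sp sp_inl sp_inr yp_sp xp_sp sp_mp ext_yx sp_yx cont_yp cont_xp
  cont_sp HG fb NN isG_NN vol_ball kap kap_pos RR RR_pos RInv exists_split HH hg_HH fb_HH vol_fb
  convex_fb compact_fb NN_sq RR_zero)

variable {n q p : ℕ}

theorem vol_le_G {g : (Fin p → ℝ) → ℝ} (hg : IsG g) (hp : 1 ≤ p) (t : ℝ) :
    volume {x | g x ≤ t} = ENNReal.ofReal ((max t 0) ^ p) * volume (ball g) := by
  rcases lt_or_ge 0 t with h | h
  · rw [hg.smul_ball h, Measure.addHaar_smul, Module.finrank_fintype_fun_eq_card,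
      Fintype.card_fin, abs_of_pos (pow_pos h p), max_eq_left h.le]
  · rw [max_eq_right h, zero_pow (by omega), ENNReal.ofReal_zero, zero_mul]
    have h1 : {x | g x ≤ t} ⊆ {(0 : Fin p → ℝ)} := by
      intro x hx
      exact (hg.le_zero_iff x).1 (le_trans hx h)
    refine measure_mono_null h1 ?_
    have : Nonempty (Fin p) := ⟨⟨0, hp⟩⟩
    exact measure_singleton _

theorem radial {g₁ g₂ : (Fin p → ℝ) → ℝ} (h₁ : IsG g₁) (h₂ : IsG g₂) (hp : 1 ≤ p)
    {F : ℝ → ℝ≥0∞} (hF : Measurable F) :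
    volume (ball g₂) * ∫⁻ x, F (g₁ x) = volume (ball g₁) * ∫⁻ x, F (g₂ x) := by
  have hfin : ∀ {g : (Fin p → ℝ) → ℝ}, IsG g → volume (ball g) ≠ ∞ := fun hg =>
    (hg.compact_le 1).measure_lt_top.ne
  have hI : ∀ {g g' : (Fin p → ℝ) → ℝ}, IsG g → IsG g' → ∀ t : ℝ,
      (volume (ball g') • Measure.map g volume) (Iic t) =
        ENNReal.ofReal ((max t 0) ^ p) * (volume (ball g) * volume (ball g')) := by
    intro g g' hg hg' t
    rw [Measure.smul_apply, Measure.map_apply hg.cont.measurable measurableSet_Iic, smul_eq_mul]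
    have : g ⁻¹' Iic t = {x | g x ≤ t} := rfl
    rw [this, vol_le_G hg hp]
    ring
  have hIf : ∀ {g g' : (Fin p → ℝ) → ℝ}, IsG g → IsG g' → ∀ t : ℝ,
      (volume (ball g') • Measure.map g volume) (Iic t) ≠ ∞ := by
    intro g g' hg hg' t
    rw [hI hg hg']
    exact ENNReal.mul_ne_top ENNReal.ofReal_ne_top (ENNReal.mul_ne_top (hfin hg) (hfin hg'))
  have hμ : volume (ball g₂) • Measure.map g₁ volume = volume (ball g₁) • Measure.map g₂ volume := by
    refine Measure.ext_of_Ioc' _ _ (fun a b _ => ?_) fun a b hab => ?_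
    · exact ne_top_of_le_ne_top (hIf h₁ h₂ b) (measure_mono Ioc_subset_Iic_self)
    · rw [← Iic_sdiff_Iic, measure_sdiff (Iic_subset_Iic.2 hab.le) nullMeasurableSet_Iic
        (hIf h₁ h₂ a), measure_sdiff (Iic_subset_Iic.2 hab.le) nullMeasurableSet_Iic (hIf h₂ h₁ a),
        hI h₁ h₂, hI h₂ h₁, hI h₁ h₂, hI h₂ h₁, mul_comm (volume (ball g₂))]
  have h3 := congrArg (fun μ : Measure ℝ => ∫⁻ t, F t ∂μ) hμ
  simp only [lintegral_smul_measure, smul_eq_mul] at h3
  rwa [lintegral_map hF h₁.cont.measurable, lintegral_map hF h₂.cont.measurable] at h3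

/-- the support function of a body with the origin inside -/
theorem isG_hs {W : Set (Fin p → ℝ)} (hW : CB W) (h0 : (0 : Fin p → ℝ) ∈ interior W) :
    IsG (hs W 0) where
  nonneg := hs_nonneg hW.cpt (interior_subset h0)
  smul := fun t ht x => hs_smul hW.cpt ⟨0, interior_subset h0⟩ 0 x ht
  add := fun x y => hs_add_le hW.cpt ⟨0, interior_subset h0⟩ 0 x y
  cont := hs_continuous hW.cpt ⟨0, interior_subset h0⟩ 0
  coer := by
    obtain ⟨ε, hε, hb⟩ := Metric.mem_nhds_iff.1 (mem_interior_iff_mem_nhds.1 h0)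
    refine ⟨ε / 2, by positivity, fun x => ?_⟩
    have hn := hs_nonneg hW.cpt (interior_subset h0) x
    have h1 : ‖x‖ ≤ hs W 0 x / (ε / 2) := by
      refine (pi_norm_le_iff_of_nonneg (by positivity)).2 fun i => ?_
      rw [le_div_iff₀ (by positivity), Real.norm_eq_abs]
      have key : ∀ s : ℝ, |s| = ε / 2 → x i * s ≤ hs W 0 x := by
        intro s hs'
        have hmem : (Pi.single i s : Fin p → ℝ) ∈ W := by
          apply hb
          rw [mem_ball_zero_iff, Pi.norm_single, Real.norm_eq_abs, hs']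
          linarith
        have h2 := le_hs hW.cpt 0 x hmem
        refine le_trans (le_of_eq ?_) h2
        rw [Finset.sum_eq_single i]
        · simp [mul_comm]
        · intro j _ hj
          simp [hj]
        · simp
      have hk1 := key (ε / 2) (abs_of_pos (by positivity))
      have hk2 := key (-(ε / 2)) (by rw [abs_neg]; exact abs_of_pos (by positivity))
      rcases abs_cases (x i) with h3 | h3
      · rw [h3.1]; exact hk1
      · rw [h3.1]; linarith
    rw [le_div_iff₀ (by positivity)] at h1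
    linarith

theorem ball_hs {W : Set (Fin p → ℝ)} (hW : CB W) (h0 : (0 : Fin p → ℝ) ∈ interior W) :
    ball (hs W 0) = polarP W 0 := (polarP_eq hW.cpt ⟨0, interior_subset h0⟩ 0).symm

theorem cb_ball {g : (Fin p → ℝ) → ℝ} (hg : IsG g) : CB (ball g) ∧ (0 : Fin p → ℝ) ∈
    interior (ball g) := by
  have h0 : g 0 = 0 := by
    have := hg.smul 0 le_rfl 0
    rwa [zero_smul, zero_mul] at this
  have hi : (0 : Fin p → ℝ) ∈ interior (ball g) := by
    refine interior_maximal (fun x (hx : g x < 1) => hx.le)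
      (isOpen_lt hg.cont continuous_const) ?_
    show g 0 < 1
    rw [h0]; exact one_pos
  refine ⟨⟨hg.compact_le 1, fun x hx y hy s t hs ht hst => ?_, ⟨0, hi⟩⟩, hi⟩
  show g (s • x + t • y) ≤ 1
  refine (hg.add _ _).trans ?_
  rw [hg.smul s hs, hg.smul t ht]
  have h1 : g x ≤ 1 := hx
  have h2 : g y ≤ 1 := hy
  nlinarith

theorem hs_NN : hs (ball (NN : (Fin p → ℝ) → ℝ)) 0 = NN := by
  have hb := cb_ball (isG_NN (p := p))
  have hn : (ball (NN : (Fin p → ℝ) → ℝ)).Nonempty := ⟨0, interior_subset hb.2⟩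
  funext ξ
  have cs : ∀ x y : Fin p → ℝ, ∑ i, x i * y i ≤ NN x * NN y := by
    intro x y
    unfold NN
    exact Real.sum_mul_le_sqrt_mul_sqrt Finset.univ x y
  apply le_antisymm
  · refine hs_le hn fun x hx => ?_
    have h1 : NN x ≤ 1 := hx
    have h2 := cs x ξ
    have h3 := isG_NN.nonneg ξ
    calc ∑ i, (x i - (0 : Fin p → ℝ) i) * ξ i = ∑ i, x i * ξ i := by simp
      _ ≤ NN x * NN ξ := h2
      _ ≤ 1 * NN ξ := mul_le_mul_of_nonneg_right h1 h3
      _ = NN ξ := one_mul _
  · rcases (isG_NN.nonneg ξ).eq_or_lt with h0 | h0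
    · rw [← h0]
      exact hs_nonneg hb.1.cpt (interior_subset hb.2) ξ
    · have hmem : (NN ξ)⁻¹ • ξ ∈ ball (NN : (Fin p → ℝ) → ℝ) := by
        show NN ((NN ξ)⁻¹ • ξ) ≤ 1
        rw [isG_NN.smul _ (by positivity), inv_mul_cancel₀ h0.ne']
      have h1 := le_hs hb.1.cpt 0 ξ hmem
      refine le_trans (le_of_eq ?_) h1
      have e1 : ∑ i, (((NN ξ)⁻¹ • ξ) i - (0 : Fin p → ℝ) i) * ξ i =
          (NN ξ)⁻¹ * ∑ i, ξ i ^ 2 := by
        rw [Finset.mul_sum]
        refine Finset.sum_congr rfl fun i _ => ?_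
        simp only [Pi.smul_apply, smul_eq_mul, Pi.zero_apply]
        ring
      rw [e1, ← NN_sq]
      field_simp

/-- the support function of the base -/
noncomputable def Ph (e : Fin n ≃ Fin q ⊕ Fin p) (H : Set ((Fin q → ℝ) × ℝ)) (z : Fin n → ℝ)
    (η : Fin q → ℝ) (τ : ℝ) : ℝ :=
  sSup ((fun w : (Fin q → ℝ) × ℝ => ∑ i, (w.1 i - yp e z i) * η i + w.2 * τ) '' H)

theorem Ph_bdd {e : Fin n ≃ Fin q ⊕ Fin p} {H : Set ((Fin q → ℝ) × ℝ)} (hH : HG H)
    (z : Fin n → ℝ) (η : Fin q → ℝ) (τ : ℝ) :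
    BddAbove ((fun w : (Fin q → ℝ) × ℝ => ∑ i, (w.1 i - yp e z i) * η i + w.2 * τ) '' H) :=
  (hH.cpt.image (by fun_prop)).bddAbove

theorem Ph_mono {e : Fin n ≃ Fin q ⊕ Fin p} {H : Set ((Fin q → ℝ) × ℝ)} (hH : HG H)
    (hne : H.Nonempty) (z : Fin n → ℝ) (η : Fin q → ℝ) : Monotone (Ph e H z η) := by
  intro s t hst
  refine csSup_le (hne.image _) ?_
  rintro _ ⟨w, hw, rfl⟩
  have h1 : ∑ i, (w.1 i - yp e z i) * η i + w.2 * t ≤ Ph e H z η t :=
    le_csSup (Ph_bdd hH z η t) ⟨w, hw, rfl⟩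
  have h2 : w.2 * s ≤ w.2 * t := mul_le_mul_of_nonneg_left hst (hH.nn w.1 w.2 hw)
  simp only
  linarith

theorem sum_split (e : Fin n ≃ Fin q ⊕ Fin p) (f : Fin n → ℝ) :
    ∑ i, f i = ∑ j, f (e.symm (Sum.inl j)) + ∑ j, f (e.symm (Sum.inr j)) := by
  rw [← e.symm.sum_comp, Fintype.sum_sum_type]

theorem hs_fb {e : Fin n ≃ Fin q ⊕ Fin p} {H : Set ((Fin q → ℝ) × ℝ)} (hH : HG H)
    (hne : H.Nonempty) {g : (Fin p → ℝ) → ℝ} (hg : IsG g) {z : Fin n → ℝ} (hz : xp e z = 0)
    (w : Fin n → ℝ) :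
    hs (fb e H g) z w = Ph e H z (yp e w) (hs (ball g) 0 (xp e w)) := by
  have hb := cb_ball hg
  have hbn : (ball g).Nonempty := ⟨0, interior_subset hb.2⟩
  have hc := compact_fb e hH hg
  have hsum : ∀ x : Fin n → ℝ, ∑ i, (x i - z i) * w i =
      ∑ j, (yp e x j - yp e z j) * yp e w j + ∑ j, xp e x j * xp e w j := by
    intro x
    rw [sum_split e]
    congr 1
    refine Finset.sum_congr rfl fun j _ => ?_
    have : z (e.symm (Sum.inr j)) = 0 := congrFun hz j
    rw [this, sub_zero]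
    rfl
  have hgz : ∀ x : Fin p → ℝ, ∀ y, ∑ j, x j * y j ≤ g x * hs (ball g) 0 y := by
    intro x y
    rcases (hg.nonneg x).eq_or_lt with h0 | h0
    · have hx : x = 0 := (hg.le_zero_iff x).1 h0.symm.le
      rw [← h0, zero_mul, hx]
      simp
    · have hmem : (g x)⁻¹ • x ∈ ball g := by
        show g ((g x)⁻¹ • x) ≤ 1
        rw [hg.smul _ (by positivity), inv_mul_cancel₀ h0.ne']
      have h1 := le_hs hb.1.cpt 0 y hmem
      have e1 : ∑ i, (((g x)⁻¹ • x) i - (0 : Fin p → ℝ) i) * y i = (g x)⁻¹ * ∑ i, x i * y i := by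
        rw [Finset.mul_sum]
        refine Finset.sum_congr rfl fun i _ => ?_
        simp only [Pi.smul_apply, smul_eq_mul, Pi.zero_apply]
        ring
      rw [e1, inv_mul_le_iff₀ h0] at h1
      exact h1
  have hfn : (fb e H g).Nonempty := by
    obtain ⟨⟨y, r⟩, hr⟩ := hne
    refine ⟨sp e (y, 0), ?_⟩
    show (yp e (sp e (y, 0)), g (xp e (sp e (y, 0)))) ∈ H
    rw [yp_sp, xp_sp]
    have h0 : g 0 = 0 := by
      have := hg.smul 0 le_rfl 0
      rwa [zero_smul, zero_mul] at this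
    rw [h0]
    exact hH.down y r 0 hr le_rfl (hH.nn y r hr)
  apply le_antisymm
  · refine hs_le hfn fun x hx => ?_
    rw [hsum]
    have h1 := hgz (xp e x) (xp e w)
    have h2 : ∑ i, (yp e x i - yp e z i) * yp e w i + g (xp e x) * hs (ball g) 0 (xp e w) ≤
        Ph e H z (yp e w) (hs (ball g) 0 (xp e w)) :=
      le_csSup (Ph_bdd hH z _ _) ⟨(yp e x, g (xp e x)), hx, rfl⟩
    linarith
  · refine csSup_le (hne.image _) ?_
    rintro _ ⟨⟨y, s⟩, hs', rfl⟩
    obtain ⟨x0, hx0, hmax⟩ := hb.1.cpt.exists_isMaxOn hbn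
      (f := fun x => ∑ i, (x i - (0 : Fin p → ℝ) i) * xp e w i)
      (Continuous.continuousOn (by fun_prop))
    have h1 : hs (ball g) 0 (xp e w) ≤ ∑ i, (x0 i - (0 : Fin p → ℝ) i) * xp e w i :=
      hs_le hbn fun x' hx' => hmax hx'
    have hs0 := hH.nn y s hs'
    have hmem : sp e (y, s • x0) ∈ fb e H g := by
      show (yp e (sp e (y, s • x0)), g (xp e (sp e (y, s • x0)))) ∈ H
      rw [yp_sp, xp_sp]
      refine hH.down y s _ hs' (hg.nonneg _) ?_
      rw [hg.smul s hs0]
      have : g x0 ≤ 1 := hx0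
      nlinarith
    have h2 := le_hs hc z w hmem
    rw [hsum, yp_sp, xp_sp] at h2
    refine le_trans ?_ h2
    simp only
    have h3 : ∑ j, (s • x0) j * xp e w j = s * ∑ i, (x0 i - (0 : Fin p → ℝ) i) * xp e w i := by
      rw [Finset.mul_sum]
      refine Finset.sum_congr rfl fun i _ => ?_
      simp only [Pi.smul_apply, smul_eq_mul, Pi.zero_apply]
      ring
    rw [h3]
    have h4 := mul_le_mul_of_nonneg_left h1 hs0
    linarith

theorem lintegral_sp (e : Fin n ≃ Fin q ⊕ Fin p) {G : (Fin n → ℝ) → ℝ≥0∞} (hG : Measurable G) :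
    ∫⁻ w, G w = ∫⁻ η, ∫⁻ ξ, G (sp e (η, ξ)) := by
  rw [← (sp_mp e).lintegral_comp_emb (MeasurableEquiv.measurableEmbedding _) G,
    Measure.volume_eq_prod]
  exact lintegral_prod (fun a => G (sp e a)) (hG.comp (sp e).measurable).aemeasurable

theorem EF_exch {e : Fin n ≃ Fin q ⊕ Fin p} {H : Set ((Fin q → ℝ) × ℝ)} (hH : HG H)
    (hne : H.Nonempty) {g₁ g₂ : (Fin p → ℝ) → ℝ} (h₁ : IsG g₁) (h₂ : IsG g₂) (hp : 1 ≤ p)
    {z : Fin n → ℝ} (hz : xp e z = 0) :
    volume (ball (hs (ball g₂) 0)) * EF (fb e H g₁) z =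
      volume (ball (hs (ball g₁) 0)) * EF (fb e H g₂) z := by
  have b₁ := cb_ball h₁
  have b₂ := cb_ball h₂
  have k₁ := isG_hs b₁.1 b₁.2
  have k₂ := isG_hs b₂.1 b₂.2
  have key : ∀ {g : (Fin p → ℝ) → ℝ}, IsG g → EF (fb e H g) z =
      ∫⁻ η, ∫⁻ ξ, ENNReal.ofReal (Real.exp (-(Ph e H z η (hs (ball g) 0 ξ)))) := by
    intro g hg
    have hfn : (fb e H g).Nonempty := by
      obtain ⟨⟨y, r⟩, hr⟩ := hne
      refine ⟨sp e (y, 0), ?_⟩
      show (yp e (sp e (y, 0)), g (xp e (sp e (y, 0)))) ∈ H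
      rw [yp_sp, xp_sp]
      have h0 : g 0 = 0 := by
        have := hg.smul 0 le_rfl 0
        rwa [zero_smul, zero_mul] at this
      rw [h0]
      exact hH.down y r 0 hr le_rfl (hH.nn y r hr)
    have hcont := hs_continuous (compact_fb e hH hg) hfn z
    unfold EF
    rw [lintegral_sp e (by fun_prop)]
    refine lintegral_congr fun η => lintegral_congr fun ξ => ?_
    rw [hs_fb hH hne hg hz, yp_sp, xp_sp]
  have f₁ : volume (ball (hs (ball g₁) 0)) ≠ ∞ := (k₁.compact_le 1).measure_lt_top.ne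
  have f₂ : volume (ball (hs (ball g₂) 0)) ≠ ∞ := (k₂.compact_le 1).measure_lt_top.ne
  rw [key h₁, key h₂, ← lintegral_const_mul' _ _ f₂, ← lintegral_const_mul' _ _ f₁]
  refine lintegral_congr fun η => ?_
  exact radial k₁ k₂ hp (F := fun τ => ENNReal.ofReal (Real.exp (-(Ph e H z η τ))))
    ((Ph_mono hH hne z η).measurable.neg.exp.ennreal_ofReal)

/-- a body with Santaló point `0` and the volume product of a simplex -/
theorem exists_W (p : ℕ) : ∃ W : Set (Fin p → ℝ), CB W ∧ (0 : Fin p → ℝ) ∈ interior W ∧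
    volume W * volume (polarP W 0) = ENNReal.ofReal (simplexVal p) := by
  have h := join_points isSimplex_point.isConvexBody p
  rw [Nat.zero_add, ratio_simplex isSimplex_point] at h
  obtain ⟨M, hM, hMr⟩ := h
  rw [ratio_eq_one_iff, volumeProduct_eq_vp M 0 (sb p)] at hMr
  have hS := CB_frame hM 0 (sb p)
  set S := frame 0 (sb p) ⁻¹' M with hS'
  obtain ⟨z, hz, hmin⟩ := exists_santalo hS.cpt hS.cvx hS.ne
  have h1 : vp S = volume S * volume (polarP S z) :=
    le_antisymm (iInf₂_le z hz) (le_iInf₂ fun w hw => mul_le_mul' le_rfl (hmin w hw))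
  let F : (Fin p → ℝ) ≃ₜ (Fin p → ℝ) := Homeomorph.addRight z
  have hF : ∀ x, F x = x + z := fun x => rfl
  refine ⟨F ⁻¹' S, ⟨F.isCompact_preimage.2 hS.cpt, ?_, ?_⟩, ?_, ?_⟩
  · intro x hx y hy s t hs ht hst
    rw [mem_preimage, hF] at *
    have h2 := hS.cvx hx hy hs ht hst
    have e : s • x + t • y + z = s • (x + z) + t • (y + z) := by
      have : z = s • z + t • z := by rw [← add_smul, hst, one_smul]
      nth_rewrite 1 [this]
      module
    rw [e]
    exact h2
  · rw [← F.preimage_interior]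
    exact ⟨0, by rw [mem_preimage, hF, zero_add]; exact hz⟩
  · rw [← F.preimage_interior, mem_preimage, hF, zero_add]
    exact hz
  · have e1 : volume (F ⁻¹' S) = volume S := by
      have : (F ⁻¹' S) = (fun x => x + z) ⁻¹' S := rfl
      rw [this, measure_preimage_add_right]
    have e2 : polarP (F ⁻¹' S) 0 = polarP S z := by
      ext y
      constructor
      · intro h x hx
        have h2 := h (x - z) (by rw [mem_preimage, hF, sub_add_cancel]; exact hx)
        refine le_trans (le_of_eq ?_) h2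
        refine Finset.sum_congr rfl fun i _ => ?_
        simp
      · intro h x hx
        rw [mem_preimage, hF] at hx
        have h2 := h _ hx
        refine le_trans (le_of_eq ?_) h2
        refine Finset.sum_congr rfl fun i _ => ?_
        simp
    rw [e1, e2, ← h1, hMr]

/-- **exchange** for the volume product -/
theorem exchV {T : Finset (Fin n)} (hT : 1 ≤ T.card) {K : Set (Fin n → ℝ)} (hK : CB K)
    (hR : RInv T K) : ∃ K' : Set (Fin n → ℝ), CB K' ∧
      (∀ z : Fin n → ℝ, (∀ i ∈ T, z i = 0) →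
        volume K * EF K z * ENNReal.ofReal (RR T.card) = volume K' * EF K' z) ∧
      ∀ T' : Finset (Fin n), Disjoint T T' → RInv T' K → RInv T' K' := by
  obtain ⟨q, e, h1, h2⟩ := exists_split T
  have hKb : Vale.Agent.P254.IsConvexBody K := ⟨hK.cvx, hK.cpt, hK.ne⟩
  have hH := hg_HH hKb hR h1 h2 ⟨0, hT⟩
  have hKe := fb_HH hR h1 h2 ⟨0, hT⟩
  set u : Fin T.card → ℝ := Pi.single ⟨0, hT⟩ 1 with hu
  obtain ⟨W, hW, h0, hWv⟩ := exists_W T.card
  have hWb : Vale.Agent.P254.IsConvexBody W := ⟨hW.cvx, hW.cpt, hW.ne⟩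
  obtain ⟨hg, hb⟩ := Vale.Agent.P254.US.isG_gauge hWb h0
  have hvK : (volume K).toReal ≠ 0 := (hK.vol_toReal_pos).ne'
  have hvW : (volume W).toReal ≠ 0 := (hW.vol_toReal_pos).ne'
  have hV1 := vol_fb e hH isG_NN hT
  rw [hKe, vol_ball hT] at hV1
  have hV2 := vol_fb e hH hg hT
  rw [hb] at hV2
  set J := Vale.Agent.P254.H242.JJ T.card (HH e K u) 0 (fun _ => 1) with hJd
  have hJ : J ≠ 0 := by
    intro h
    rw [h, zero_mul] at hV1
    exact hvK hV1
  have hne : (HH e K u).Nonempty := by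
    obtain ⟨x, hx⟩ := hK.ne
    have hx' := interior_subset hx
    rw [← hKe] at hx'
    exact ⟨_, hx'⟩
  have hcK := compact_fb e hH hg
  have hbody : CB (fb e (HH e K u) (gauge W)) := by
    have h3 := Vale.Agent.P254.FV.body_of_vol (convex_fb e hH hg) hcK
      (by rw [hV2]; exact mul_ne_zero hJ hvW)
    exact ⟨h3.2.1, h3.1, h3.2.2⟩
  refine ⟨_, hbody, fun z hz => ?_, ?_⟩
  · have hzx : xp e z = 0 := funext fun j => hz _ (h2 j)
    have hE := EF_exch hH hne isG_NN hg hT hzx
    rw [hKe, hs_NN, hb, ball_hs hW h0] at hE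
    have hk := kap_pos T.card
    have e1 : volume (ball (NN : (Fin T.card → ℝ) → ℝ)) = ENNReal.ofReal (kap T.card) := by
      rw [← vol_ball hT]
      exact (ENNReal.ofReal_toReal (isG_NN.compact_le 1).measure_lt_top.ne).symm
    rw [e1] at hE
    -- volumes
    have hv : volume K * volume W =
        volume (fb e (HH e K u) (gauge W)) * ENNReal.ofReal (kap T.card) := by
      have f1 := hK.vol_ne_top
      have f2 := hW.vol_ne_top
      have f3 := hbody.vol_ne_top
      rw [← ENNReal.toReal_eq_toReal_iff' (ENNReal.mul_ne_top f1 f2)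
        (ENNReal.mul_ne_top f3 ENNReal.ofReal_ne_top), ENNReal.toReal_mul, ENNReal.toReal_mul,
        ENNReal.toReal_ofReal hk.le, hV1, hV2]
      ring
    have hsv := simplexVal_pos T.card
    have hRR : RR T.card = simplexVal T.card / (kap T.card) ^ 2 := by
      unfold RR simplexVal
      field_simp
    set V' := volume (fb e (HH e K u) (gauge W)) * EF (fb e (HH e K u) (gauge W)) z with hV'
    have h5 : volume K * EF K z * ENNReal.ofReal (simplexVal T.card) =
        V' * ENNReal.ofReal (kap T.card ^ 2) := by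
      rw [← hWv, hV', pow_two, ENNReal.ofReal_mul hk.le]
      calc volume K * EF K z * (volume W * volume (polarP W 0))
          = (volume K * volume W) * (volume (polarP W 0) * EF K z) := by ring
        _ = _ := by rw [hv, hE]; ring
    have hk2 : ENNReal.ofReal (kap T.card ^ 2) ≠ 0 := by
      rw [Ne, ENNReal.ofReal_eq_zero, not_le]; positivity
    rw [hRR, ENNReal.ofReal_div_of_pos (by positivity), ← mul_div_assoc, h5,
      ENNReal.mul_div_cancel_right hk2 ENNReal.ofReal_ne_top]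
  · intro T' hd hR' z hz z' hoff hsum
    have h3 : ∀ i ∈ T', i ∉ T := fun i hi hi2 => Finset.disjoint_left.1 hd hi2 hi
    have hx : xp e z' = xp e z := by
      funext j
      exact hoff _ fun hj => h3 _ hj (h2 j)
    have h4 : ∀ (v : Fin n → ℝ) (x : Fin T.card → ℝ), ∀ i ∈ T', sp e (yp e v, x) i = v i := by
      intro v x i hi
      obtain ⟨s, rfl⟩ := e.symm.surjective i
      rcases s with j | j
      · rw [sp_inl]
        rfl
      · exact absurd (h2 j) (h3 _ hi)
    refine ⟨gauge_nonneg _, ?_⟩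
    show sp e (yp e z', gauge W (xp e z') • u) ∈ K
    rw [hx]
    refine hR' _ hz.2 _ (fun i hi => ?_) ?_
    · obtain ⟨s, rfl⟩ := e.symm.surjective i
      rcases s with j | j
      · rw [sp_inl, sp_inl]
        exact hoff _ hi
      · rw [sp_inr, sp_inr]
    · have e1 : ∑ i ∈ T', sp e (yp e z', gauge W (xp e z) • u) i ^ 2 = ∑ i ∈ T', z' i ^ 2 :=
        Finset.sum_congr rfl fun i hi => by rw [h4 z' _ i hi]
      have e2 : ∑ i ∈ T', sp e (yp e z, gauge W (xp e z) • u) i ^ 2 = ∑ i ∈ T', z i ^ 2 :=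
        Finset.sum_congr rfl fun i hi => by rw [h4 z _ i hi]
      rw [e1, e2]
      exact hsum

/-- several blocks -/
theorem blocksV {m : ℕ} (T : Fin m → Finset (Fin n))
    (hd : ∀ i j, i ≠ j → Disjoint (T i) (T j))
    {K : Set (Fin n → ℝ)} (hK : CB K) (hR : ∀ i, RInv (T i) K) :
    ∃ K' : Set (Fin n → ℝ), CB K' ∧ ∀ z : Fin n → ℝ, (∀ i, ∀ j ∈ T i, z j = 0) →
      volume K * EF K z * ENNReal.ofReal (∏ i, RR (T i).card) = volume K' * EF K' z := by
  classical
  have key : ∀ s : Finset (Fin m), ∃ K' : Set (Fin n → ℝ), CB K' ∧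
      (∀ z : Fin n → ℝ, (∀ i, ∀ j ∈ T i, z j = 0) →
        volume K * EF K z * ENNReal.ofReal (∏ i ∈ s, RR (T i).card) = volume K' * EF K' z) ∧
      ∀ j, j ∉ s → RInv (T j) K' := by
    intro s
    induction s using Finset.induction_on with
    | empty => exact ⟨K, hK, fun z _ => by simp, fun j _ => hR j⟩
    | insert i s hi ih =>
      obtain ⟨K', hK', hD, hR'⟩ := ih
      rcases Nat.eq_zero_or_pos (T i).card with h0 | h0
      · refine ⟨K', hK', fun z hz => ?_, fun j hj => hR' j fun hj2 =>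
          hj (Finset.mem_insert_of_mem hj2)⟩
        rw [Finset.prod_insert hi, h0, RR_zero, one_mul]
        exact hD z hz
      · obtain ⟨K2, hK2, hD2, hR2⟩ := exchV h0 hK' (hR' i hi)
        refine ⟨K2, hK2, fun z hz => ?_, fun j hj => ?_⟩
        · rw [← hD2 z (hz i), ← hD z hz, Finset.prod_insert hi, mul_comm (RR _),
            ENNReal.ofReal_mul (Finset.prod_nonneg fun i _ => (RR_pos _).le)]
          ring
        · have hji : i ≠ j := fun h => hj (h ▸ Finset.mem_insert_self _ _)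
          exact hR2 _ (hd i j hji) (hR' j fun hj2 => hj (Finset.mem_insert_of_mem hj2))
  obtain ⟨K', h1, h2, -⟩ := key Finset.univ
  exact ⟨K', h1, h2⟩

theorem symm_le {K : Set (Fin n → ℝ)} (hK : CB K) {U : Finset (Fin n)}
    (hU : ∀ x ∈ K, (fun i => if i ∈ U then -x i else x i) ∈ K) (z : Fin n → ℝ) :
    EF K (fun i => if i ∈ U then 0 else z i) ≤ EF K z := by
  have hn : K.Nonempty := hK.ne.mono interior_subset
  set z' : Fin n → ℝ := fun i => if i ∈ U then 0 else z i with hz'
  set σ : (Fin n → ℝ) → (Fin n → ℝ) := fun x i => if i ∈ U then -x i else x i with hσ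
  have hσσ : ∀ x, σ (σ x) = x := by
    intro x
    funext i
    simp only [hσ]
    split_ifs <;> simp
  have hmp : MeasurePreserving σ volume volume := by
    have h1 := volume_preserving_pi (α' := fun _ : Fin n => ℝ) (β' := fun _ : Fin n => ℝ)
      (f := fun i => if i ∈ U then (fun t : ℝ => -t) else fun t : ℝ => t) (fun i => by
        split_ifs
        · exact Measure.measurePreserving_neg volume
        · exact MeasurePreserving.id volume)
    refine (show σ = fun (a : Fin n → ℝ) i =>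
      (if i ∈ U then (fun t : ℝ => -t) else fun t : ℝ => t) (a i) from ?_) ▸ h1
    funext x i
    simp only [hσ]
    split_ifs <;> rfl
  set φ : (Fin n → ℝ) → ℝ := fun y => ∑ i, (z' i - z i) * y i with hφ
  have hsh : ∀ y, hs K z y = hs K z' y + φ y := fun y => hs_shift hK.cpt hn z z' y
  have hφσ : ∀ y, φ (σ y) = -φ y := by
    intro y
    simp only [hφ, hσ, hz']
    rw [← Finset.sum_neg_distrib]
    refine Finset.sum_congr rfl fun i _ => ?_
    split_ifs <;> ring
  have hss : ∀ x y, ∑ i, (σ x i - z' i) * y i = ∑ i, (x i - z' i) * σ y i := by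
    intro x y
    refine Finset.sum_congr rfl fun i _ => ?_
    simp only [hσ, hz']
    split_ifs <;> ring
  have hhσ : ∀ y, hs K z' (σ y) = hs K z' y := by
    intro y
    apply le_antisymm
    · refine hs_le hn fun x hx => ?_
      rw [← hss]
      exact le_hs hK.cpt z' y (hU x hx)
    · refine hs_le hn fun x hx => ?_
      have h1 := le_hs hK.cpt z' (σ y) (hU x hx)
      have h2 := hss (σ x) y
      rw [hσσ] at h2
      rw [h2]
      exact h1
  have hc := hs_continuous hK.cpt hn z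
  have hc' := hs_continuous hK.cpt hn z'
  have hcφ : Continuous φ := by rw [hφ]; fun_prop
  have e1 : EF K z = ∫⁻ y, ENNReal.ofReal (Real.exp (-(hs K z' y)) * Real.exp (φ y)) := by
    have h1 : EF K z = ∫⁻ y, ENNReal.ofReal (Real.exp (-(hs K z (σ y)))) := by
      unfold EF
      exact (hmp.lintegral_comp (by fun_prop)).symm
    rw [h1]
    refine lintegral_congr fun y => ?_
    rw [hsh, hhσ, hφσ, ← Real.exp_add]
    congr 2
    ring
  have e2 : EF K z = ∫⁻ y, ENNReal.ofReal (Real.exp (-(hs K z' y)) * Real.exp (-φ y)) := by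
    unfold EF
    refine lintegral_congr fun y => ?_
    rw [hsh, ← Real.exp_add]
    congr 2
    ring
  have e3 : 2 * EF K z' ≤ 2 * EF K z := by
    rw [two_mul (EF K z)]
    nth_rewrite 2 [e1]
    rw [e2, ← lintegral_add_left (by fun_prop)]
    unfold EF
    rw [← lintegral_const_mul _ (by fun_prop)]
    refine lintegral_mono fun y => ?_
    have hE0 := Real.exp_pos (-(hs K z' y))
    rw [← ENNReal.ofReal_add (by positivity) (by positivity),
      show (2 : ℝ≥0∞) = ENNReal.ofReal 2 by norm_num, ← ENNReal.ofReal_mul (by norm_num)]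
    refine ENNReal.ofReal_le_ofReal ?_
    have h5 := Real.add_one_le_exp (φ y)
    have h6 := Real.add_one_le_exp (-φ y)
    nlinarith
  exact (ENNReal.mul_le_mul_iff_right (by norm_num) (by norm_num)).1 e3

end Vale.Agent.P248.H432
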