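import Vale.Agent.P248.H432.Laws

/-! P248: joins and simplices. -/

set_option linter.unusedSectionVars false

open MeasureTheory Set
open scoped ENNReal Topology Pointwise

namespace Vale.Agent.P248.H432

theorem isSimplex_of_family {ι : Type*} [Fintype ι] {n : ℕ} {v : ι → E n}
    (hv : AffineIndependent ℝ v) (hc : Fintype.card ι = n + 1) :
    IsSimplex (convexHull ℝ (range v)) := by
  let e : Fin (n + 1) ≃ ι := Fintype.equivOfCardEq (by rw [Fintype.card_fin, hc])
  refine ⟨v ∘ e, hv.comp_embedding e.toEmbedding, ?_⟩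
  rw [e.surjective.range_comp]

theorem span_eq_top_of_independent {ι : Type*} [Fintype ι] {n : ℕ} {v : ι → E n}
    (hv : AffineIndependent ℝ v) (hc : Fintype.card ι = n + 1) :
    affineSpan ℝ (range v) = ⊤ := by
  rw [hv.affineSpan_eq_top_iff_card_eq_finrank_add_one, hc, finrank_euclideanSpace,
    Fintype.card_fin]

section join

variable {m n N : ℕ} {K : Set (E m)} {L : Set (E n)} {M : Set (E N)}

theorem IsJoin.isSimplex (hK : IsSimplex K) (hL : IsSimplex L) (h : IsJoin K L M) :
    IsSimplex M := by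
  obtain ⟨hN, f, g, ht, rfl⟩ := h
  obtain ⟨v, hv, rfl⟩ := hK
  obtain ⟨w, hw, rfl⟩ := hL
  have hvt := span_eq_top_of_independent hv (by rw [Fintype.card_fin])
  have hwt := span_eq_top_of_independent hw (by rw [Fintype.card_fin])
  have e : convexHull ℝ (f '' convexHull ℝ (range v) ∪ g '' convexHull ℝ (range w)) =
      convexHull ℝ (range (Sum.elim (f ∘ v) (g ∘ w))) := by
    rw [AffineMap.image_convexHull, AffineMap.image_convexHull,
      convexHull_convexHull_union_left, convexHull_convexHull_union_right, Sum.elim_range,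
      range_comp, range_comp]
  rw [e]
  refine isSimplex_of_family ?_ (by
    rw [Fintype.card_sum, Fintype.card_fin, Fintype.card_fin]; omega)
  have hcard : Fintype.card (Fin (m + 1) ⊕ Fin (n + 1)) = N + 1 := by
    rw [Fintype.card_sum, Fintype.card_fin, Fintype.card_fin]; omega
  rw [affineIndependent_iff_finrank_vectorSpan_eq ℝ _ hcard, ← direction_affineSpan]
  have htop : affineSpan ℝ (range (Sum.elim (f ∘ v) (g ∘ w))) = ⊤ := by
    rw [eq_top_iff, ← ht, affineSpan_le]
    have h1 : affineSpan ℝ (range (f ∘ v)) ≤ affineSpan ℝ (range (Sum.elim (f ∘ v) (g ∘ w))) := by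
      refine affineSpan_mono _ ?_
      rw [Sum.elim_range]
      exact subset_union_left
    have h2 : affineSpan ℝ (range (g ∘ w)) ≤ affineSpan ℝ (range (Sum.elim (f ∘ v) (g ∘ w))) := by
      refine affineSpan_mono _ ?_
      rw [Sum.elim_range]
      exact subset_union_right
    rw [range_comp, ← AffineSubspace.map_span, hvt] at h1
    rw [range_comp, ← AffineSubspace.map_span, hwt] at h2
    rintro x (⟨y, rfl⟩ | ⟨y, rfl⟩)
    · exact h1 ⟨y, AffineSubspace.mem_top ℝ _ y, rfl⟩
    · exact h2 ⟨y, AffineSubspace.mem_top ℝ _ y, rfl⟩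
  rw [htop, AffineSubspace.direction_top, finrank_top, finrank_euclideanSpace, Fintype.card_fin]

theorem IsJoin.symm (h : IsJoin K L M) : IsJoin L K M := by
  obtain ⟨hN, f, g, ht, hM⟩ := h
  exact ⟨by omega, g, f, by rw [union_comm]; exact ht, by rw [union_comm]; exact hM⟩

/-- the height function of a join -/
theorem exists_height (f : E m →ᵃ[ℝ] E N) (g : E n →ᵃ[ℝ] E N)
    (h : affineSpan ℝ (range f ∪ range g) = ⊤) (hN : m + n + 1 = N) :
    ∃ ℓ : E N →ₗ[ℝ] ℝ, ∃ c : ℝ, (∀ x, ℓ (f x) = c + 1) ∧ (∀ y, ℓ (g y) = c) := by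
  set B := jbas f g h hN with hB
  have hBj : ∀ i, B i = jfam f g i := fun i => by
    rw [hB]; unfold jbas; rw [coe_basisOfTopLeSpanOfCardEqFinrank]
  refine ⟨B.coord (Sum.inl ()), B.coord (Sum.inl ()) (g 0), fun x => ?_, fun y => ?_⟩
  · have h1 : f x = g 0 + (f 0 - g 0) + f.linear x := by
      have := f.map_vadd 0 x
      rw [vadd_eq_add, add_zero, vadd_eq_add] at this
      rw [this]
      abel
    have h2 : B.coord (Sum.inl ()) (f 0 - g 0) = 1 := by
      have : f 0 - g 0 = B (Sum.inl ()) := by rw [hBj]; rfl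
      rw [this, Module.Basis.coord_apply, Module.Basis.repr_self, Finsupp.single_eq_same]
    have h3 : B.coord (Sum.inl ()) (f.linear x) = 0 := by
      rw [← (sb m).sum_repr x, map_sum, map_sum]
      refine Finset.sum_eq_zero fun i _ => ?_
      have : f.linear (sb m i) = B (Sum.inr (Sum.inl i)) := by rw [hBj]; rfl
      rw [map_smul, map_smul, this, Module.Basis.coord_apply, Module.Basis.repr_self,
        Finsupp.single_eq_of_ne (by simp), smul_zero]
    rw [h1, map_add, map_add, h2, h3, add_zero]
  · have h1 : g y = g 0 + g.linear y := by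
      have := g.map_vadd 0 y
      rw [vadd_eq_add, add_zero, vadd_eq_add] at this
      rw [this]
      abel
    have h3 : B.coord (Sum.inl ()) (g.linear y) = 0 := by
      rw [← (sb n).sum_repr y, map_sum, map_sum]
      refine Finset.sum_eq_zero fun i _ => ?_
      have : g.linear (sb n i) = B (Sum.inr (Sum.inr i)) := by rw [hBj]; rfl
      rw [map_smul, map_smul, this, Module.Basis.coord_apply, Module.Basis.repr_self,
        Finsupp.single_eq_of_ne (by simp), smul_zero]
    rw [h1, map_add, h3, add_zero]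

theorem join_injective (f : E m →ᵃ[ℝ] E N) (g : E n →ᵃ[ℝ] E N)
    (h : affineSpan ℝ (range f ∪ range g) = ⊤) (hN : m + n + 1 = N) :
    Function.Injective f := by
  intro x x' hx
  obtain ⟨hm, hme⟩ := frame_homeo (0 : E m) (sb m)
  obtain ⟨hF, hFe⟩ := frame_homeo (g 0) ((jbas f g h hN).reindex (jix hN))
  obtain ⟨y, rfl⟩ := hm.surjective x
  obtain ⟨y', rfl⟩ := hm.surjective x'
  rw [hme, hme] at *
  obtain ⟨w, hw⟩ := (rh (jix hN)).surjective (jp 1 y (0 : Fin n → ℝ))
  obtain ⟨w', hw'⟩ := (rh (jix hN)).surjective (jp 1 y' (0 : Fin n → ℝ))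
  have e := frame_join f g h hN w hw
  have e' := frame_join f g h hN w' hw'
  rw [hx, ← e', ← hFe, ← hFe] at e
  have e2 := hF.injective e
  rw [e2, hw'] at hw
  have e3 := (pt_inj hw).2.1
  rw [one_smul, one_smul] at e3
  rw [e3]

theorem sum_sub {V ι : Type*} [AddCommMonoid V] [Fintype ι] {p : ι → Prop} [DecidablePred p]
    {F : ι → V} (h : ∀ j, ¬ p j → F j = 0) : ∑ i : {x // p x}, F i.1 = ∑ j, F j := by
  rw [← Fintype.sum_subtype_add_sum_subtype p F,
    Fintype.sum_eq_zero (f := fun i : {x // ¬ p x} => F i.1) fun i => h i.1 i.2, add_zero]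

/-- weights at a vertex -/
theorem vertex_weights {N : ℕ} {v : Fin (N + 1) → E N} (hv : AffineIndependent ℝ v)
    {i : Fin (N + 1)} {w : Fin (N + 1) → ℝ} (h1 : ∑ j, w j = 1) (h2 : ∑ j, w j • v j = v i) :
    ∀ j, j ≠ i → w j = 0 := by
  intro j hj
  rw [affineIndependent_iff] at hv
  have h := hv Finset.univ (fun k => w k - (if k = i then 1 else 0)) (by
    rw [Finset.sum_sub_distrib, h1, Finset.sum_ite_eq' Finset.univ i]
    simp) (by
    simp_rw [sub_smul]
    rw [Finset.sum_sub_distrib, h2]
    simp) j (Finset.mem_univ j)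
  rw [if_neg hj, sub_zero] at h
  exact h

theorem IsJoin.simplex_left (hK : IsConvexBody K) (hL : IsConvexBody L) (h : IsJoin K L M)
    (hM : IsSimplex M) : IsSimplex K := by
  obtain ⟨hN, f, g, ht, hMe⟩ := h
  obtain ⟨v, hv, hMv⟩ := hM
  obtain ⟨ℓ, c, hℓf, hℓg⟩ := exists_height f g ht hN
  have hinj := join_injective f g ht hN
  have hf : Convex ℝ (f '' K) := hK.2.1.affine_image f
  have hg : Convex ℝ (g '' L) := hL.2.1.affine_image g
  have hKn : K.Nonempty := hK.2.2.mono interior_subset
  have hLn : L.Nonempty := hL.2.2.mono interior_subset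
  have hfM : ∀ x ∈ K, f x ∈ convexHull ℝ (range v) := fun x hx => by
    rw [← hMv, hMe]; exact subset_convexHull ℝ _ (Or.inl ⟨x, hx, rfl⟩)
  have hgM : ∀ y ∈ L, g y ∈ convexHull ℝ (range v) := fun y hy => by
    rw [← hMv, hMe]; exact subset_convexHull ℝ _ (Or.inr ⟨y, hy, rfl⟩)
  have hcase : ∀ i, (∃ x ∈ K, v i = f x) ∨ (∃ y ∈ L, v i = g y) := by
    intro i
    have h1 : v i ∈ convexHull ℝ (f '' K ∪ g '' L) := by
      rw [← hMe, hMv]; exact subset_convexHull ℝ _ ⟨i, rfl⟩
    rw [mem_join hf hg (hKn.image f) (hLn.image g)] at h1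
    obtain ⟨s, hs, _, ⟨x, hx, rfl⟩, _, ⟨y, hy, rfl⟩, e⟩ := h1
    rcases eq_or_lt_of_le hs.1 with h0 | h0
    · right
      refine ⟨y, hy, ?_⟩
      rw [e, ← h0, zero_smul, sub_zero, one_smul, zero_add]
    rcases eq_or_lt_of_le hs.2 with h1 | h1
    · left
      refine ⟨x, hx, ?_⟩
      rw [e, h1, sub_self, zero_smul, one_smul, add_zero]
    exfalso
    obtain ⟨α, hα0, hα1, hα2⟩ := mem_hull_fintype.1 (hfM x hx)
    obtain ⟨β, hβ0, hβ1, hβ2⟩ := mem_hull_fintype.1 (hgM y hy)
    have h2 := vertex_weights hv (i := i) (w := fun j => s * α j + (1 - s) * β j) (by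
      rw [Finset.sum_add_distrib, ← Finset.mul_sum, ← Finset.mul_sum, hα1, hβ1]; ring) (by
      simp_rw [add_smul, mul_smul]
      rw [Finset.sum_add_distrib, ← Finset.smul_sum, ← Finset.smul_sum, hα2, hβ2]
      exact e.symm)
    have h1' : 0 < 1 - s := by linarith
    have hα : ∀ j, j ≠ i → α j = 0 := by
      intro j hj
      have h3 := h2 j hj
      have h4 := mul_nonneg h1'.le (hβ0 j)
      have h5 := mul_nonneg h0.le (hα0 j)
      have h6 : s * α j = 0 := by linarith
      exact (mul_eq_zero.1 h6).resolve_left h0.ne'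
    have hβ : ∀ j, j ≠ i → β j = 0 := by
      intro j hj
      have h3 := h2 j hj
      have h4 := mul_nonneg h1'.le (hβ0 j)
      have h5 := mul_nonneg h0.le (hα0 j)
      have h6 : (1 - s) * β j = 0 := by linarith
      exact (mul_eq_zero.1 h6).resolve_left h1'.ne'
    have e1 : f x = v i := by
      rw [← hα2, Finset.sum_eq_single i]
      · have : α i = 1 := by
          rw [← hα1, Finset.sum_eq_single i]
          · intro j _ hj; exact hα j hj
          · simp
        rw [this, one_smul]
      · intro j _ hj; rw [hα j hj, zero_smul]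
      · simp
    have e2 : g y = v i := by
      rw [← hβ2, Finset.sum_eq_single i]
      · have : β i = 1 := by
          rw [← hβ1, Finset.sum_eq_single i]
          · intro j _ hj; exact hβ j hj
          · simp
        rw [this, one_smul]
      · intro j _ hj; rw [hβ j hj, zero_smul]
      · simp
    have e3 := hℓf x
    rw [e1, ← e2, hℓg] at e3
    linarith
  classical
  let I := {i : Fin (N + 1) // ∃ x ∈ K, v i = f x}
  have hIx : ∀ i : I, ∃ x ∈ K, v i.1 = f x := fun i => i.2
  choose k hkK hkv using hIx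
  have hKhull : K = convexHull ℝ (range k) := by
    apply Subset.antisymm
    · intro x hx
      obtain ⟨α, hα0, hα1, hα2⟩ := mem_hull_fintype.1 (hfM x hx)
      have hzero : ∀ j, ¬ (∃ x ∈ K, v j = f x) → α j = 0 := by
        have h1 : ∑ j, α j * (c + 1 - ℓ (v j)) = 0 := by
          have h2 : ℓ (f x) = ∑ j, α j * ℓ (v j) := by
            rw [← hα2, map_sum]
            exact Finset.sum_congr rfl fun j _ => by rw [map_smul, smul_eq_mul]
          rw [hℓf] at h2
          simp_rw [mul_sub]
          rw [Finset.sum_sub_distrib, ← Finset.sum_mul, hα1, ← h2]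
          ring
        have h3 : ∀ j ∈ Finset.univ, 0 ≤ α j * (c + 1 - ℓ (v j)) := by
          intro j _
          refine mul_nonneg (hα0 j) ?_
          rcases hcase j with ⟨x', -, e⟩ | ⟨y', -, e⟩
          · rw [e, hℓf, sub_self]
          · rw [e, hℓg]; linarith
        intro j hj
        have h4 := (Finset.sum_eq_zero_iff_of_nonneg h3).1 h1 j (Finset.mem_univ j)
        rcases hcase j with h5 | ⟨y', -, e⟩
        · exact absurd h5 hj
        · rw [e, hℓg, add_sub_cancel_left, mul_one] at h4
          exact h4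
      have e1 : ∑ i : I, α i.1 = 1 := by
        rw [← hα1]
        exact sum_sub (F := α) hzero
      have e2 : ∑ i : I, α i.1 • v i.1 = f x := by
        rw [← hα2]
        exact sum_sub (F := fun j => α j • v j) fun j hj => by rw [hzero j hj, zero_smul]
      have e3 : f (∑ i : I, α i.1 • k i) = f x := by
        rw [← e2]
        have h5 : f (∑ i : I, α i.1 • k i) = ∑ i : I, α i.1 • f (k i) := by
          have h6 := f.map_vadd 0 (∑ i : I, α i.1 • k i)
          rw [vadd_eq_add, add_zero, vadd_eq_add] at h6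
          rw [h6, map_sum]
          have h7 : ∀ i : I, α i.1 • f (k i) = f.linear (α i.1 • k i) + α i.1 • f 0 := by
            intro i
            have h8 := f.map_vadd 0 (k i)
            rw [vadd_eq_add, add_zero, vadd_eq_add] at h8
            rw [h8, smul_add, map_smul]
          simp_rw [h7]
          rw [Finset.sum_add_distrib, ← Finset.sum_smul, e1, one_smul]
        rw [h5]
        exact Finset.sum_congr rfl fun i _ => by rw [← hkv]
      rw [← hinj e3]
      exact mem_hull_fintype.2 ⟨fun i => α i.1, fun i => hα0 _, e1, rfl⟩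
    · refine convexHull_min ?_ hK.2.1
      rintro _ ⟨i, rfl⟩
      exact hkK i
  have hkind : AffineIndependent ℝ k := by
    refine AffineIndependent.of_comp f ?_
    have e : f ∘ k = v ∘ (Subtype.val : I → Fin (N + 1)) := funext fun i => (hkv i).symm
    rw [e]
    exact hv.comp_embedding (Function.Embedding.subtype _)
  have hspan : affineSpan ℝ (range k) = ⊤ := by
    rw [← interior_convexHull_nonempty_iff_affineSpan_eq_top, ← hKhull]
    exact hK.2.2
  have hcard : Fintype.card I = m + 1 := by
    rw [hkind.affineSpan_eq_top_iff_card_eq_finrank_add_one, finrank_euclideanSpace,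
      Fintype.card_fin] at hspan
    exact hspan
  rw [hKhull]
  exact isSimplex_of_family hkind hcard

end join

end Vale.Agent.P248.H432
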