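import Vale.Agent.P248.Bdl.B1

/-! P248: integrals over products of coordinate spaces. -/

set_option linter.unusedSectionVars false

open MeasureTheory Set
open scoped ENNReal

namespace Vale.Agent.P248.H432

section split

variable {ι κ : Type*} [Fintype ι] [Fintype κ]

theorem measurable_sumElim :
    Measurable (fun p : (ι → ℝ) × (κ → ℝ) => (Sum.elim p.1 p.2 : ι ⊕ κ → ℝ)) := by
  refine measurable_pi_lambda _ fun i => ?_
  cases i <;> simp <;> fun_prop

theorem continuous_sumElim :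
    Continuous (fun p : (ι → ℝ) × (κ → ℝ) => (Sum.elim p.1 p.2 : ι ⊕ κ → ℝ)) := by
  refine continuous_pi fun i => ?_
  cases i <;> simp <;> fun_prop

theorem lintegral_sum_split {F : (ι ⊕ κ → ℝ) → ℝ≥0∞} (hF : Measurable F) :
    ∫⁻ w, F w = ∫⁻ u : ι → ℝ, ∫⁻ v : κ → ℝ, F (Sum.elim u v) := by
  have h := volume_measurePreserving_sumPiEquivProdPi_symm (fun _ : ι ⊕ κ => ℝ)
  rw [← h.lintegral_comp hF, Measure.volume_eq_prod]
  have e : ∀ a : (ι → ℝ) × (κ → ℝ),
      F ((MeasurableEquiv.sumPiEquivProdPi (fun _ : ι ⊕ κ => ℝ)).symm a) =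
        (fun p : (ι → ℝ) × (κ → ℝ) => F (Sum.elim p.1 p.2)) a := by
    intro a
    congr 1
  calc _ = ∫⁻ a : (ι → ℝ) × (κ → ℝ), (fun p : (ι → ℝ) × (κ → ℝ) => F (Sum.elim p.1 p.2)) a
        ∂((volume : Measure (ι → ℝ)).prod (volume : Measure (κ → ℝ))) := lintegral_congr e
    _ = _ := lintegral_prod _ (hF.comp measurable_sumElim).aemeasurable

theorem lintegral_unit {F : (Unit → ℝ) → ℝ≥0∞} (hF : Measurable F) :
    ∫⁻ w, F w = ∫⁻ s : ℝ, F (fun _ => s) := by
  have h := (volume_preserving_funUnique Unit ℝ).symm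
  rw [← h.lintegral_comp hF]
  refine lintegral_congr fun s => ?_
  congr 1

end split

end Vale.Agent.P248.H432
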