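import Vale.Agent.P248.H432.JoinVP
import Vale.Agent.P248.H432.DefsA

/-! P248: the volume product of joins and products in `EuclideanSpace`. -/

set_option linter.unusedSectionVars false

open MeasureTheory Set
open scoped ENNReal Topology Pointwise

namespace Vale.Agent.P248.H432


/-- standard frame -/
noncomputable def sb (n : ℕ) : Module.Basis (Fin n) ℝ (E n) :=
  (EuclideanSpace.basisFun (Fin n) ℝ).toBasis

theorem CB_frame {n : ℕ} {K : Set (E n)} (hK : IsConvexBody K) (p : E n)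
    (b : Module.Basis (Fin n) ℝ (E n)) : CB (frame p b ⁻¹' K) where
  cpt := frame_preimage_isCompact p b hK.1
  cvx := frame_preimage_convex p b hK.2.1
  ne := by
    rw [frame_preimage_interior]
    obtain ⟨x, hx⟩ := hK.2.2
    obtain ⟨h, hh⟩ := frame_homeo p b
    obtain ⟨u, rfl⟩ := h.surjective x
    rw [hh] at hx
    exact ⟨u, hx⟩

theorem body_of_CB {n : ℕ} {K : Set (E n)} {p : E n}
    {b : Module.Basis (Fin n) ℝ (E n)} (h : CB (frame p b ⁻¹' K)) : IsConvexBody K := by
  obtain ⟨hh, hhe⟩ := frame_homeo p b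
  have e : frame p b = hh := funext fun u => (hhe u).symm
  have hK : K = hh '' (frame p b ⁻¹' K) := by
    rw [e, image_preimage_eq _ hh.surjective]
  refine ⟨?_, ?_, ?_⟩
  · rw [hK]; exact h.cpt.image hh.continuous
  · intro x hx y hy s t hs ht hst
    obtain ⟨u, rfl⟩ := hh.surjective x
    obtain ⟨v, rfl⟩ := hh.surjective y
    rw [hhe, hhe] at *
    have h1 := h.cvx hx hy hs ht hst
    rw [mem_preimage, frame_affine p b u v hst] at h1
    exact h1
  · obtain ⟨u, hu⟩ := h.ne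
    rw [frame_preimage_interior] at hu
    exact ⟨_, hu⟩

theorem volumeProduct_eq_vp {n : ℕ} (K : Set (E n)) (p : E n)
    (b : Module.Basis (Fin n) ℝ (E n)) : volumeProduct K = vp (frame p b ⁻¹' K) :=
  volumeProduct_frame p b K

theorem mem_join {V : Type*} [AddCommGroup V] [Module ℝ V] {A B : Set V} (hA : Convex ℝ A)
    (hB : Convex ℝ B) (hAn : A.Nonempty) (hBn : B.Nonempty) {w : V} :
    w ∈ convexHull ℝ (A ∪ B) ↔ ∃ s ∈ Icc (0 : ℝ) 1, ∃ x ∈ A, ∃ y ∈ B, w = s • x + (1 - s) • y := by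
  rw [hA.convexHull_union hB hAn hBn, mem_convexJoin]
  constructor
  · rintro ⟨x, hx, y, hy, s, t, hs, ht, hst, rfl⟩
    refine ⟨s, ⟨hs, by linarith⟩, x, hx, y, hy, ?_⟩
    rw [show 1 - s = t by linarith]
  · rintro ⟨s, hs, x, hx, y, hy, rfl⟩
    exact ⟨x, hx, y, hy, s, 1 - s, hs.1, by linarith [hs.2], by ring, rfl⟩

section join

variable {m n : ℕ} {N : ℕ}

/-- the family adapted to a join -/
noncomputable def jfam (f : E m →ᵃ[ℝ] E N) (g : E n →ᵃ[ℝ] E N) :
    Unit ⊕ (Fin m ⊕ Fin n) → E N :=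
  Sum.elim (fun _ => f 0 - g 0) (Sum.elim (fun i => f.linear (sb m i)) (fun j => g.linear (sb n j)))

theorem top_le_span_jfam {f : E m →ᵃ[ℝ] E N} {g : E n →ᵃ[ℝ] E N}
    (h : affineSpan ℝ (range f ∪ range g) = ⊤) :
    ⊤ ≤ Submodule.span ℝ (range (jfam f g)) := by
  have h1 : vectorSpan ℝ (range f ∪ range g) = ⊤ := by
    rw [← direction_affineSpan, h, AffineSubspace.direction_top]
  rw [← h1, vectorSpan_eq_span_vsub_set_right (k := ℝ) (p := g 0) (Or.inr ⟨0, rfl⟩)]
  have hf : ∀ x : E m, f.linear x ∈ Submodule.span ℝ (range (jfam f g)) := by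
    intro x
    rw [← (sb m).sum_repr x, map_sum]
    refine Submodule.sum_mem _ fun i _ => ?_
    rw [map_smul]
    exact Submodule.smul_mem _ _ (Submodule.subset_span ⟨Sum.inr (Sum.inl i), rfl⟩)
  have hg : ∀ x : E n, g.linear x ∈ Submodule.span ℝ (range (jfam f g)) := by
    intro x
    rw [← (sb n).sum_repr x, map_sum]
    refine Submodule.sum_mem _ fun i _ => ?_
    rw [map_smul]
    exact Submodule.smul_mem _ _ (Submodule.subset_span ⟨Sum.inr (Sum.inr i), rfl⟩)
  refine Submodule.span_le.2 ?_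
  rintro _ ⟨w, hw, rfl⟩
  rcases hw with ⟨x, rfl⟩ | ⟨y, rfl⟩
  · have e : f x -ᵥ g 0 = (f 0 - g 0) + f.linear x := by
      have := f.map_vadd 0 x
      rw [vadd_eq_add, add_zero, vadd_eq_add] at this
      rw [vsub_eq_sub, this]
      abel
    simp only [e]
    exact Submodule.add_mem _ (Submodule.subset_span ⟨Sum.inl (), rfl⟩) (hf x)
  · have e : g y -ᵥ g 0 = g.linear y := by
      have := g.map_vadd 0 y
      rw [vadd_eq_add, add_zero, vadd_eq_add] at this
      rw [vsub_eq_sub, this]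
      abel
    simp only [e]
    exact hg y

/-- the basis adapted to a join -/
noncomputable def jbas (f : E m →ᵃ[ℝ] E N) (g : E n →ᵃ[ℝ] E N)
    (h : affineSpan ℝ (range f ∪ range g) = ⊤) (hN : m + n + 1 = N) :
    Module.Basis (Unit ⊕ (Fin m ⊕ Fin n)) ℝ (E N) :=
  basisOfTopLeSpanOfCardEqFinrank (jfam f g) (top_le_span_jfam h) (by
    rw [finrank_euclideanSpace, Fintype.card_fin, Fintype.card_sum, Fintype.card_sum,
      Fintype.card_unit, Fintype.card_fin, Fintype.card_fin]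
    omega)

/-- index bijection -/
noncomputable def jix (hN : m + n + 1 = N) : Unit ⊕ (Fin m ⊕ Fin n) ≃ Fin N :=
  Fintype.equivOfCardEq (by
    rw [Fintype.card_fin, Fintype.card_sum, Fintype.card_sum,
      Fintype.card_unit, Fintype.card_fin, Fintype.card_fin]
    omega)

theorem frame_join (f : E m →ᵃ[ℝ] E N) (g : E n →ᵃ[ℝ] E N)
    (h : affineSpan ℝ (range f ∪ range g) = ⊤) (hN : m + n + 1 = N) (w : Fin N → ℝ)
    {s : ℝ} {x : Fin m → ℝ} {y : Fin n → ℝ} (hw : rh (jix hN) w = jp s x y) :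
    frame (g 0) ((jbas f g h hN).reindex (jix hN)) w =
      s • f (frame 0 (sb m) x) + (1 - s) • g (frame 0 (sb n) y) := by
  have e1 : ((jbas f g h hN).reindex (jix hN)).equivFun.symm w =
      ∑ i, (rh (jix hN) w) i • jfam f g i := by
    rw [Module.Basis.equivFun_symm_apply, ← (jix hN).sum_comp]
    refine Finset.sum_congr rfl fun i _ => ?_
    rw [Module.Basis.reindex_apply, Equiv.symm_apply_apply]
    unfold jbas
    rw [coe_basisOfTopLeSpanOfCardEqFinrank]
    rfl
  have ex : frame 0 (sb m) x = ∑ i, x i • sb m i := by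
    unfold frame
    rw [zero_add, Module.Basis.equivFun_symm_apply]
  have ey : frame 0 (sb n) y = ∑ i, y i • sb n i := by
    unfold frame
    rw [zero_add, Module.Basis.equivFun_symm_apply]
  have ef : f (frame 0 (sb m) x) = f 0 + ∑ i, x i • f.linear (sb m i) := by
    have := f.map_vadd 0 (frame 0 (sb m) x)
    rw [vadd_eq_add, add_zero, vadd_eq_add] at this
    rw [this, ex, map_sum]
    simp_rw [map_smul]
    abel
  have eg : g (frame 0 (sb n) y) = g 0 + ∑ i, y i • g.linear (sb n i) := by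
    have := g.map_vadd 0 (frame 0 (sb n) y)
    rw [vadd_eq_add, add_zero, vadd_eq_add] at this
    rw [this, ey, map_sum]
    simp_rw [map_smul]
    abel
  unfold frame at *
  rw [e1, hw, ef, eg]
  rw [Fintype.sum_sum_type, Fintype.sum_sum_type]
  simp only [jp, pt, jfam, Sum.elim_inl, Sum.elim_inr, Pi.smul_apply, smul_eq_mul,
    Finset.univ_unique, Finset.sum_singleton]
  have e3 : ∑ i, (s * x i) • f.linear (sb m i) = s • ∑ i, x i • f.linear (sb m i) := by
    rw [Finset.smul_sum]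
    exact Finset.sum_congr rfl fun i _ => by rw [smul_smul]
  have e4 : ∑ i, ((1 - s) * y i) • g.linear (sb n i) =
      (1 - s) • ∑ i, y i • g.linear (sb n i) := by
    rw [Finset.smul_sum]
    exact Finset.sum_congr rfl fun i _ => by rw [smul_smul]
  rw [e3, e4]
  module

theorem preimage_join {K : Set (E m)} {L : Set (E n)} (hK : IsConvexBody K)
    (hL : IsConvexBody L) (f : E m →ᵃ[ℝ] E N) (g : E n →ᵃ[ℝ] E N)
    (h : affineSpan ℝ (range f ∪ range g) = ⊤) (hN : m + n + 1 = N) :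
    frame (g 0) ((jbas f g h hN).reindex (jix hN)) ⁻¹' (convexHull ℝ (f '' K ∪ g '' L)) =
      rh (jix hN) ⁻¹' (cjoin (frame 0 (sb m) ⁻¹' K) (frame 0 (sb n) ⁻¹' L)) := by
  have hf : Convex ℝ (f '' K) := hK.2.1.affine_image f
  have hg : Convex ℝ (g '' L) := hL.2.1.affine_image g
  have hKn : K.Nonempty := hK.2.2.mono interior_subset
  have hLn : L.Nonempty := hL.2.2.mono interior_subset
  obtain ⟨hF, hFe⟩ := frame_homeo (g 0) ((jbas f g h hN).reindex (jix hN))
  obtain ⟨hm, hme⟩ := frame_homeo (0 : E m) (sb m)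
  obtain ⟨hn, hne⟩ := frame_homeo (0 : E n) (sb n)
  ext w
  rw [mem_preimage, mem_join hf hg (hKn.image f) (hLn.image g), mem_preimage]
  constructor
  · rintro ⟨s, hs, _, ⟨x, hx, rfl⟩, _, ⟨y, hy, rfl⟩, e⟩
    obtain ⟨x', rfl⟩ := hm.surjective x
    obtain ⟨y', rfl⟩ := hn.surjective y
    rw [hme] at hx e
    rw [hne] at hy e
    refine ⟨s, hs, x', hx, y', hy, ?_⟩
    obtain ⟨w', hw'⟩ := (rh (jix hN)).surjective (jp s x' y')
    have e2 := frame_join f g h hN w' hw'
    rw [← e, ← hFe, ← hFe] at e2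
    rw [← hF.injective e2, hw']
  · rintro ⟨s, hs, x, hx, y, hy, e⟩
    exact ⟨s, hs, _, ⟨_, hx, rfl⟩, _, ⟨_, hy, rfl⟩, frame_join f g h hN w e⟩

end join

end Vale.Agent.P248.H432
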