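import Vale.Agent.P248.H432.Split

/-! P248: the volume product in coordinates; products of bodies. -/

set_option linter.unusedSectionVars false

open MeasureTheory Set
open scoped ENNReal

namespace Vale.Agent.P248.H432

section vp

variable {ι κ : Type*} [Fintype ι] [Fintype κ] [DecidableEq ι] [DecidableEq κ]

/-- the volume product in coordinates -/
noncomputable def vp (S : Set (ι → ℝ)) : ℝ≥0∞ :=
  ⨅ u ∈ interior S, volume S * volume (polarP S u)

/-- product of two sets -/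
def cprod (K : Set (ι → ℝ)) (L : Set (κ → ℝ)) : Set (ι ⊕ κ → ℝ) :=
  {w | (fun i => w (Sum.inl i)) ∈ K ∧ (fun j => w (Sum.inr j)) ∈ L}

theorem mem_cprod {K : Set (ι → ℝ)} {L : Set (κ → ℝ)} {x : ι → ℝ} {y : κ → ℝ} :
    (Sum.elim x y : ι ⊕ κ → ℝ) ∈ cprod K L ↔ x ∈ K ∧ y ∈ L := Iff.rfl

theorem exists_elim (w : ι ⊕ κ → ℝ) :
    ∃ (x : ι → ℝ) (y : κ → ℝ), w = Sum.elim x y :=
  ⟨fun i => w (Sum.inl i), fun j => w (Sum.inr j), by ext i; cases i <;> rfl⟩

/-- homeomorphism with the product -/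
def hsum (ι κ : Type*) : ((ι → ℝ) × (κ → ℝ)) ≃ₜ (ι ⊕ κ → ℝ) where
  toFun p := Sum.elim p.1 p.2
  invFun w := (fun i => w (Sum.inl i), fun j => w (Sum.inr j))
  left_inv p := rfl
  right_inv w := by ext i; cases i <;> rfl
  continuous_toFun := by
    refine continuous_pi fun i => ?_
    cases i <;> simp <;> fun_prop
  continuous_invFun := by fun_prop

theorem cprod_eq (K : Set (ι → ℝ)) (L : Set (κ → ℝ)) :
    cprod K L = hsum ι κ '' (K ×ˢ L) := by
  ext w
  obtain ⟨x, y, rfl⟩ := exists_elim w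
  rw [mem_cprod]
  constructor
  · rintro ⟨h1, h2⟩
    exact ⟨(x, y), ⟨h1, h2⟩, rfl⟩
  · rintro ⟨⟨a, b⟩, ⟨h1, h2⟩, h3⟩
    have h4 : (a, b) = (x, y) := (hsum ι κ).injective (h3.trans rfl)
    rw [Prod.mk.injEq] at h4
    obtain ⟨rfl, rfl⟩ := h4
    exact ⟨h1, h2⟩

theorem interior_cprod (K : Set (ι → ℝ)) (L : Set (κ → ℝ)) :
    interior (cprod K L) = cprod (interior K) (interior L) := by
  rw [cprod_eq, cprod_eq, ← (hsum ι κ).image_interior, interior_prod_eq]

theorem isCompact_cprod {K : Set (ι → ℝ)} {L : Set (κ → ℝ)} (hK : IsCompact K)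
    (hL : IsCompact L) : IsCompact (cprod K L) := by
  rw [cprod_eq]
  exact (hK.prod hL).image (hsum ι κ).continuous

theorem convex_cprod {K : Set (ι → ℝ)} {L : Set (κ → ℝ)} (hK : Convex ℝ K)
    (hL : Convex ℝ L) : Convex ℝ (cprod K L) := by
  intro w hw w' hw' s t hs ht hst
  exact ⟨hK hw.1 hw'.1 hs ht hst, hL hw.2 hw'.2 hs ht hst⟩

theorem volume_cprod {K : Set (ι → ℝ)} {L : Set (κ → ℝ)} (hK : MeasurableSet K)
    (hL : MeasurableSet L) : volume (cprod K L) = volume K * volume L := by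
  have hm : MeasurableSet (cprod K L) :=
    (hK.preimage (by fun_prop)).inter (hL.preimage (by fun_prop))
  rw [← lintegral_indicator_one hm,
    lintegral_sum_split (measurable_one.indicator hm)]
  have e : ∀ (u : ι → ℝ) (v : κ → ℝ),
      (cprod K L).indicator (1 : (ι ⊕ κ → ℝ) → ℝ≥0∞) (Sum.elim u v) =
        K.indicator 1 u * L.indicator 1 v := by
    intro u v
    by_cases hu : u ∈ K
    · by_cases hv : v ∈ L
      · rw [indicator_of_mem (mem_cprod.2 ⟨hu, hv⟩), indicator_of_mem hu, indicator_of_mem hv]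
        simp
      · rw [indicator_of_notMem (fun h => hv (mem_cprod.1 h).2), indicator_of_notMem hv, mul_zero]
    · rw [indicator_of_notMem (fun h => hu (mem_cprod.1 h).1), indicator_of_notMem hu, zero_mul]
  simp_rw [e]
  have e2 : ∀ u : ι → ℝ, ∫⁻ v : κ → ℝ, K.indicator (1 : (ι → ℝ) → ℝ≥0∞) u * L.indicator 1 v =
      K.indicator 1 u * volume L := by
    intro u
    rw [lintegral_const_mul _ (measurable_one.indicator hL), lintegral_indicator_one hL]
  simp_rw [e2]
  rw [lintegral_mul_const _ (measurable_one.indicator hK), lintegral_indicator_one hK]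

theorem hs_cprod {K : Set (ι → ℝ)} {L : Set (κ → ℝ)} (hK : IsCompact K) (hL : IsCompact L)
    {a : ι → ℝ} {b : κ → ℝ} (ha : K.Nonempty) (hb : L.Nonempty) (u : ι → ℝ) (v : κ → ℝ) :
    hs (cprod K L) (Sum.elim a b) (Sum.elim u v) = hs K a u + hs L b v := by
  have hn : (cprod K L).Nonempty := by
    obtain ⟨x, hx⟩ := ha
    obtain ⟨y, hy⟩ := hb
    exact ⟨Sum.elim x y, hx, hy⟩
  apply le_antisymm
  · refine hs_le hn fun w hw => ?_
    obtain ⟨x, y, rfl⟩ := exists_elim w
    rw [Fintype.sum_sum_type]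
    exact add_le_add (le_hs hK a u hw.1) (le_hs hL b v hw.2)
  · obtain ⟨x, hx, hx2⟩ := hK.exists_isMaxOn ha (f := fun x => ∑ i, (x i - a i) * u i)
      (Continuous.continuousOn (by fun_prop))
    obtain ⟨y, hy, hy2⟩ := hL.exists_isMaxOn hb (f := fun y => ∑ i, (y i - b i) * v i)
      (Continuous.continuousOn (by fun_prop))
    have h1 : hs K a u ≤ ∑ i, (x i - a i) * u i := hs_le ha fun x' hx' => hx2 hx'
    have h2 : hs L b v ≤ ∑ i, (y i - b i) * v i := hs_le hb fun x' hx' => hy2 hx'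
    have h3 := le_hs (isCompact_cprod hK hL) (Sum.elim a b) (Sum.elim u v)
      (mem_cprod.2 ⟨hx, hy⟩)
    rw [Fintype.sum_sum_type] at h3
    simp only [Sum.elim_inl, Sum.elim_inr] at h3
    linarith

theorem EF_cprod {K : Set (ι → ℝ)} {L : Set (κ → ℝ)} (hK : IsCompact K) (hL : IsCompact L)
    (a : ι → ℝ) (b : κ → ℝ) (ha : K.Nonempty) (hb : L.Nonempty) :
    EF (cprod K L) (Sum.elim a b) = EF K a * EF L b := by
  have hn : (cprod K L).Nonempty := by
    obtain ⟨x, hx⟩ := ha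
    obtain ⟨y, hy⟩ := hb
    exact ⟨Sum.elim x y, hx, hy⟩
  have hc := hs_continuous (isCompact_cprod hK hL) hn (Sum.elim a b)
  have hK2 := hs_continuous hK ha a
  have hL2 := hs_continuous hL hb b
  unfold EF
  rw [lintegral_sum_split (by fun_prop)]
  have e : ∀ (u : ι → ℝ) (v : κ → ℝ),
      ENNReal.ofReal (Real.exp (-(hs (cprod K L) (Sum.elim a b) (Sum.elim u v)))) =
        ENNReal.ofReal (Real.exp (-(hs K a u))) * ENNReal.ofReal (Real.exp (-(hs L b v))) := by
    intro u v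
    rw [hs_cprod hK hL ha hb, ← ENNReal.ofReal_mul (Real.exp_pos _).le, ← Real.exp_add]
    congr 2
    ring
  simp_rw [e]
  have e2 : ∀ u : ι → ℝ, ∫⁻ v : κ → ℝ, ENNReal.ofReal (Real.exp (-(hs K a u))) *
      ENNReal.ofReal (Real.exp (-(hs L b v))) = ENNReal.ofReal (Real.exp (-(hs K a u))) *
        ∫⁻ v : κ → ℝ, ENNReal.ofReal (Real.exp (-(hs L b v))) := fun u =>
    lintegral_const_mul _ (by fun_prop)
  simp_rw [e2]
  rw [lintegral_mul_const _ (by fun_prop)]

end vp

end Vale.Agent.P248.H432
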